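import Vale.Agent.P361.SiteAlg

namespace Vale.Agent.P361

open Matrix

noncomputable section

section Ring

variable {R : Type*} [Ring R] [Algebra ℂ R]

def dcm (A B X : R) : R := A * (X * B - B * X) - (X * B - B * X) * A

theorem dcm_add (A B X Y : R) : dcm A B (X + Y) = dcm A B X + dcm A B Y := by
  unfold dcm; noncomm_ring

theorem dcm_zero (A B : R) : dcm A B 0 = 0 := by
  unfold dcm; simp

theorem dcm_neg (A B X : R) : dcm A B (-X) = -dcm A B X := by
  unfold dcm; noncomm_ring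

theorem dcm_sub (A B X Y : R) : dcm A B (X - Y) = dcm A B X - dcm A B Y := by
  rw [sub_eq_add_neg, dcm_add, dcm_neg, ← sub_eq_add_neg]

theorem dcm_smul (A B X : R) (c : ℂ) : dcm A B (c • X) = c • dcm A B X := by
  unfold dcm
  rw [smul_mul_assoc, mul_smul_comm, ← smul_sub, mul_smul_comm, smul_mul_assoc, ← smul_sub]

theorem dcm_sum {ι : Type*} (s : Finset ι) (A B : R) (X : ι → R) :
    dcm A B (∑ i ∈ s, X i) = ∑ i ∈ s, dcm A B (X i) := by
  classical
  induction s using Finset.induction_on with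
  | empty => simp [dcm_zero]
  | insert a s ha ih => rw [Finset.sum_insert ha, Finset.sum_insert ha, dcm_add, ih]

variable {a p m b P M : R}

theorem comm1 (hab : b * m = m * b) (hPm : P * m = m * P) (hMm : M * m = m * M)
    (r1 : p * m - m * p = (2 : ℂ) • a) (r3 : a * m - m * a = -m) :
    (a * b + (1 / 2 : ℂ) • (p * M + m * P)) * m - m * (a * b + (1 / 2 : ℂ) • (p * M + m * P)) =
      a * M - m * b := by
  have e1 : (a * b + (1 / 2 : ℂ) • (p * M + m * P)) * m -
      m * (a * b + (1 / 2 : ℂ) • (p * M + m * P)) =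
      (a * (b * m) - m * (a * b)) +
        (1 / 2 : ℂ) • ((p * (M * m) + m * (P * m)) - (m * (p * M) + m * (m * P))) := by
    rw [add_mul, mul_add, smul_mul_assoc, mul_smul_comm, add_mul, mul_add, smul_sub]
    simp only [mul_assoc]
    abel
  rw [e1, hab, hPm, hMm]
  have e2 : a * (m * b) - m * (a * b) = (a * m - m * a) * b := by noncomm_ring
  have e3 : (p * (m * M) + m * (m * P)) - (m * (p * M) + m * (m * P)) = (p * m - m * p) * M := by
    noncomm_ring
  rw [e2, e3, r1, r3, smul_mul_assoc, smul_smul]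
  norm_num
  abel

theorem comm2 (haM : a * M = M * a) (hpM : p * M = M * p) (hmM : m * M = M * m)
    (s1 : P * M - M * P = (2 : ℂ) • b) (s3 : b * M - M * b = -M) :
    (a * b + (1 / 2 : ℂ) • (p * M + m * P)) * M - M * (a * b + (1 / 2 : ℂ) • (p * M + m * P)) =
      m * b - a * M := by
  have e1 : (a * b + (1 / 2 : ℂ) • (p * M + m * P)) * M -
      M * (a * b + (1 / 2 : ℂ) • (p * M + m * P)) =
      (a * (b * M) - (M * a) * b) +
        (1 / 2 : ℂ) • ((p * (M * M) + m * (P * M)) - ((M * p) * M + (M * m) * P)) := by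
    rw [add_mul, mul_add, smul_mul_assoc, mul_smul_comm, add_mul, mul_add, smul_sub]
    simp only [mul_assoc]
    abel
  rw [e1, ← haM, ← hpM, ← hmM]
  have e2 : a * (b * M) - (a * M) * b = a * (b * M - M * b) := by noncomm_ring
  have e3 : (p * (M * M) + m * (P * M)) - ((p * M) * M + (m * M) * P) = m * (P * M - M * P) := by
    noncomm_ring
  rw [e2, e3, s1, s3, mul_smul_comm, smul_smul]
  norm_num
  abel

theorem comm3 (hbp : b * p = p * b) (hMp : M * p = p * M)
    (r1 : p * m - m * p = (2 : ℂ) • a) (r2 : a * p - p * a = p) :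
    p * (a * M - m * b) - (a * M - m * b) * p = -(p * M) - (2 : ℂ) • (a * b) := by
  have e1 : p * (a * M - m * b) - (a * M - m * b) * p =
      p * a * M - p * m * b - a * (M * p) + m * (b * p) := by noncomm_ring
  rw [e1, hbp, hMp]
  have e2 : p * a * M - p * m * b - a * (p * M) + m * (p * b) =
      -((a * p - p * a) * M) - (p * m - m * p) * b := by noncomm_ring
  rw [e2, r1, r2, smul_mul_assoc]

theorem comm4 (haP : P * a = a * P) (hmP : P * m = m * P)
    (s1 : P * M - M * P = (2 : ℂ) • b) (s2 : b * P - P * b = P) :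
    P * (a * M - m * b) - (a * M - m * b) * P = (2 : ℂ) • (a * b) + m * P := by
  have e1 : P * (a * M - m * b) - (a * M - m * b) * P =
      (P * a) * M - (P * m) * b - a * M * P + m * b * P := by noncomm_ring
  rw [e1, haP, hmP]
  have e2 : a * P * M - m * P * b - a * M * P + m * b * P =
      a * (P * M - M * P) + m * (b * P - P * b) := by noncomm_ring
  rw [e2, s1, s2, mul_smul_comm]

end Ring

variable {V : Type*} [Fintype V] [DecidableEq V] {n : ℕ}

abbrev sz (n : ℕ) (x : V) : Matrix (V → Fin (n + 1)) (V → Fin (n + 1)) ℂ := siteOp x (Sz n)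
abbrev sp (n : ℕ) (x : V) : Matrix (V → Fin (n + 1)) (V → Fin (n + 1)) ℂ := siteOp x (Sp n)
abbrev sm (n : ℕ) (x : V) : Matrix (V → Fin (n + 1)) (V → Fin (n + 1)) ℂ := siteOp x (Sp n)ᴴ

def bond (n : ℕ) (x y : V) : Matrix (V → Fin (n + 1)) (V → Fin (n + 1)) ℂ :=
  sz n x * sz n y + (1 / 2 : ℂ) • (sp n x * sm n y + sm n x * sp n y)

theorem spin_sum (x y : V) :
    ∑ a, siteOp x (spin n a) * siteOp y (spin n a) = bond n x y := by
  rw [Fin.sum_univ_three]
  simp only [spin, Matrix.cons_val_zero, Matrix.cons_val_one, Matrix.cons_val_two,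
    Matrix.head_cons, Matrix.tail_cons, Matrix.cons_val]
  rw [siteOp_smul, siteOp_smul, siteOp_smul, siteOp_smul, siteOp_add, siteOp_add, siteOp_sub,
    siteOp_sub]
  unfold bond
  simp only [smul_mul_smul_comm]
  have h1 : (1 / 2 : ℂ) * (1 / 2) = 1 / 4 := by norm_num
  have h2 : (-Complex.I / 2) * (-Complex.I / 2) = -(1 / 4 : ℂ) := by
    have := Complex.I_mul_I
    linear_combination (1 / 4 : ℂ) * this
  rw [h1, h2]
  rw [neg_smul, ← sub_eq_add_neg, ← smul_sub]
  have h3 : (siteOp x (Sp n) + siteOp x (Sp n)ᴴ) * (siteOp y (Sp n) + siteOp y (Sp n)ᴴ) -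
    (siteOp x (Sp n) - siteOp x (Sp n)ᴴ) * (siteOp y (Sp n) - siteOp y (Sp n)ᴴ) =
    (2 : ℂ) • (siteOp x (Sp n) * siteOp y (Sp n)ᴴ + siteOp x (Sp n)ᴴ * siteOp y (Sp n)) := by
    rw [two_smul]; noncomm_ring
  rw [h3, smul_smul]
  norm_num
  abel

theorem hamG_eq (adj : V → V → Prop) [DecidableRel adj] :
    hamG n adj = -((1 / 2 : ℂ) • ∑ x : V, ∑ y : V, if adj x y then bond n x y else 0) := by
  unfold hamG
  simp only [spin_sum]

theorem rel1 (x : V) : sp n x * sm n x - sm n x * sp n x = (2 : ℂ) • sz n x := by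
  rw [← siteOp_mul, ← siteOp_mul, ← siteOp_sub, Sp_comm_Sm, siteOp_smul]

theorem rel2 (x : V) : sz n x * sp n x - sp n x * sz n x = sp n x := by
  rw [← siteOp_mul, ← siteOp_mul, ← siteOp_sub, Sz_comm_Sp]

theorem rel3 (x : V) : sz n x * sm n x - sm n x * sz n x = -sm n x := by
  rw [← siteOp_mul, ← siteOp_mul, ← siteOp_sub, Sz_comm_Sm]
  have : -(Sp n)ᴴ = (-1 : ℂ) • (Sp n)ᴴ := by simp
  rw [this, siteOp_smul]; simp

def Aop (n : ℕ) (f : V → ℂ) : Matrix (V → Fin (n + 1)) (V → Fin (n + 1)) ℂ :=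
  ∑ z, f z • sp n z

theorem Aop_conjTranspose (f : V → ℂ) : (Aop n f)ᴴ = ∑ z, star (f z) • sm n z := by
  unfold Aop
  rw [Matrix.conjTranspose_sum]
  refine Finset.sum_congr rfl fun z _ => ?_
  rw [Matrix.conjTranspose_smul, siteOp_conjTranspose]

theorem bond_comm_of_ne {x y z : V} (hx : z ≠ x) (hy : z ≠ y)
    (A : Matrix (Fin (n + 1)) (Fin (n + 1)) ℂ) :
    bond n x y * siteOp z A = siteOp z A * bond n x y := by
  have hc : ∀ {w : V} (_ : z ≠ w) (B : Matrix (Fin (n + 1)) (Fin (n + 1)) ℂ),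
      Commute (siteOp w B) (siteOp z A) := fun hw B => (siteOp_comm hw.symm B A)
  have : Commute (bond n x y) (siteOp z A) := by
    unfold bond
    refine Commute.add_left ((hc hx _).mul_left (hc hy _)) ?_
    refine Commute.smul_left ?_ _
    exact Commute.add_left ((hc hx _).mul_left (hc hy _)) ((hc hx _).mul_left (hc hy _))
  exact this

theorem bond_comm_Astar {x y : V} (hxy : x ≠ y) (f : V → ℂ) :
    bond n x y * (Aop n f)ᴴ - (Aop n f)ᴴ * bond n x y =
      (star (f x) - star (f y)) • (sz n x * sm n y - sm n x * sz n y) := by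
  rw [Aop_conjTranspose, Finset.mul_sum, Finset.sum_mul, ← Finset.sum_sub_distrib]
  rw [Fintype.sum_eq_add x y hxy]
  · have h1 : bond n x y * sm n x - sm n x * bond n x y = sz n x * sm n y - sm n x * sz n y :=
      comm1 (siteOp_comm hxy.symm _ _) (siteOp_comm hxy.symm _ _) (siteOp_comm hxy.symm _ _)
        (rel1 x) (rel3 x)
    have h2 : bond n x y * sm n y - sm n y * bond n x y = sm n x * sz n y - sz n x * sm n y :=
      comm2 (siteOp_comm hxy _ _) (siteOp_comm hxy _ _) (siteOp_comm hxy _ _)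
        (rel1 y) (rel3 y)
    rw [mul_smul_comm, smul_mul_assoc, ← smul_sub, h1, mul_smul_comm, smul_mul_assoc, ← smul_sub,
      h2, sub_smul, ← neg_sub (sz n x * sm n y), smul_neg, ← sub_eq_add_neg]
  · intro z hz
    rw [mul_smul_comm, smul_mul_assoc, ← smul_sub, bond_comm_of_ne hz.1 hz.2, sub_self, smul_zero]

theorem dcm_bond {x y : V} (hxy : x ≠ y) (f : V → ℂ) :
    dcm (Aop n f) (Aop n f)ᴴ (bond n x y) =
      (star (f x) - star (f y)) •
        (f x • (-(sp n x * sm n y) - (2 : ℂ) • (sz n x * sz n y)) +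
          f y • ((2 : ℂ) • (sz n x * sz n y) + sm n x * sp n y)) := by
  unfold dcm
  rw [bond_comm_Astar hxy, mul_smul_comm, smul_mul_assoc, ← smul_sub]
  congr 1
  unfold Aop
  rw [Finset.sum_mul, Finset.mul_sum, ← Finset.sum_sub_distrib, Fintype.sum_eq_add x y hxy]
  · have h3 : sp n x * (sz n x * sm n y - sm n x * sz n y) -
        (sz n x * sm n y - sm n x * sz n y) * sp n x =
        -(sp n x * sm n y) - (2 : ℂ) • (sz n x * sz n y) :=
      comm3 (siteOp_comm hxy.symm _ _) (siteOp_comm hxy.symm _ _) (rel1 x) (rel2 x)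
    have h4 : sp n y * (sz n x * sm n y - sm n x * sz n y) -
        (sz n x * sm n y - sm n x * sz n y) * sp n y =
        (2 : ℂ) • (sz n x * sz n y) + sm n x * sp n y :=
      comm4 (siteOp_comm hxy.symm _ _) (siteOp_comm hxy.symm _ _) (rel1 y) (rel2 y)
    rw [smul_mul_assoc, mul_smul_comm, ← smul_sub, h3, smul_mul_assoc, mul_smul_comm, ← smul_sub,
      h4]
  · intro z hz
    have hc : Commute (sp n z) (sz n x * sm n y - sm n x * sz n y) := by
      refine Commute.sub_right ?_ ?_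
      · exact Commute.mul_right (siteOp_comm hz.1 _ _) (siteOp_comm hz.2 _ _)
      · exact Commute.mul_right (siteOp_comm hz.1 _ _) (siteOp_comm hz.2 _ _)
    rw [smul_mul_assoc, mul_smul_comm, ← smul_sub, hc.eq, sub_self, smul_zero]

theorem spin_two (n : ℕ) : spin n 2 = Sz n := rfl

theorem mag_comm_Astar (f : V → ℂ) :
    magG n V * (Aop n f)ᴴ - (Aop n f)ᴴ * magG n V = -(Aop n f)ᴴ := by
  rw [Aop_conjTranspose, Finset.mul_sum, Finset.sum_mul, ← Finset.sum_sub_distrib,
    ← Finset.sum_neg_distrib]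
  refine Finset.sum_congr rfl fun z _ => ?_
  rw [mul_smul_comm, smul_mul_assoc, ← smul_sub, ← smul_neg]
  congr 1
  unfold magG
  rw [Finset.sum_mul, Finset.mul_sum, ← Finset.sum_sub_distrib, Fintype.sum_eq_single z]
  · rw [spin_two, rel3]
  · intro w hw
    rw [siteOp_comm hw, sub_self]

theorem dcm_mag (f : V → ℂ) :
    dcm (Aop n f) (Aop n f)ᴴ (magG n V) = -(Aop n f * (Aop n f)ᴴ - (Aop n f)ᴴ * Aop n f) := by
  unfold dcm
  rw [mag_comm_Astar]
  noncomm_ring

theorem A_comm_Astar (f : V → ℂ) :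
    Aop n f * (Aop n f)ᴴ - (Aop n f)ᴴ * Aop n f =
      ∑ x, ((2 : ℂ) * (Complex.normSq (f x) : ℝ)) • sz n x := by
  rw [Aop_conjTranspose]
  unfold Aop
  rw [Finset.sum_mul_sum, Finset.sum_mul_sum, Finset.sum_comm (γ := V) (f := fun i j =>
    star (f i) • sm n i * f j • sp n j), ← Finset.sum_sub_distrib]
  refine Finset.sum_congr rfl fun x _ => ?_
  rw [← Finset.sum_sub_distrib, Fintype.sum_eq_single x]
  · rw [smul_mul_smul_comm, smul_mul_smul_comm, mul_comm (star (f x)), ← smul_sub, rel1, smul_smul]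
    congr 1
    rw [Complex.normSq_eq_conj_mul_self]
    change f x * (starRingEnd ℂ) (f x) * 2 = _
    ring
  · intro w hw
    rw [smul_mul_smul_comm, smul_mul_smul_comm, siteOp_comm hw.symm, mul_comm (f x), sub_self]

end

end Vale.Agent.P361
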