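import Mathlib

namespace Vale.Agent.P361

open Matrix Filter Topology

noncomputable section

def Sz (n : ℕ) : Matrix (Fin (n + 1)) (Fin (n + 1)) ℂ :=
  Matrix.diagonal fun i => (n : ℂ) / 2 - (i : ℕ)

def Sp (n : ℕ) : Matrix (Fin (n + 1)) (Fin (n + 1)) ℂ :=
  Matrix.of fun i j =>
    if (i : ℕ) + 1 = (j : ℕ) then ((Real.sqrt ((j : ℕ) * ((n : ℝ) + 1 - (j : ℕ))) : ℝ) : ℂ) else 0

def spin (n : ℕ) : Fin 3 → Matrix (Fin (n + 1)) (Fin (n + 1)) ℂ :=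
  ![(1 / 2 : ℂ) • (Sp n + (Sp n)ᴴ), (-Complex.I / 2) • (Sp n - (Sp n)ᴴ), Sz n]

section General

variable {V : Type*} [Fintype V] [DecidableEq V]

def siteOp {n : ℕ} (x : V) (A : Matrix (Fin (n + 1)) (Fin (n + 1)) ℂ) :
    Matrix (V → Fin (n + 1)) (V → Fin (n + 1)) ℂ :=
  Matrix.of fun σ τ => if ∀ y, y ≠ x → σ y = τ y then A (σ x) (τ x) else 0

def hamG (n : ℕ) (adj : V → V → Prop) [DecidableRel adj] :
    Matrix (V → Fin (n + 1)) (V → Fin (n + 1)) ℂ :=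
  -((1 / 2 : ℂ) • ∑ x : V, ∑ y : V,
    if adj x y then ∑ a, siteOp x (spin n a) * siteOp y (spin n a) else 0)

def magG (n : ℕ) (V : Type*) [Fintype V] [DecidableEq V] :
    Matrix (V → Fin (n + 1)) (V → Fin (n + 1)) ℂ :=
  ∑ x : V, siteOp x (spin n 2)

def partG (n : ℕ) (adj : V → V → Prop) [DecidableRel adj] (β h : ℝ) : ℝ :=
  (Matrix.trace (NormedSpace.exp (-(β : ℂ) • (hamG n adj - (h : ℂ) • magG n V)))).re

end General

abbrev Site (N : ℕ) : Type := Fin 3 → ↥(Finset.Icc (-(N : ℤ)) (N : ℤ))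

def nn (N : ℕ) (x y : Site N) : Prop := ∑ j, |(x j : ℤ) - (y j : ℤ)| = 1

instance (N : ℕ) : DecidableRel (nn N) := fun x y => by unfold nn; infer_instance

def pressureN (n N : ℕ) (β h : ℝ) : ℝ :=
  1 / (β * (2 * N + 1) ^ 3) * Real.log (partG n (nn N) β h)

def pressure (n : ℕ) (β h : ℝ) : ℝ :=
  limUnder atTop fun N : ℕ => pressureN n N β h

def spontMag (n : ℕ) (β : ℝ) : ℝ :=
  derivWithin (fun h => pressure n β h) (Set.Ioi 0) 0

end

end Vale.Agent.P361
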