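import Vale.Agent.P361.Gibbs

namespace Vale.Agent.P361

open Matrix

noncomputable section

variable {m : Type*} [Fintype m] [DecidableEq m]

theorem peierls_bogoliubov [Nonempty m] (A C : Matrix m m ℂ) (hA : A.IsHermitian)
    (hC : C.IsHermitian) :
    Real.log (trace (NormedSpace.exp A)).re +
      (trace ((C - A) * NormedSpace.exp A)).re / (trace (NormedSpace.exp A)).re ≤
    Real.log (trace (NormedSpace.exp C)).re := by
  obtain ⟨U, α, hU1, hU2, hA3, hA4⟩ := exists_diag A hA
  obtain ⟨V, γ, hV1, hV2, hC3, hC4⟩ := exists_diag C hC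
  set W := Vᴴ * U with hW
  have hW1 : Wᴴ * W = 1 := by
    rw [hW, Matrix.conjTranspose_mul, Matrix.conjTranspose_conjTranspose]
    calc Uᴴ * V * (Vᴴ * U) = Uᴴ * (V * Vᴴ) * U := by simp only [Matrix.mul_assoc]
      _ = 1 := by rw [hV2]; simp [hU1]
  have hW2 : W * Wᴴ = 1 := by
    rw [hW, Matrix.conjTranspose_mul, Matrix.conjTranspose_conjTranspose]
    calc Vᴴ * U * (Uᴴ * V) = Vᴴ * (U * Uᴴ) * V := by simp only [Matrix.mul_assoc]
      _ = 1 := by rw [hU2]; simp [hV1]
  have hcol : ∀ i, ∑ k, Complex.normSq (W k i) = 1 := by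
    intro i
    have h := congrFun (congrFun hW1 i) i
    rw [Matrix.mul_apply, Matrix.one_apply_eq] at h
    have h2 : ∀ k, Wᴴ i k * W k i = ((Complex.normSq (W k i) : ℝ) : ℂ) := by
      intro k; rw [Matrix.conjTranspose_apply, Complex.normSq_eq_conj_mul_self]; rfl
    rw [Finset.sum_congr rfl fun k _ => h2 k] at h
    exact_mod_cast h
  have hrow : ∀ k, ∑ i, Complex.normSq (W k i) = 1 := by
    intro k
    have h := congrFun (congrFun hW2 k) k
    rw [Matrix.mul_apply, Matrix.one_apply_eq] at h
    have h2 : ∀ i, W k i * Wᴴ i k = ((Complex.normSq (W k i) : ℝ) : ℂ) := by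
      intro i; rw [Matrix.conjTranspose_apply, Complex.normSq_eq_conj_mul_self, mul_comm]; rfl
    rw [Finset.sum_congr rfl fun k _ => h2 k] at h
    exact_mod_cast h
  have hZA := trace_exp hU1 hA4
  have hZC := trace_exp hV1 hC4
  set Z := ∑ i, Real.exp (α i) with hZ
  have hZpos : 0 < Z := Finset.sum_pos (fun i _ => Real.exp_pos _) Finset.univ_nonempty
  -- diagonal entries of Uᴴ (C - A) U
  have hdiag : ∀ i, ((Uᴴ * (C - A) * U) i i).re = ∑ k, Complex.normSq (W k i) * (γ k - α i) := by
    intro i
    have e1 : Uᴴ * (C - A) * U = Wᴴ * diagonal (fun i => (γ i : ℂ)) * W -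
        diagonal (fun i => (α i : ℂ)) := by
      rw [Matrix.mul_sub, Matrix.sub_mul]
      congr 1
      · conv_lhs => rw [hC3]
        rw [hW, Matrix.conjTranspose_mul, Matrix.conjTranspose_conjTranspose]
        simp only [Matrix.mul_assoc]
      · conv_lhs => rw [hA3]
        calc Uᴴ * (U * diagonal (fun i => (α i : ℂ)) * Uᴴ) * U =
            (Uᴴ * U) * diagonal (fun i => (α i : ℂ)) * (Uᴴ * U) := by simp only [Matrix.mul_assoc]
          _ = _ := by rw [hU1]; simp
    rw [e1, Matrix.sub_apply, Complex.sub_re, Matrix.mul_apply, Complex.re_sum,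
      Matrix.diagonal_apply_eq, Complex.ofReal_re]
    have e2 : ∀ k, ((Wᴴ * diagonal (fun i => (γ i : ℂ))) i k * W k i).re =
        Complex.normSq (W k i) * γ k := by
      intro k
      rw [Matrix.mul_diagonal, Matrix.conjTranspose_apply]
      have : star (W k i) * (γ k : ℂ) * W k i = ((Complex.normSq (W k i) * γ k : ℝ) : ℂ) := by
        push_cast
        rw [Complex.normSq_eq_conj_mul_self]
        change (starRingEnd ℂ) (W k i) * (γ k : ℂ) * W k i = _
        ring
      rw [this, Complex.ofReal_re]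
    rw [Finset.sum_congr rfl fun k _ => e2 k]
    simp only [mul_sub, Finset.sum_sub_distrib]
    rw [← Finset.sum_mul, hcol, one_mul]
  have hT : (trace ((C - A) * NormedSpace.exp A)).re =
      ∑ i, (∑ k, Complex.normSq (W k i) * (γ k - α i)) * Real.exp (α i) := by
    rw [trace_mul_exp hA4, Complex.re_sum]
    refine Finset.sum_congr rfl fun i _ => ?_
    rw [Complex.re_mul_ofReal, hdiag]
  rw [hZA, hZC, hT]
  set t := (∑ i, (∑ k, Complex.normSq (W k i) * (γ k - α i)) * Real.exp (α i)) / Z with ht
  have htZ : ∑ i, (∑ k, Complex.normSq (W k i) * (γ k - α i)) * Real.exp (α i) = t * Z := by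
    rw [ht, div_mul_cancel₀ _ hZpos.ne']
  have hmain : Z * Real.exp t ≤ ∑ k, Real.exp (γ k) := by
    have h1 : ∑ k, Real.exp (γ k) = ∑ i, ∑ k, Complex.normSq (W k i) * Real.exp (γ k) := by
      rw [Finset.sum_comm]
      refine Finset.sum_congr rfl fun k _ => ?_
      rw [← Finset.sum_mul, hrow, one_mul]
    rw [h1]
    have h2 : ∀ i k, Complex.normSq (W k i) *
        (Real.exp (α i) * Real.exp t * (1 + (γ k - α i) - t)) ≤
        Complex.normSq (W k i) * Real.exp (γ k) := by
      intro i k
      refine mul_le_mul_of_nonneg_left ?_ (Complex.normSq_nonneg _)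
      have h3 := Real.add_one_le_exp (γ k - α i - t)
      have h4 : Real.exp (γ k) = Real.exp (α i) * Real.exp t * Real.exp (γ k - α i - t) := by
        rw [← Real.exp_add, ← Real.exp_add]; congr 1; ring
      rw [h4]
      refine mul_le_mul_of_nonneg_left (by linarith [h3]) (mul_nonneg (Real.exp_pos _).le (Real.exp_pos _).le)
    have h3 : ∑ i, ∑ k, Complex.normSq (W k i) *
        (Real.exp (α i) * Real.exp t * (1 + (γ k - α i) - t)) = Z * Real.exp t := by
      have h4 : ∀ i, ∑ k, Complex.normSq (W k i) *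
        (Real.exp (α i) * Real.exp t * (1 + (γ k - α i) - t)) =
        Real.exp t * ((1 - t) * Real.exp (α i) +
          (∑ k, Complex.normSq (W k i) * (γ k - α i)) * Real.exp (α i)) := by
        intro i
        have h5 : ∀ k, Complex.normSq (W k i) *
          (Real.exp (α i) * Real.exp t * (1 + (γ k - α i) - t)) =
          Complex.normSq (W k i) * (Real.exp (α i) * Real.exp t * (1 - t)) +
          (Complex.normSq (W k i) * (γ k - α i)) * (Real.exp (α i) * Real.exp t) := by
          intro k; ring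
        rw [Finset.sum_congr rfl fun k _ => h5 k, Finset.sum_add_distrib, ← Finset.sum_mul,
          ← Finset.sum_mul, hcol]
        ring
      rw [Finset.sum_congr rfl fun i _ => h4 i, ← Finset.mul_sum, Finset.sum_add_distrib,
        ← Finset.mul_sum, ← hZ, htZ]
      ring
    rw [← h3]
    exact Finset.sum_le_sum fun i _ => Finset.sum_le_sum fun k _ => h2 i k
  have h5 : Real.log Z + t = Real.log (Z * Real.exp t) := by
    rw [Real.log_mul hZpos.ne' (Real.exp_pos _).ne', Real.log_exp]
  rw [h5]
  exact Real.log_le_log (mul_pos hZpos (Real.exp_pos _)) hmain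

theorem convexOn_of_support {f g : ℝ → ℝ} (h : ∀ x y, f x + (y - x) * g x ≤ f y) :
    ConvexOn ℝ Set.univ f := by
  refine ⟨convex_univ, fun x _ y _ a b ha hb hab => ?_⟩
  simp only [smul_eq_mul]
  have h1 := h (a * x + b * y) x
  have h2 := h (a * x + b * y) y
  have h3 := add_le_add (mul_le_mul_of_nonneg_left h1 ha) (mul_le_mul_of_nonneg_left h2 hb)
  have hb' : b = 1 - a := by linarith
  subst hb'
  have h4 : a * (f (a * x + (1 - a) * y) + (x - (a * x + (1 - a) * y)) * g (a * x + (1 - a) * y)) +
    (1 - a) * (f (a * x + (1 - a) * y) + (y - (a * x + (1 - a) * y)) * g (a * x + (1 - a) * y)) =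
    f (a * x + (1 - a) * y) := by ring
  linarith

end

end Vale.Agent.P361
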