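import Vale.Agent.P361.Gibbs

namespace Vale.Agent.P361

open Matrix

noncomputable section

variable {m : Type*} [Fintype m] [DecidableEq m]

/-- log-sum inequality, pointwise tangent form -/
theorem log_sum_aux {ι : Type*} (s : Finset ι) (μ x y : ι → ℝ) (hμ : ∀ i ∈ s, 0 ≤ μ i)
    (hx : ∀ i ∈ s, 0 < x i) (hy : ∀ i ∈ s, 0 < y i) (ha : 0 < ∑ i ∈ s, μ i * x i)
    (hb : 0 < ∑ i ∈ s, μ i * y i) :
    (∑ i ∈ s, μ i * x i) * Real.log ((∑ i ∈ s, μ i * x i) / (∑ i ∈ s, μ i * y i)) ≤
      ∑ i ∈ s, μ i * x i * (Real.log (x i) - Real.log (y i)) := by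
  set a := ∑ i ∈ s, μ i * x i with hadef
  set b := ∑ i ∈ s, μ i * y i with hbdef
  have key : ∀ i ∈ s, μ i * x i * Real.log (a / b) + (μ i * x i - μ i * y i * (a / b)) ≤
      μ i * x i * (Real.log (x i) - Real.log (y i)) := by
    intro i hi
    have hxi := hx i hi
    have hyi := hy i hi
    have hab : 0 < a / b := div_pos ha hb
    have h1 : Real.log (y i * (a / b) / x i) ≤ y i * (a / b) / x i - 1 :=
      Real.log_le_sub_one_of_pos (by positivity)
    have h2 : Real.log (y i * (a / b) / x i) = Real.log (y i) + Real.log (a / b) - Real.log (x i) := by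
      rw [Real.log_div (by positivity) (by positivity), Real.log_mul (by positivity) (by positivity)]
    rw [h2] at h1
    have h3 : x i * (Real.log (y i) + Real.log (a / b) - Real.log (x i)) ≤ y i * (a / b) - x i := by
      have := mul_le_mul_of_nonneg_left h1 hxi.le
      have h4 : x i * (y i * (a / b) / x i - 1) = y i * (a / b) - x i := by
        field_simp
      rw [h4] at this
      exact this
    have h5 := mul_le_mul_of_nonneg_left h3 (hμ i hi)
    nlinarith [h5]
  have hsum := Finset.sum_le_sum key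
  rw [Finset.sum_add_distrib, Finset.sum_sub_distrib, ← Finset.sum_mul, ← Finset.sum_mul,
    ← hadef, ← hbdef] at hsum
  have : b * (a / b) = a := by field_simp
  rw [this] at hsum
  linarith

theorem entry_formula {L U : Matrix m m ℂ} {d : m → ℝ} (h1 : Uᴴ * U = 1) (h2 : U * Uᴴ = 1)
    (hE : NormedSpace.exp L = U * diagonal (fun i => ((Real.exp (d i) : ℝ) : ℂ)) * Uᴴ)
    (A : Matrix m m ℂ) :
    (trace (Aᴴ * A * NormedSpace.exp L)).re =
      ∑ i, ∑ j, Complex.normSq ((Uᴴ * A * U) i j) * Real.exp (d j) ∧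
    (trace (A * Aᴴ * NormedSpace.exp L)).re =
      ∑ i, ∑ j, Complex.normSq ((Uᴴ * A * U) i j) * Real.exp (d i) := by
  constructor
  · rw [trace_mul_exp hE, Complex.re_sum, Finset.sum_comm]
    refine Finset.sum_congr rfl fun j _ => ?_
    rw [Complex.re_mul_ofReal, ← Finset.sum_mul]
    congr 1
    have : Uᴴ * (Aᴴ * A) * U = (Uᴴ * A * U)ᴴ * (Uᴴ * A * U) := by
      rw [Matrix.conjTranspose_mul, Matrix.conjTranspose_mul, Matrix.conjTranspose_conjTranspose]
      calc Uᴴ * (Aᴴ * A) * U = Uᴴ * Aᴴ * 1 * A * U := by simp only [Matrix.mul_assoc, Matrix.one_mul]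
        _ = Uᴴ * Aᴴ * (U * Uᴴ) * A * U := by rw [h2]
        _ = _ := by simp only [Matrix.mul_assoc]
    rw [this, Matrix.mul_apply, Complex.re_sum]
    refine Finset.sum_congr rfl fun i _ => ?_
    rw [Matrix.conjTranspose_apply]
    have : star ((Uᴴ * A * U) i j) * (Uᴴ * A * U) i j =
        ((Complex.normSq ((Uᴴ * A * U) i j) : ℝ) : ℂ) := by
      rw [Complex.normSq_eq_conj_mul_self]; rfl
    rw [this, Complex.ofReal_re]
  · rw [trace_mul_exp hE, Complex.re_sum]
    refine Finset.sum_congr rfl fun i _ => ?_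
    rw [Complex.re_mul_ofReal, ← Finset.sum_mul]
    congr 1
    have : Uᴴ * (A * Aᴴ) * U = (Uᴴ * A * U) * (Uᴴ * A * U)ᴴ := by
      rw [Matrix.conjTranspose_mul, Matrix.conjTranspose_mul, Matrix.conjTranspose_conjTranspose]
      calc Uᴴ * (A * Aᴴ) * U = Uᴴ * A * 1 * Aᴴ * U := by simp only [Matrix.mul_assoc, Matrix.one_mul]
        _ = Uᴴ * A * (U * Uᴴ) * Aᴴ * U := by rw [h2]
        _ = _ := by simp only [Matrix.mul_assoc]
    rw [this, Matrix.mul_apply, Complex.re_sum]
    refine Finset.sum_congr rfl fun j _ => ?_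
    rw [Matrix.conjTranspose_apply]
    have : (Uᴴ * A * U) i j * star ((Uᴴ * A * U) i j) =
        ((Complex.normSq ((Uᴴ * A * U) i j) : ℝ) : ℂ) := by
      rw [Complex.normSq_eq_conj_mul_self, mul_comm]; rfl
    rw [this, Complex.ofReal_re]

/-- double commutator in the eigenbasis -/
theorem dcomm_formula {L U : Matrix m m ℂ} {d : m → ℝ} (h1 : Uᴴ * U = 1) (h2 : U * Uᴴ = 1)
    (hL : L = U * diagonal (fun i => (d i : ℂ)) * Uᴴ)
    (hE : NormedSpace.exp L = U * diagonal (fun i => ((Real.exp (d i) : ℝ) : ℂ)) * Uᴴ)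
    (A : Matrix m m ℂ) :
    (trace ((A * (L * Aᴴ - Aᴴ * L) - (L * Aᴴ - Aᴴ * L) * A) * NormedSpace.exp L)).re =
      ∑ i, ∑ j, Complex.normSq ((Uᴴ * A * U) i j) *
        ((Real.exp (d i) - Real.exp (d j)) * (d j - d i)) := by
  set B := Uᴴ * A * U with hB
  set D : Matrix m m ℂ := diagonal (fun i => (d i : ℂ)) with hD
  have hBH : Bᴴ = Uᴴ * Aᴴ * U := by
    rw [hB, Matrix.conjTranspose_mul, Matrix.conjTranspose_mul, Matrix.conjTranspose_conjTranspose]
    simp only [Matrix.mul_assoc]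
  have hconj : ∀ X Y : Matrix m m ℂ, Uᴴ * (X * Y) * U = (Uᴴ * X * U) * (Uᴴ * Y * U) := by
    intro X Y
    calc Uᴴ * (X * Y) * U = Uᴴ * X * 1 * Y * U := by simp only [Matrix.mul_assoc, Matrix.one_mul]
      _ = Uᴴ * X * (U * Uᴴ) * Y * U := by rw [h2]
      _ = _ := by simp only [Matrix.mul_assoc]
  have hLD : Uᴴ * L * U = D := by
    rw [hL]
    calc Uᴴ * (U * D * Uᴴ) * U = (Uᴴ * U) * D * (Uᴴ * U) := by simp only [Matrix.mul_assoc]
      _ = D := by rw [h1]; simp
  have hX : Uᴴ * (A * (L * Aᴴ - Aᴴ * L) - (L * Aᴴ - Aᴴ * L) * A) * U =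
      B * (D * Bᴴ - Bᴴ * D) - (D * Bᴴ - Bᴴ * D) * B := by
    rw [Matrix.mul_sub, Matrix.sub_mul, hconj, hconj, Matrix.mul_sub, Matrix.sub_mul, hconj, hconj,
      hLD, hBH, ← hB]
  rw [trace_mul_exp hE, hX, Complex.re_sum]
  have hterm : ∀ i, ((B * (D * Bᴴ - Bᴴ * D) - (D * Bᴴ - Bᴴ * D) * B) i i).re =
      (∑ j, Complex.normSq (B i j) * (d j - d i)) - ∑ j, Complex.normSq (B j i) * (d i - d j) := by
    intro i
    rw [Matrix.sub_apply, Complex.sub_re, Matrix.mul_apply, Matrix.mul_apply, Complex.re_sum,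
      Complex.re_sum]
    congr 1
    · refine Finset.sum_congr rfl fun j _ => ?_
      rw [Matrix.sub_apply, hD, Matrix.diagonal_mul, Matrix.mul_diagonal, Matrix.conjTranspose_apply]
      have : B i j * ((d j : ℂ) * star (B i j) - star (B i j) * (d i : ℂ)) =
        ((Complex.normSq (B i j) * (d j - d i) : ℝ) : ℂ) := by
        push_cast
        rw [Complex.normSq_eq_conj_mul_self]
        change B i j * ((d j : ℂ) * (starRingEnd ℂ) (B i j) - (starRingEnd ℂ) (B i j) * (d i : ℂ)) = _
        ring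
      rw [this, Complex.ofReal_re]
    · refine Finset.sum_congr rfl fun j _ => ?_
      rw [Matrix.sub_apply, hD, Matrix.diagonal_mul, Matrix.mul_diagonal, Matrix.conjTranspose_apply]
      have : ((d i : ℂ) * star (B j i) - star (B j i) * (d j : ℂ)) * B j i =
        ((Complex.normSq (B j i) * (d i - d j) : ℝ) : ℂ) := by
        push_cast
        rw [Complex.normSq_eq_conj_mul_self]
        change ((d i : ℂ) * (starRingEnd ℂ) (B j i) - (starRingEnd ℂ) (B j i) * (d j : ℂ)) * B j i = _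
        ring
      rw [this, Complex.ofReal_re]
  have : ∀ i, (((B * (D * Bᴴ - Bᴴ * D) - (D * Bᴴ - Bᴴ * D) * B) i i) *
      ((Real.exp (d i) : ℝ) : ℂ)).re =
      (∑ j, Complex.normSq (B i j) * (d j - d i) * Real.exp (d i)) -
        ∑ j, Complex.normSq (B j i) * (d i - d j) * Real.exp (d i) := by
    intro i
    rw [Complex.re_mul_ofReal, hterm, sub_mul, Finset.sum_mul, Finset.sum_mul]
  rw [Finset.sum_congr rfl fun i _ => this i, Finset.sum_sub_distrib]
  have hswap : ∑ i, ∑ j, Complex.normSq (B j i) * (d i - d j) * Real.exp (d i) =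
      ∑ i, ∑ j, Complex.normSq (B i j) * (d j - d i) * Real.exp (d j) := by
    rw [Finset.sum_comm]
  rw [hswap, ← Finset.sum_sub_distrib]
  refine Finset.sum_congr rfl fun i _ => ?_
  rw [← Finset.sum_sub_distrib]
  refine Finset.sum_congr rfl fun j _ => ?_
  ring

/-- Roepstorff-type inequality. -/
theorem roepstorff (L : Matrix m m ℂ) (hL : L.IsHermitian) (A : Matrix m m ℂ) (q c : ℝ)
    (hq : q = (trace (A * Aᴴ * NormedSpace.exp L)).re - (trace (Aᴴ * A * NormedSpace.exp L)).re)
    (hq0 : 0 < q)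
    (hc : -(trace ((A * (L * Aᴴ - Aᴴ * L) - (L * Aᴴ - Aᴴ * L) * A) * NormedSpace.exp L)).re ≤ c) :
    q / (Real.exp (c / q) - 1) ≤ (trace (Aᴴ * A * NormedSpace.exp L)).re := by
  obtain ⟨U, d, h1, h2, h3, h4⟩ := exists_diag L hL
  obtain ⟨e1, e2⟩ := entry_formula h1 h2 h4 A
  have e3 := dcomm_formula h1 h2 h3 h4 A
  set B := Uᴴ * A * U with hB
  set b := (trace (Aᴴ * A * NormedSpace.exp L)).re with hb
  set a := (trace (A * Aᴴ * NormedSpace.exp L)).re with ha
  have e1' : b = ∑ p : m × m, Complex.normSq (B p.1 p.2) * Real.exp (d p.2) := by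
    rw [e1, Fintype.sum_prod_type]
  have e2' : a = ∑ p : m × m, Complex.normSq (B p.1 p.2) * Real.exp (d p.1) := by
    rw [e2, Fintype.sum_prod_type]
  have hb0 : 0 ≤ b := by
    rw [e1']; exact Finset.sum_nonneg fun p _ => mul_nonneg (Complex.normSq_nonneg _) (Real.exp_pos _).le
  have hbpos : 0 < b := by
    rcases hb0.lt_or_eq with h | h
    · exact h
    · exfalso
      have hz : ∀ p : m × m, Complex.normSq (B p.1 p.2) = 0 := by
        intro p
        have hh : ∑ p : m × m, Complex.normSq (B p.1 p.2) * Real.exp (d p.2) = 0 := by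
          rw [← e1', ← h]
        have := (Finset.sum_eq_zero_iff_of_nonneg (fun p _ => mul_nonneg (Complex.normSq_nonneg _)
          (Real.exp_pos _).le)).1 hh p (Finset.mem_univ _)
        rcases mul_eq_zero.1 this with h' | h'
        · exact h'
        · exact absurd h' (Real.exp_pos _).ne'
      have ha0 : a = 0 := by
        rw [e2']; exact Finset.sum_eq_zero fun p _ => by rw [hz p, zero_mul]
      rw [ha0, ← h] at hq
      simp at hq
      exact absurd hq hq0.ne'
  have hapos : 0 < a := by linarith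
  have l1 := log_sum_aux (Finset.univ : Finset (m × m)) (fun p => Complex.normSq (B p.1 p.2))
    (fun p => Real.exp (d p.1)) (fun p => Real.exp (d p.2)) (fun p _ => Complex.normSq_nonneg _)
    (fun p _ => Real.exp_pos _) (fun p _ => Real.exp_pos _) (by rw [← e2']; exact hapos)
    (by rw [← e1']; exact hbpos)
  have l2 := log_sum_aux (Finset.univ : Finset (m × m)) (fun p => Complex.normSq (B p.1 p.2))
    (fun p => Real.exp (d p.2)) (fun p => Real.exp (d p.1)) (fun p _ => Complex.normSq_nonneg _)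
    (fun p _ => Real.exp_pos _) (fun p _ => Real.exp_pos _) (by rw [← e1']; exact hbpos)
    (by rw [← e2']; exact hapos)
  rw [← e1', ← e2'] at l1 l2
  simp only [Real.log_exp] at l1 l2
  have e3' : -(∑ i, ∑ j, Complex.normSq (B i j) *
        ((Real.exp (d i) - Real.exp (d j)) * (d j - d i))) =
      (∑ p : m × m, Complex.normSq (B p.1 p.2) * Real.exp (d p.1) * (d p.1 - d p.2)) +
      ∑ p : m × m, Complex.normSq (B p.1 p.2) * Real.exp (d p.2) * (d p.2 - d p.1) := by
    rw [← Finset.sum_add_distrib, Fintype.sum_prod_type, ← Finset.sum_neg_distrib]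
    refine Finset.sum_congr rfl fun i _ => ?_
    rw [← Finset.sum_neg_distrib]
    refine Finset.sum_congr rfl fun j _ => ?_
    ring
  have hlog : Real.log (b / a) = -Real.log (a / b) := by
    rw [← Real.log_inv, inv_div]
  have hmain : q * Real.log (a / b) ≤ c := by
    have : q * Real.log (a / b) = a * Real.log (a / b) + b * Real.log (b / a) := by
      rw [hlog, hq]; ring
    rw [this]
    rw [e3, e3'] at hc
    linarith
  have h5 : Real.log (a / b) ≤ c / q := by
    rw [le_div_iff₀ hq0]; linarith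
  have h6 : a / b ≤ Real.exp (c / q) := by
    rw [← Real.exp_log (div_pos hapos hbpos)]
    exact Real.exp_le_exp.2 h5
  have h7 : q / b ≤ Real.exp (c / q) - 1 := by
    have : q / b = a / b - 1 := by rw [hq]; field_simp
    rw [this]; linarith
  have h8 : 0 < Real.exp (c / q) - 1 := lt_of_lt_of_le (div_pos hq0 hbpos) h7
  rw [div_le_iff₀ h8]
  rw [div_le_iff₀ hbpos] at h7
  linarith

end

end Vale.Agent.P361
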