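import Vale.Agent.P361.DComm
import Vale.Agent.P361.Roep
import Vale.Agent.P361.PB

namespace Vale.Agent.P361

open Matrix

noncomputable section

variable {V : Type*} [Fintype V] [DecidableEq V] {n : ℕ}

/-- exponent matrix -/
def expo (n : ℕ) (adj : V → V → Prop) [DecidableRel adj] (β h : ℝ) :
    Matrix (V → Fin (n + 1)) (V → Fin (n + 1)) ℂ :=
  -(β : ℂ) • (hamG n adj - (h : ℂ) • magG n V)

theorem bond_conjTranspose (x y : V) : (bond n x y)ᴴ = bond n y x := by
  unfold bond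
  rw [Matrix.conjTranspose_add, Matrix.conjTranspose_mul, Matrix.conjTranspose_smul,
    Matrix.conjTranspose_add, Matrix.conjTranspose_mul, Matrix.conjTranspose_mul]
  simp only [siteOp_conjTranspose, Sz_conjTranspose, Matrix.conjTranspose_conjTranspose]
  congr 2
  simp

theorem bond_transpose (x y : V) : (bond n x y)ᵀ = bond n y x := by
  unfold bond sz sp sm
  rw [Matrix.transpose_add, Matrix.transpose_mul, Matrix.transpose_smul,
    Matrix.transpose_add, Matrix.transpose_mul, Matrix.transpose_mul]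
  simp only [siteOp_transpose, Sz_transpose, Sp_conjTranspose_eq_transpose,
    Matrix.transpose_transpose]

theorem hamG_isHermitian {adj : V → V → Prop} [DecidableRel adj] (hs : ∀ x y, adj x y → adj y x) :
    (hamG n adj).IsHermitian := by
  unfold Matrix.IsHermitian
  rw [hamG_eq, Matrix.conjTranspose_neg, Matrix.conjTranspose_smul, Matrix.conjTranspose_sum]
  congr 1
  have h1 : star (1 / 2 : ℂ) = 1 / 2 := by simp
  rw [h1]
  congr 1
  rw [Finset.sum_comm]
  refine Finset.sum_congr rfl fun y _ => ?_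
  rw [Matrix.conjTranspose_sum]
  refine Finset.sum_congr rfl fun x _ => ?_
  by_cases h : adj y x
  · rw [if_pos h, if_pos (hs _ _ h), bond_conjTranspose]
  · rw [if_neg h, if_neg (fun h' => h (hs _ _ h')), Matrix.conjTranspose_zero]

theorem hamG_transpose {adj : V → V → Prop} [DecidableRel adj] (hs : ∀ x y, adj x y → adj y x) :
    (hamG n adj)ᵀ = hamG n adj := by
  rw [hamG_eq, Matrix.transpose_neg, Matrix.transpose_smul, Matrix.transpose_sum]
  congr 2
  rw [Finset.sum_comm]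
  refine Finset.sum_congr rfl fun y _ => ?_
  rw [Matrix.transpose_sum]
  refine Finset.sum_congr rfl fun x _ => ?_
  by_cases h : adj y x
  · rw [if_pos h, if_pos (hs _ _ h), bond_transpose]
  · rw [if_neg h, if_neg (fun h' => h (hs _ _ h')), Matrix.transpose_zero]

theorem magG_conjTranspose : (magG n V)ᴴ = magG n V := by
  unfold magG
  rw [Matrix.conjTranspose_sum]
  refine Finset.sum_congr rfl fun x _ => ?_
  rw [siteOp_conjTranspose, spin_two, Sz_conjTranspose]

theorem magG_transpose : (magG n V)ᵀ = magG n V := by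
  unfold magG
  rw [Matrix.transpose_sum]
  refine Finset.sum_congr rfl fun x _ => ?_
  rw [siteOp_transpose, spin_two, Sz_transpose]

theorem expo_isHermitian {adj : V → V → Prop} [DecidableRel adj] (hs : ∀ x y, adj x y → adj y x)
    (β h : ℝ) : (expo n adj β h).IsHermitian := by
  unfold Matrix.IsHermitian expo
  have h2 := hamG_isHermitian (n := n) hs
  unfold Matrix.IsHermitian at h2
  rw [Matrix.conjTranspose_smul, Matrix.conjTranspose_sub, Matrix.conjTranspose_smul,
    magG_conjTranspose, h2]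
  simp

theorem expo_transpose {adj : V → V → Prop} [DecidableRel adj] (hs : ∀ x y, adj x y → adj y x)
    (β h : ℝ) : (expo n adj β h)ᵀ = expo n adj β h := by
  unfold expo
  rw [Matrix.transpose_smul, Matrix.transpose_sub, Matrix.transpose_smul, magG_transpose,
    hamG_transpose hs]

/-- unnormalised expectation -/
def tau (L X : Matrix (V → Fin (n + 1)) (V → Fin (n + 1)) ℂ) : ℂ :=
  trace (X * NormedSpace.exp L)

theorem tau_add (L X Y : Matrix (V → Fin (n + 1)) (V → Fin (n + 1)) ℂ) :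
    tau L (X + Y) = tau L X + tau L Y := by
  unfold tau; rw [add_mul, Matrix.trace_add]

theorem tau_neg (L X : Matrix (V → Fin (n + 1)) (V → Fin (n + 1)) ℂ) :
    tau L (-X) = -tau L X := by
  unfold tau; rw [neg_mul, Matrix.trace_neg]

theorem tau_sub (L X Y : Matrix (V → Fin (n + 1)) (V → Fin (n + 1)) ℂ) :
    tau L (X - Y) = tau L X - tau L Y := by
  unfold tau; rw [sub_mul, Matrix.trace_sub]

theorem tau_smul (L X : Matrix (V → Fin (n + 1)) (V → Fin (n + 1)) ℂ) (c : ℂ) :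
    tau L (c • X) = c * tau L X := by
  unfold tau; rw [smul_mul_assoc, Matrix.trace_smul, smul_eq_mul]

theorem tau_sum {ι : Type*} (s : Finset ι) (L : Matrix (V → Fin (n + 1)) (V → Fin (n + 1)) ℂ)
    (X : ι → Matrix (V → Fin (n + 1)) (V → Fin (n + 1)) ℂ) :
    tau L (∑ i ∈ s, X i) = ∑ i ∈ s, tau L (X i) := by
  unfold tau; rw [Finset.sum_mul, Matrix.trace_sum]

theorem tau_zero (L : Matrix (V → Fin (n + 1)) (V → Fin (n + 1)) ℂ) : tau L 0 = 0 := by
  unfold tau; simp

theorem tau_conjTranspose_mul_self {L : Matrix (V → Fin (n + 1)) (V → Fin (n + 1)) ℂ}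
    (hL : L.IsHermitian) (X : Matrix (V → Fin (n + 1)) (V → Fin (n + 1)) ℂ) :
    0 ≤ (tau L (Xᴴ * X)).re := trace_conjTranspose_mul_self_exp L hL X

theorem tau_diagonal_nonneg {L : Matrix (V → Fin (n + 1)) (V → Fin (n + 1)) ℂ}
    (hL : L.IsHermitian) (d : (V → Fin (n + 1)) → ℝ) (hd : ∀ σ, 0 ≤ d σ) :
    0 ≤ (tau L (Matrix.diagonal fun σ => (d σ : ℂ))).re := by
  have : (Matrix.diagonal fun σ => (d σ : ℂ)) =
      (Matrix.diagonal fun σ => ((Real.sqrt (d σ) : ℝ) : ℂ))ᴴ *
        (Matrix.diagonal fun σ => ((Real.sqrt (d σ) : ℝ) : ℂ)) := by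
    rw [Matrix.diagonal_conjTranspose, Matrix.diagonal_mul_diagonal]
    congr 1
    funext σ
    rw [Pi.star_apply]
    change (d σ : ℂ) = (starRingEnd ℂ) ((Real.sqrt (d σ) : ℝ) : ℂ) * _
    rw [Complex.conj_ofReal, ← Complex.ofReal_mul, Real.mul_self_sqrt (hd σ)]
  rw [this]
  exact tau_conjTranspose_mul_self hL _

theorem tau_transpose {L : Matrix (V → Fin (n + 1)) (V → Fin (n + 1)) ℂ} (hL : Lᵀ = L)
    (X : Matrix (V → Fin (n + 1)) (V → Fin (n + 1)) ℂ) : tau L Xᵀ = tau L X := by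
  unfold tau
  rw [← Matrix.trace_transpose (Xᵀ * _), Matrix.transpose_mul, Matrix.transpose_transpose,
    ← Matrix.exp_transpose, hL, Matrix.trace_mul_comm]

theorem siteOp_diagonal (x : V) (v : Fin (n + 1) → ℂ) :
    siteOp x (Matrix.diagonal v) = Matrix.diagonal fun σ : V → Fin (n + 1) => v (σ x) := by
  ext σ τ
  rw [siteOp_apply, Matrix.diagonal_apply, Matrix.diagonal_apply]
  by_cases h : σ = τ
  · subst h; simp
  · rw [if_neg h]
    split_ifs with h1 h2
    · exfalso
      apply h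
      funext y
      by_cases hy : y = x
      · subst hy; exact h2
      · exact h1 y hy
    · rfl
    · rfl

section Bounds

variable {L : Matrix (V → Fin (n + 1)) (V → Fin (n + 1)) ℂ} (hL : L.IsHermitian)

/-- deficiency -/
def defi (L : Matrix (V → Fin (n + 1)) (V → Fin (n + 1)) ℂ) (x : V) : ℝ :=
  (n : ℝ) / 2 * (tau L 1).re - (tau L (sz n x)).re

include hL

theorem defi_nonneg (x : V) : 0 ≤ defi L x := by
  have h := tau_diagonal_nonneg hL (fun σ => ((σ x : ℕ) : ℝ)) (fun σ => by positivity)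
  have h2 : (Matrix.diagonal fun σ : V → Fin (n + 1) => ((((σ x : ℕ) : ℝ)) : ℂ)) =
      ((n : ℂ) / 2) • (1 : Matrix (V → Fin (n + 1)) (V → Fin (n + 1)) ℂ) - sz n x := by
    unfold sz Sz
    rw [siteOp_diagonal, ← Matrix.diagonal_one, ← Matrix.diagonal_smul, Matrix.diagonal_sub]
    congr 1
    funext σ
    simp
  rw [h2, tau_sub, tau_smul, Complex.sub_re] at h
  unfold defi
  have h3 : ((n : ℂ) / 2 * tau L 1).re = (n : ℝ) / 2 * (tau L 1).re := by
    have : ((n : ℂ) / 2) = (((n : ℝ) / 2 : ℝ) : ℂ) := by push_cast; rfl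
    rw [this, Complex.re_ofReal_mul]
  rw [h3] at h
  exact h

theorem tau_smsp_le (x : V) : (tau L (sm n x * sp n x)).re ≤ n * defi L x := by
  have h := tau_diagonal_nonneg hL (fun σ => ((σ x : ℕ) : ℝ) * (((σ x : ℕ) : ℝ) - 1)) (fun σ => by
    rcases Nat.eq_zero_or_pos (σ x : ℕ) with h0 | h0
    · rw [h0]; simp
    · have : (1 : ℝ) ≤ ((σ x : ℕ) : ℝ) := by exact_mod_cast h0
      exact mul_nonneg (by positivity) (by linarith))
  have h2 : (Matrix.diagonal fun σ : V → Fin (n + 1) =>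
      (((((σ x : ℕ) : ℝ) * (((σ x : ℕ) : ℝ) - 1)) : ℝ) : ℂ)) =
      ((n : ℂ)) • (((n : ℂ) / 2) • (1 : Matrix (V → Fin (n + 1)) (V → Fin (n + 1)) ℂ) - sz n x) -
        sm n x * sp n x := by
    unfold sz sm sp Sz
    rw [← siteOp_mul, Sm_mul_Sp, siteOp_diagonal, siteOp_diagonal, ← Matrix.diagonal_one,
      ← Matrix.diagonal_smul, Matrix.diagonal_sub, ← Matrix.diagonal_smul, Matrix.diagonal_sub]
    congr 1
    funext σ
    simp
    ring
  rw [h2, tau_sub, tau_smul, tau_sub, tau_smul, Complex.sub_re] at h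
  unfold defi
  have h3 : ((n : ℂ) * ((n : ℂ) / 2 * tau L 1 - tau L (sz n x))).re =
      n * ((n : ℝ) / 2 * (tau L 1).re - (tau L (sz n x)).re) := by
    have e1 : ((n : ℂ) / 2) = (((n : ℝ) / 2 : ℝ) : ℂ) := by push_cast; rfl
    have e2 : ((n : ℂ)) = (((n : ℝ) : ℝ) : ℂ) := by push_cast; rfl
    rw [e1]
    conv_lhs => rw [e2]
    rw [Complex.re_ofReal_mul, Complex.sub_re, Complex.re_ofReal_mul]
  rw [h3] at h
  linarith

theorem tau_szsz_le (x y : V) :
    (tau L (sz n x * sz n y)).re ≤ ((n : ℝ) / 2) ^ 2 * (tau L 1).re := by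
  have h := tau_diagonal_nonneg hL
    (fun σ => ((n : ℝ) / 2) ^ 2 - ((n : ℝ) / 2 - ((σ x : ℕ) : ℝ)) * ((n : ℝ) / 2 - ((σ y : ℕ) : ℝ)))
    (fun σ => by
      have h1 : ((σ x : ℕ) : ℝ) ≤ n := by exact_mod_cast Nat.lt_succ_iff.1 (σ x).2
      have h2 : ((σ y : ℕ) : ℝ) ≤ n := by exact_mod_cast Nat.lt_succ_iff.1 (σ y).2
      have h3 : (0 : ℝ) ≤ ((σ x : ℕ) : ℝ) := by positivity
      have h4 : (0 : ℝ) ≤ ((σ y : ℕ) : ℝ) := by positivity
      nlinarith [mul_nonneg h3 (sub_nonneg.2 h2), mul_nonneg h4 (sub_nonneg.2 h1),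
        mul_nonneg h3 h4, mul_nonneg (sub_nonneg.2 h1) (sub_nonneg.2 h2)])
  have h2 : (Matrix.diagonal fun σ : V → Fin (n + 1) =>
      ((((n : ℝ) / 2) ^ 2 - ((n : ℝ) / 2 - ((σ x : ℕ) : ℝ)) * ((n : ℝ) / 2 - ((σ y : ℕ) : ℝ)) : ℝ) : ℂ)) =
      ((((n : ℝ) / 2) ^ 2 : ℝ) : ℂ) • (1 : Matrix (V → Fin (n + 1)) (V → Fin (n + 1)) ℂ) -
        sz n x * sz n y := by
    unfold sz Sz
    rw [siteOp_diagonal, siteOp_diagonal, Matrix.diagonal_mul_diagonal, ← Matrix.diagonal_one,
      ← Matrix.diagonal_smul, Matrix.diagonal_sub]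
    congr 1
    funext σ
    simp
  rw [h2, tau_sub, tau_smul, Complex.sub_re, Complex.re_ofReal_mul] at h
  linarith

theorem tau_cross_le {x y : V} (hxy : x ≠ y) (hT : Lᵀ = L) :
    (tau L (sp n x * sm n y)).re ≤ (n : ℝ) / 2 * (defi L x + defi L y) := by
  have h := tau_conjTranspose_mul_self hL (sp n x - sp n y)
  have h1 : (sp n x - sp n y)ᴴ * (sp n x - sp n y) =
      sm n x * sp n x - sm n x * sp n y - sp n x * sm n y + sm n y * sp n y := by
    rw [Matrix.conjTranspose_sub, siteOp_conjTranspose, siteOp_conjTranspose,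
      siteOp_comm hxy (Sp n) (Sp n)ᴴ]
    noncomm_ring
  have h2 : tau L (sm n x * sp n y) = tau L (sp n x * sm n y) := by
    rw [← tau_transpose hT (sp n x * sm n y), Matrix.transpose_mul, siteOp_transpose,
      siteOp_transpose, ← Sp_conjTranspose_eq_transpose]
    have : ((Sp n)ᴴ)ᵀ = Sp n := by
      rw [Sp_conjTranspose_eq_transpose, Matrix.transpose_transpose]
    rw [this, siteOp_comm hxy]
  rw [h1, tau_add, tau_sub, tau_sub, h2, Complex.add_re, Complex.sub_re, Complex.sub_re] at h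
  have h3 := tau_smsp_le hL x
  have h4 := tau_smsp_le hL y
  nlinarith

theorem tau_dcm_bond {x y : V} (hxy : x ≠ y) (hT : Lᵀ = L) (f : V → ℂ) :
    -(tau L (dcm (Aop n f) (Aop n f)ᴴ (bond n x y))).re ≤
      Complex.normSq (f x - f y) *
        (2 * (((n : ℝ) / 2) ^ 2 * (tau L 1).re) + (n : ℝ) / 2 * (defi L x + defi L y)) := by
  have h2 : tau L (sm n x * sp n y) = tau L (sp n x * sm n y) := by
    rw [← tau_transpose hT (sp n x * sm n y), Matrix.transpose_mul, siteOp_transpose,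
      siteOp_transpose, ← Sp_conjTranspose_eq_transpose]
    have : ((Sp n)ᴴ)ᵀ = Sp n := by
      rw [Sp_conjTranspose_eq_transpose, Matrix.transpose_transpose]
    rw [this, siteOp_comm hxy]
  rw [dcm_bond hxy, tau_smul, tau_add, tau_smul, tau_smul, tau_sub, tau_neg, tau_smul, tau_add,
    tau_smul, h2]
  set u := tau L (sp n x * sm n y) with hu
  set w := tau L (sz n x * sz n y) with hw
  have e : (star (f x) - star (f y)) * (f x * (-u - 2 * w) + f y * (2 * w + u)) =
      -((Complex.normSq (f x - f y) : ℝ) : ℂ) * (2 * w + u) := by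
    rw [Complex.normSq_eq_conj_mul_self, map_sub]
    change ((starRingEnd ℂ) (f x) - (starRingEnd ℂ) (f y)) * _ = _
    ring
  rw [e, neg_mul, Complex.neg_re, neg_neg, Complex.re_ofReal_mul]
  refine mul_le_mul_of_nonneg_left ?_ (Complex.normSq_nonneg _)
  have h3 := tau_szsz_le hL x y
  have h4 := tau_cross_le hL hxy hT
  rw [Complex.add_re]
  have h5 : (2 * w : ℂ).re = 2 * w.re := by simp
  rw [h5]
  linarith

end Bounds

end

end Vale.Agent.P361
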