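import Vale.Agent.P361.FiniteVol

namespace Vale.Agent.P361

open Matrix

noncomputable section

variable {V : Type*} [Fintype V] [DecidableEq V] {n : ℕ}

theorem dcm_expo (adj : V → V → Prop) [DecidableRel adj] (β h : ℝ) (f : V → ℂ) :
    dcm (Aop n f) (Aop n f)ᴴ (expo n adj β h) =
      ((β : ℂ) / 2) • (∑ x : V, ∑ y : V, if adj x y then
        dcm (Aop n f) (Aop n f)ᴴ (bond n x y) else 0) -
      ((β : ℂ) * h) • (Aop n f * (Aop n f)ᴴ - (Aop n f)ᴴ * Aop n f) := by
  unfold expo
  rw [hamG_eq, dcm_smul, dcm_sub, dcm_neg, dcm_smul, dcm_smul, dcm_mag, dcm_sum]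
  have : ∀ x : V, dcm (Aop n f) (Aop n f)ᴴ (∑ y : V, if adj x y then bond n x y else 0) =
      ∑ y : V, if adj x y then dcm (Aop n f) (Aop n f)ᴴ (bond n x y) else 0 := by
    intro x
    rw [dcm_sum]
    refine Finset.sum_congr rfl fun y _ => ?_
    split_ifs
    · rfl
    · exact dcm_zero _ _
  rw [Finset.sum_congr rfl fun x _ => this x]
  module

theorem tau_mag (L : Matrix (V → Fin (n + 1)) (V → Fin (n + 1)) ℂ) :
    tau L (magG n V) = ∑ x, tau L (sz n x) := by
  unfold magG
  rw [tau_sum]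
  rfl

theorem sum_defi (L : Matrix (V → Fin (n + 1)) (V → Fin (n + 1)) ℂ) :
    ∑ x, defi L x = (n : ℝ) / 2 * (Fintype.card V) * (tau L 1).re - (tau L (magG n V)).re := by
  unfold defi
  rw [Finset.sum_sub_distrib, tau_mag, Complex.re_sum]
  simp
  ring

theorem main_mode {adj : V → V → Prop} [DecidableRel adj] (hs : ∀ x y, adj x y → adj y x)
    (hirr : ∀ x, ¬ adj x x) {β h : ℝ} (hβ : 0 < β) 
    (f : V → ℂ) (hf : ∀ x, Complex.normSq (f x) = 1 / Fintype.card V) (G : ℝ)
    (hG : ∀ x, (∑ y, if adj x y then Complex.normSq (f x - f y) else 0) ≤ 2 * G / Fintype.card V)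
    [Nonempty V]
    (m : ℝ) (hm : m = (tau (expo n adj β h) (magG n V)).re /
      (Fintype.card V * (tau (expo n adj β h) 1).re)) (hm0 : 0 < m) :
    2 * m * (tau (expo n adj β h) 1).re /
      (Real.exp (β * (h + ((n : ℝ) - m) / m * ((n : ℝ) / 2 * G))) - 1) ≤
      (tau (expo n adj β h) ((Aop n f)ᴴ * Aop n f)).re := by
  set L := expo n adj β h with hLdef
  have hL : L.IsHermitian := expo_isHermitian hs β h
  have hT : Lᵀ = L := expo_transpose hs β h
  have hZpos : 0 < (tau L 1).re := by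
    have := trace_exp_pos L hL
    unfold tau; rwa [Matrix.one_mul]
  set Z := (tau L 1).re with hZ
  have hcard : (0 : ℝ) < Fintype.card V := by exact_mod_cast Fintype.card_pos
  have hmag : (tau L (magG n V)).re = m * (Fintype.card V * Z) := by
    rw [hm, div_mul_cancel₀ _ (by positivity)]
  have hAA : tau L (Aop n f * (Aop n f)ᴴ - (Aop n f)ᴴ * Aop n f) =
      (2 / (Fintype.card V : ℂ)) * tau L (magG n V) := by
    rw [A_comm_Astar, tau_sum, tau_mag, Finset.mul_sum]
    refine Finset.sum_congr rfl fun x _ => ?_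
    rw [tau_smul, hf x]
    push_cast
    ring
  have hq : 2 * m * Z = (trace (Aop n f * (Aop n f)ᴴ * NormedSpace.exp L)).re -
      (trace ((Aop n f)ᴴ * Aop n f * NormedSpace.exp L)).re := by
    have h1 : (tau L (Aop n f * (Aop n f)ᴴ - (Aop n f)ᴴ * Aop n f)).re = 2 * m * Z := by
      rw [hAA]
      have : (2 / (Fintype.card V : ℂ)) = ((2 / (Fintype.card V : ℝ) : ℝ) : ℂ) := by push_cast; rfl
      rw [this, Complex.re_ofReal_mul, hmag]
      field_simp
    rw [tau_sub, Complex.sub_re] at h1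
    exact h1.symm
  have hq0 : 0 < 2 * m * Z := by positivity
  -- upper bound of the double commutator
  set w : V → V → ℝ := fun x y => if adj x y then Complex.normSq (f x - f y) else 0 with hw
  have hwnn : ∀ x y, 0 ≤ w x y := by
    intro x y; simp only [hw]; split_ifs
    · exact Complex.normSq_nonneg _
    · exact le_rfl
  have hwsymm : ∀ x y, w x y = w y x := by
    intro x y; simp only [hw]
    by_cases h1 : adj x y
    · rw [if_pos h1, if_pos (hs _ _ h1), ← Complex.normSq_neg, neg_sub]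
    · rw [if_neg h1, if_neg (fun h2 => h1 (hs _ _ h2))]
  have hbondsum : -(∑ x : V, ∑ y : V, if adj x y then
        (tau L (dcm (Aop n f) (Aop n f)ᴴ (bond n x y))).re else 0) ≤
      ∑ x : V, ∑ y : V, w x y *
        (2 * (((n : ℝ) / 2) ^ 2 * Z) + (n : ℝ) / 2 * (defi L x + defi L y)) := by
    rw [← Finset.sum_neg_distrib]
    refine Finset.sum_le_sum fun x _ => ?_
    rw [← Finset.sum_neg_distrib]
    refine Finset.sum_le_sum fun y _ => ?_
    by_cases h1 : adj x y
    · have hxy : x ≠ y := by rintro rfl; exact hirr _ h1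
      simp only [hw, if_pos h1]
      exact tau_dcm_bond hL hxy hT f
    · simp only [hw, if_neg h1]; simp
  have hsumw : ∑ x : V, ∑ y : V, w x y *
        (2 * (((n : ℝ) / 2) ^ 2 * Z) + (n : ℝ) / 2 * (defi L x + defi L y)) =
      ∑ x : V, (2 * (((n : ℝ) / 2) ^ 2 * Z) + n * defi L x) * ∑ y : V, w x y := by
    have e1 : ∑ x : V, ∑ y : V, w x y * defi L y = ∑ x : V, ∑ y : V, w x y * defi L x := by
      rw [Finset.sum_comm]
      refine Finset.sum_congr rfl fun x _ => Finset.sum_congr rfl fun y _ => ?_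
      rw [hwsymm]
    have e2 : ∀ x y, w x y * (2 * (((n : ℝ) / 2) ^ 2 * Z) + (n : ℝ) / 2 * (defi L x + defi L y)) =
        w x y * (2 * (((n : ℝ) / 2) ^ 2 * Z)) + (n : ℝ) / 2 * (w x y * defi L x) +
          (n : ℝ) / 2 * (w x y * defi L y) := by intro x y; ring
    simp only [e2, Finset.sum_add_distrib, ← Finset.mul_sum]
    rw [e1]
    simp only [← Finset.sum_mul]
    have e3 : ∀ x, (2 * (((n : ℝ) / 2) ^ 2 * Z) + n * defi L x) * ∑ y : V, w x y =
        (∑ y : V, w x y) * (2 * (((n : ℝ) / 2) ^ 2 * Z)) + (n : ℝ) * ((∑ y : V, w x y) * defi L x) := by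
      intro x; ring
    simp only [e3, Finset.sum_add_distrib, ← Finset.mul_sum, ← Finset.sum_mul]
    ring
  have hupper : ∑ x : V, (2 * (((n : ℝ) / 2) ^ 2 * Z) + n * defi L x) * ∑ y : V, w x y ≤
      ∑ x : V, (2 * (((n : ℝ) / 2) ^ 2 * Z) + n * defi L x) * (2 * G / Fintype.card V) := by
    refine Finset.sum_le_sum fun x _ => ?_
    refine mul_le_mul_of_nonneg_left (hG x) ?_
    have := defi_nonneg hL x
    positivity
  have hval : ∑ x : V, (2 * (((n : ℝ) / 2) ^ 2 * Z) + n * defi L x) * (2 * G / Fintype.card V) =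
      2 * G * Z * (n * ((n : ℝ) - m)) := by
    rw [← Finset.sum_mul, Finset.sum_add_distrib, Finset.sum_const, Finset.card_univ,
      nsmul_eq_mul, ← Finset.mul_sum (f := fun x => defi L x), sum_defi, hmag, ← hZ]
    field_simp
    ring
  have hc : -(trace ((Aop n f * (L * (Aop n f)ᴴ - (Aop n f)ᴴ * L) -
      (L * (Aop n f)ᴴ - (Aop n f)ᴴ * L) * Aop n f) * NormedSpace.exp L)).re ≤
      2 * m * Z * (β * (h + ((n : ℝ) - m) / m * ((n : ℝ) / 2 * G))) := by
    have h1 : (tau L (dcm (Aop n f) (Aop n f)ᴴ L)).re =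
        β / 2 * (∑ x : V, ∑ y : V, if adj x y then
          (tau L (dcm (Aop n f) (Aop n f)ᴴ (bond n x y))).re else 0) - β * h * (2 * m * Z) := by
      conv_lhs => rw [show dcm (Aop n f) (Aop n f)ᴴ L = _ from dcm_expo adj β h f]
      rw [tau_sub, tau_smul, tau_smul, Complex.sub_re]
      have e1 : ((β : ℂ) / 2) = ((β / 2 : ℝ) : ℂ) := by push_cast; rfl
      have e2 : ((β : ℂ) * h) = ((β * h : ℝ) : ℂ) := by push_cast; rfl
      rw [e1, e2, Complex.re_ofReal_mul, Complex.re_ofReal_mul]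
      congr 1
      · congr 1
        rw [tau_sum, Complex.re_sum]
        refine Finset.sum_congr rfl fun x _ => ?_
        rw [tau_sum, Complex.re_sum]
        refine Finset.sum_congr rfl fun y _ => ?_
        split_ifs
        · rfl
        · rw [tau_zero]; rfl
      · congr 1
        rw [tau_sub, Complex.sub_re, hq]
        rfl
    have h2 : (trace ((Aop n f * (L * (Aop n f)ᴴ - (Aop n f)ᴴ * L) -
      (L * (Aop n f)ᴴ - (Aop n f)ᴴ * L) * Aop n f) * NormedSpace.exp L)).re =
      (tau L (dcm (Aop n f) (Aop n f)ᴴ L)).re := rfl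
    rw [h2, h1]
    have h3 : β / 2 * (-(∑ x : V, ∑ y : V, if adj x y then
          (tau L (dcm (Aop n f) (Aop n f)ᴴ (bond n x y))).re else 0)) ≤
          β / 2 * (2 * G * Z * (n * ((n : ℝ) - m))) := by
      refine mul_le_mul_of_nonneg_left ?_ (by positivity)
      exact hbondsum.trans (hsumw.le.trans (hupper.trans hval.le))
    have h4 : 2 * m * Z * (β * (h + ((n : ℝ) - m) / m * ((n : ℝ) / 2 * G))) =
        β * h * (2 * m * Z) + β / 2 * (2 * G * Z * (n * ((n : ℝ) - m))) := by
      field_simp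
    rw [h4]
    linarith
  have := roepstorff L hL (Aop n f) (2 * m * Z)
    (2 * m * Z * (β * (h + ((n : ℝ) - m) / m * ((n : ℝ) / 2 * G)))) hq hq0 hc
  rw [mul_div_cancel_left₀ _ hq0.ne'] at this
  exact this

theorem main_sum {adj : V → V → Prop} [DecidableRel adj] (hs : ∀ x y, adj x y → adj y x)
    (hirr : ∀ x, ¬ adj x x) {β h : ℝ} (hβ : 0 < β) [Nonempty V]
    {K : Type*} [Fintype K] (f : K → V → ℂ)
    (hf : ∀ k x, Complex.normSq (f k x) = 1 / Fintype.card V) (G : K → ℝ)
    (hG : ∀ k x, (∑ y, if adj x y then Complex.normSq (f k x - f k y) else 0) ≤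
      2 * G k / Fintype.card V)
    (hcomplete : ∀ x y, ∑ k, star (f k x) * f k y = if x = y then 1 else 0)
    (m : ℝ) (hm : m = (tau (expo n adj β h) (magG n V)).re /
      (Fintype.card V * (tau (expo n adj β h) 1).re)) (hm0 : 0 < m) (hn : 0 < n) :
    m / ((n : ℝ) / 2) * ((Fintype.card V : ℝ)⁻¹ * ∑ k,
      1 / (Real.exp (β * (h + ((n : ℝ) - m) / m * ((n : ℝ) / 2 * G k))) - 1)) ≤
      (n : ℝ) / 2 - m := by
  set L := expo n adj β h with hLdef
  have hL : L.IsHermitian := expo_isHermitian hs β h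
  have hZpos : 0 < (tau L 1).re := by
    have := trace_exp_pos L hL
    unfold tau; rwa [Matrix.one_mul]
  set Z := (tau L 1).re with hZ
  have hcard : (0 : ℝ) < Fintype.card V := by exact_mod_cast Fintype.card_pos
  have hnpos : (0 : ℝ) < n := by exact_mod_cast hn
  have hmag : (tau L (magG n V)).re = m * (Fintype.card V * Z) := by
    rw [hm, div_mul_cancel₀ _ (by positivity)]
  have h1 : ∑ k, (tau L ((Aop n (f k))ᴴ * Aop n (f k))).re = ∑ x, (tau L (sm n x * sp n x)).re := by
    rw [← Complex.re_sum, ← Complex.re_sum, ← tau_sum, ← tau_sum]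
    congr 2
    have e1 : ∀ k, (Aop n (f k))ᴴ * Aop n (f k) =
        ∑ x, ∑ y, (star (f k x) * f k y) • (sm n x * sp n y) := by
      intro k
      rw [Aop_conjTranspose]
      unfold Aop
      rw [Finset.sum_mul_sum]
      refine Finset.sum_congr rfl fun x _ => Finset.sum_congr rfl fun y _ => ?_
      rw [smul_mul_smul_comm]
    rw [Finset.sum_congr rfl fun k _ => e1 k, Finset.sum_comm]
    refine Finset.sum_congr rfl fun x _ => ?_
    rw [Finset.sum_comm, Fintype.sum_eq_single x]
    · rw [← Finset.sum_smul, hcomplete, if_pos rfl, one_smul]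
    · intro y hy
      rw [← Finset.sum_smul, hcomplete, if_neg hy.symm, zero_smul]
  have h2 : ∑ x, (tau L (sm n x * sp n x)).re ≤ n * (Fintype.card V * Z * ((n : ℝ) / 2 - m)) := by
    calc ∑ x, (tau L (sm n x * sp n x)).re ≤ ∑ x, n * defi L x :=
          Finset.sum_le_sum fun x _ => tau_smsp_le hL x
      _ = n * ∑ x, defi L x := by rw [Finset.mul_sum]
      _ = n * (Fintype.card V * Z * ((n : ℝ) / 2 - m)) := by rw [sum_defi, hmag]; ring
  have h3 : ∑ k, 2 * m * Z / (Real.exp (β * (h + ((n : ℝ) - m) / m * ((n : ℝ) / 2 * G k))) - 1) ≤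
      ∑ k, (tau L ((Aop n (f k))ᴴ * Aop n (f k))).re :=
    Finset.sum_le_sum fun k _ => main_mode hs hirr hβ (f k) (hf k) (G k) (hG k) m hm hm0
  have h4 := h3.trans (h1.le.trans h2)
  have h5 : ∑ k, 2 * m * Z / (Real.exp (β * (h + ((n : ℝ) - m) / m * ((n : ℝ) / 2 * G k))) - 1) =
      2 * m * Z * ∑ k, 1 / (Real.exp (β * (h + ((n : ℝ) - m) / m * ((n : ℝ) / 2 * G k))) - 1) := by
    rw [Finset.mul_sum]
    refine Finset.sum_congr rfl fun k _ => ?_
    rw [mul_one_div]
  rw [h5] at h4
  set Sg := ∑ k, 1 / (Real.exp (β * (h + ((n : ℝ) - m) / m * ((n : ℝ) / 2 * G k))) - 1) with hSg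
  have h6 : m / ((n : ℝ) / 2) * ((Fintype.card V : ℝ)⁻¹ * Sg) =
      (2 * m * Z * Sg) / (n * Fintype.card V * Z) := by
    field_simp
  rw [h6, div_le_iff₀ (by positivity)]
  calc 2 * m * Z * Sg ≤ n * (Fintype.card V * Z * ((n : ℝ) / 2 - m)) := h4
    _ = _ := by ring

/-- m is at most S -/
theorem m_le {adj : V → V → Prop} [DecidableRel adj] (hs : ∀ x y, adj x y → adj y x)
    {β h : ℝ} [Nonempty V] :
    (tau (expo n adj β h) (magG n V)).re /
      (Fintype.card V * (tau (expo n adj β h) 1).re) ≤ (n : ℝ) / 2 := by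
  set L := expo n adj β h with hLdef
  have hL : L.IsHermitian := expo_isHermitian hs β h
  have hZpos : 0 < (tau L 1).re := by
    have := trace_exp_pos L hL
    unfold tau; rwa [Matrix.one_mul]
  have hcard : (0 : ℝ) < Fintype.card V := by exact_mod_cast Fintype.card_pos
  rw [div_le_iff₀ (by positivity)]
  have h1 := sum_defi L
  have h2 : 0 ≤ ∑ x, defi L x := Finset.sum_nonneg fun x _ => defi_nonneg hL x
  rw [h1] at h2
  linarith

/-- support line inequality -/
theorem logpart_support {adj : V → V → Prop} [DecidableRel adj] (hs : ∀ x y, adj x y → adj y x)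
    (β h h' : ℝ) [Nonempty V] :
    Real.log (partG n adj β h) + (h' - h) * (β * ((tau (expo n adj β h) (magG n V)).re /
      (tau (expo n adj β h) 1).re)) ≤ Real.log (partG n adj β h') := by
  have h1 := peierls_bogoliubov (expo n adj β h) (expo n adj β h') (expo_isHermitian hs β h)
    (expo_isHermitian hs β h')
  have h2 : expo n adj β h' - expo n adj β h = ((β * (h' - h) : ℝ) : ℂ) • magG n V := by
    unfold expo
    push_cast
    module
  rw [h2] at h1
  have h3 : (trace ((((β * (h' - h) : ℝ) : ℂ) • magG n V) * NormedSpace.exp (expo n adj β h))).re =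
      β * (h' - h) * (tau (expo n adj β h) (magG n V)).re := by
    have := tau_smul (expo n adj β h) (magG n V) ((β * (h' - h) : ℝ) : ℂ)
    unfold tau at this ⊢
    rw [this, Complex.re_ofReal_mul]
  rw [h3] at h1
  have h4 : (trace (NormedSpace.exp (expo n adj β h))).re = (tau (expo n adj β h) 1).re := by
    unfold tau; rw [Matrix.one_mul]
  have h5 : partG n adj β h = (trace (NormedSpace.exp (expo n adj β h))).re := rfl
  have h6 : partG n adj β h' = (trace (NormedSpace.exp (expo n adj β h'))).re := rfl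
  rw [h5, h6]
  refine le_trans (le_of_eq ?_) h1
  rw [← h4]
  ring

end

end Vale.Agent.P361
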