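import Mathlib

namespace Vale.Agent.P361

open Matrix

noncomputable section

variable {m : Type*} [Fintype m] [DecidableEq m]

theorem exists_diag (L : Matrix m m ℂ) (hL : L.IsHermitian) :
    ∃ (U : Matrix m m ℂ) (d : m → ℝ), Uᴴ * U = 1 ∧ U * Uᴴ = 1 ∧
      L = U * diagonal (fun i => (d i : ℂ)) * Uᴴ ∧
      NormedSpace.exp L = U * diagonal (fun i => ((Real.exp (d i) : ℝ) : ℂ)) * Uᴴ := by
  have hUU : (hL.eigenvectorUnitary : Matrix m m ℂ)ᴴ * (hL.eigenvectorUnitary : Matrix m m ℂ) = 1 := by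
    have := Unitary.coe_star_mul_self hL.eigenvectorUnitary
    rwa [star_eq_conjTranspose] at this
  have hUU' : (hL.eigenvectorUnitary : Matrix m m ℂ) * (hL.eigenvectorUnitary : Matrix m m ℂ)ᴴ = 1 := by
    have := Unitary.coe_mul_star_self hL.eigenvectorUnitary
    rwa [Unitary.coe_star, star_eq_conjTranspose] at this
  have h1 := hL.spectral_theorem
  rw [Unitary.conjStarAlgAut_apply] at h1
  refine ⟨hL.eigenvectorUnitary, hL.eigenvalues, hUU, hUU', h1, ?_⟩
  set U : Matrix m m ℂ := (hL.eigenvectorUnitary : Matrix m m ℂ) with hU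
  have hinv : U⁻¹ = Uᴴ := Matrix.inv_eq_left_inv hUU
  have hunit : IsUnit U := ⟨⟨U, Uᴴ, hUU', hUU⟩, rfl⟩
  have h2 : L = U * diagonal (fun i => (hL.eigenvalues i : ℂ)) * U⁻¹ := by
    rw [hinv]; exact h1
  conv_lhs => rw [h2]
  rw [Matrix.exp_conj _ _ hunit, hinv, Matrix.exp_diagonal]
  congr 3
  funext i
  rw [Pi.coe_exp, ← Complex.exp_eq_exp_ℂ, Complex.ofReal_exp]

theorem trace_mul_exp {L U : Matrix m m ℂ} {d : m → ℝ} 
    (hE : NormedSpace.exp L = U * diagonal (fun i => ((Real.exp (d i) : ℝ) : ℂ)) * Uᴴ)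
    (X : Matrix m m ℂ) :
    (trace (X * NormedSpace.exp L)) = ∑ i, (Uᴴ * X * U) i i * ((Real.exp (d i) : ℝ) : ℂ) := by
  rw [hE]
  have : trace (X * (U * diagonal (fun i => ((Real.exp (d i) : ℝ) : ℂ)) * Uᴴ)) =
      trace ((Uᴴ * X * U) * diagonal (fun i => ((Real.exp (d i) : ℝ) : ℂ))) := by
    rw [← Matrix.mul_assoc, Matrix.trace_mul_comm]
    simp only [Matrix.mul_assoc]
  rw [this, Matrix.trace]
  simp [Matrix.mul_diagonal]

theorem trace_exp {L U : Matrix m m ℂ} {d : m → ℝ} (hU : Uᴴ * U = 1)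
    (hE : NormedSpace.exp L = U * diagonal (fun i => ((Real.exp (d i) : ℝ) : ℂ)) * Uᴴ) :
    (trace (NormedSpace.exp L)).re = ∑ i, Real.exp (d i) := by
  have := trace_mul_exp hE 1
  rw [Matrix.one_mul, Matrix.mul_one, hU] at this
  rw [this]
  simp [← Complex.ofReal_exp]

theorem trace_exp_pos [Nonempty m] (L : Matrix m m ℂ) (hL : L.IsHermitian) :
    0 < (trace (NormedSpace.exp L)).re := by
  obtain ⟨U, d, h1, h2, h3, h4⟩ := exists_diag L hL
  rw [trace_exp h1 h4]
  exact Finset.sum_pos (fun i _ => Real.exp_pos _) Finset.univ_nonempty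

/-- positivity of Gibbs expectation -/
theorem trace_conjTranspose_mul_self_exp (L : Matrix m m ℂ) (hL : L.IsHermitian)
    (X : Matrix m m ℂ) : 0 ≤ (trace (Xᴴ * X * NormedSpace.exp L)).re := by
  obtain ⟨U, d, h1, h2, h3, h4⟩ := exists_diag L hL
  rw [trace_mul_exp h4, Complex.re_sum]
  refine Finset.sum_nonneg fun i _ => ?_
  rw [Complex.re_mul_ofReal]
  refine mul_nonneg ?_ (Real.exp_pos _).le
  have : Uᴴ * (Xᴴ * X) * U = (X * U)ᴴ * (X * U) := by
    rw [Matrix.conjTranspose_mul]; simp only [Matrix.mul_assoc]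
  rw [this, Matrix.mul_apply, Complex.re_sum]
  refine Finset.sum_nonneg fun j _ => ?_
  rw [Matrix.conjTranspose_apply]
  have : star ((X * U) j i) * (X * U) j i = ((Complex.normSq ((X * U) j i) : ℝ) : ℂ) := by
    rw [Complex.normSq_eq_conj_mul_self]; rfl
  rw [this, Complex.ofReal_re]
  exact Complex.normSq_nonneg _

end

end Vale.Agent.P361
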