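import Mathlib

open Filter Topology Real

namespace Vale.Agent.P361.H18

noncomputable def J (t : ℝ) : ℝ := (1 / π) * ∫ θ in (0 : ℝ)..π, Real.exp (-(t * θ ^ 2 / 2))

theorem J_nonneg (t : ℝ) : 0 ≤ J t := by
  unfold J
  apply mul_nonneg (by positivity)
  apply intervalIntegral.integral_nonneg Real.pi_pos.le
  intro u _
  exact (Real.exp_pos _).le

theorem half_sum_ge (N : ℕ) (t : ℝ) (ht : 0 ≤ t) :
    ((2 * N + 1 : ℕ) : ℝ) / 2 * J t ≤
      ∑ k ∈ Finset.range (N + 1), Real.exp (-(t * (2 * π * k / ((2 * N + 1 : ℕ) : ℝ)) ^ 2 / 2)) := by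
  set L : ℝ := ((2 * N + 1 : ℕ) : ℝ) with hLdef
  have hL : 0 < L := by
    rw [hLdef]
    positivity
  set G : ℝ → ℝ := fun θ => Real.exp (-(t * θ ^ 2 / 2)) with hG
  have hGc : Continuous G := by
    rw [hG]
    fun_prop
  set D : ℝ := 2 * π / L with hD
  have hDpos : 0 < D := by
    rw [hD]
    have := Real.pi_pos
    positivity
  have hanti : AntitoneOn (fun x : ℝ => G (D * x)) (Set.Icc (0 : ℝ) (0 + ((N + 1 : ℕ) : ℝ))) := by
    intro x hx y hy hxy
    simp only [hG]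
    apply Real.exp_le_exp.mpr
    have hx0 : 0 ≤ x := hx.1
    have : (D * x) ^ 2 ≤ (D * y) ^ 2 := by
      apply pow_le_pow_left₀ (by positivity)
      gcongr
    nlinarith
  have h1 := hanti.integral_le_sum
  have h2 : ∫ x in (0 : ℝ)..(0 + ((N + 1 : ℕ) : ℝ)), G (D * x) =
      D⁻¹ * ∫ θ in (0 : ℝ)..(D * ((N + 1 : ℕ) : ℝ)), G θ := by
    rw [intervalIntegral.integral_comp_mul_left (f := G) (by positivity : D ≠ 0)]
    simp
  have h3 : ∫ θ in (0 : ℝ)..π, G θ ≤ ∫ θ in (0 : ℝ)..(D * ((N + 1 : ℕ) : ℝ)), G θ := by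
    apply intervalIntegral.integral_mono_interval le_rfl Real.pi_pos.le
    · rw [hD, hLdef]
      push_cast
      rw [div_mul_eq_mul_div, le_div_iff₀ (by positivity)]
      have := Real.pi_pos
      nlinarith
    · apply Eventually.of_forall
      intro x
      exact (Real.exp_pos _).le
    · exact hGc.intervalIntegrable _ _
  have h4 : L / 2 * J t = D⁻¹ * ∫ θ in (0 : ℝ)..π, G θ := by
    unfold J
    rw [hD]
    have := Real.pi_pos.ne'
    simp only [hG]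
    field_simp
  rw [h4]
  calc D⁻¹ * ∫ θ in (0 : ℝ)..π, G θ ≤ D⁻¹ * ∫ θ in (0 : ℝ)..(D * ((N + 1 : ℕ) : ℝ)), G θ := by
        gcongr
    _ = ∫ x in (0 : ℝ)..(0 + ((N + 1 : ℕ) : ℝ)), G (D * x) := h2.symm
    _ ≤ _ := h1
    _ = _ := by
        apply Finset.sum_congr rfl
        intro k _
        simp only [hG, hD, zero_add]
        congr 3
        ring

theorem sum_range_ge (N : ℕ) (t : ℝ) (ht : 0 ≤ t) :
    ((2 * N + 1 : ℕ) : ℝ) * J t - 1 ≤
      ∑ k ∈ Finset.range (2 * N + 1),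
        Real.exp (-(t * (1 - Real.cos (2 * π * k / ((2 * N + 1 : ℕ) : ℝ))))) := by
  have hL : (0 : ℝ) < ((2 * N + 1 : ℕ) : ℝ) := by positivity
  have hcos : ∀ θ : ℝ, Real.exp (-(t * θ ^ 2 / 2)) ≤ Real.exp (-(t * (1 - Real.cos θ))) := by
    intro θ
    apply Real.exp_le_exp.mpr
    have := Real.one_sub_sq_div_two_le_cos (x := θ)
    nlinarith
  have hA := half_sum_ge N t ht
  have hsplit : ∑ k ∈ Finset.range (2 * N + 1),
        Real.exp (-(t * (1 - Real.cos (2 * π * k / ((2 * N + 1 : ℕ) : ℝ))))) =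
      ∑ k ∈ Finset.range (N + 1),
        Real.exp (-(t * (1 - Real.cos (2 * π * k / ((2 * N + 1 : ℕ) : ℝ))))) +
      ∑ k ∈ Finset.range N,
        Real.exp (-(t * (1 - Real.cos (2 * π * (k + 1 : ℕ) / ((2 * N + 1 : ℕ) : ℝ))))) := by
    have e1 : 2 * N + 1 = (N + 1) + N := by ring
    conv_lhs => rw [e1, Finset.sum_range_add]
    have e3 : ((N + 1 + N : ℕ) : ℝ) = ((2 * N + 1 : ℕ) : ℝ) := by
      congr 1
      omega
    rw [e3]
    congr 1
    rw [← Finset.sum_range_reflect (fun x => Real.exp (-(t * (1 - Real.cos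
      (2 * π * ((N + 1 + x : ℕ) : ℝ) / ((2 * N + 1 : ℕ) : ℝ)))))) N]
    apply Finset.sum_congr rfl
    intro k hk
    have hk' := Finset.mem_range.mp hk
    congr 4
    have e2 : ((N + 1 + (N - 1 - k) : ℕ) : ℝ) = ((2 * N + 1 : ℕ) : ℝ) - ((k + 1 : ℕ) : ℝ) := by
      rw [eq_sub_iff_add_eq, ← Nat.cast_add]
      congr 1
      omega
    rw [e2]
    have e4 : 2 * π * (((2 * N + 1 : ℕ) : ℝ) - ((k + 1 : ℕ) : ℝ)) / ((2 * N + 1 : ℕ) : ℝ)
        = 2 * π - 2 * π * ((k + 1 : ℕ) : ℝ) / ((2 * N + 1 : ℕ) : ℝ) := by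
      field_simp
    rw [e4, Real.cos_two_pi_sub]
  rw [hsplit]
  have hB : ∑ k ∈ Finset.range (N + 1), Real.exp (-(t * (2 * π * k / ((2 * N + 1 : ℕ) : ℝ)) ^ 2 / 2))
      ≤ ∑ k ∈ Finset.range (N + 1),
        Real.exp (-(t * (1 - Real.cos (2 * π * k / ((2 * N + 1 : ℕ) : ℝ))))) :=
    Finset.sum_le_sum fun k _ => hcos _
  have hC : ∑ k ∈ Finset.range (N + 1), Real.exp (-(t * (2 * π * k / ((2 * N + 1 : ℕ) : ℝ)) ^ 2 / 2))
      - 1 ≤ ∑ k ∈ Finset.range N,
        Real.exp (-(t * (1 - Real.cos (2 * π * (k + 1 : ℕ) / ((2 * N + 1 : ℕ) : ℝ))))) := by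
    rw [Finset.sum_range_succ']
    simp only [Nat.cast_zero, mul_zero, zero_div, ne_eq, OfNat.ofNat_ne_zero, not_false_eq_true,
      zero_pow, neg_zero, Real.exp_zero, add_sub_cancel_right]
    exact Finset.sum_le_sum fun k _ => hcos _
  linarith

theorem geom_bound (x : ℝ) (hx : 0 < x) (M : ℕ) :
    ∑ n ∈ Finset.range M, Real.exp (-((n + 1 : ℕ) * x)) ≤ 1 / (Real.exp x - 1) := by
  have hq : Real.exp (-x) < 1 := by
    rw [Real.exp_lt_one_iff]
    linarith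
  have hq0 : 0 < Real.exp (-x) := Real.exp_pos _
  have h1 : ∀ n : ℕ, Real.exp (-((n + 1 : ℕ) * x)) = Real.exp (-x) * Real.exp (-x) ^ n := by
    intro n
    rw [← Real.exp_nat_mul, ← Real.exp_add]
    congr 1
    push_cast
    ring
  simp_rw [h1]
  rw [← Finset.mul_sum, geom_sum_eq hq.ne]
  have hex : Real.exp x - 1 > 0 := by
    have := Real.add_one_lt_exp hx.ne'
    linarith
  have h2 : 1 / (Real.exp x - 1) = Real.exp (-x) * (1 / (1 - Real.exp (-x))) := by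
    have h3 : Real.exp x * Real.exp (-x) = 1 := by
      rw [← Real.exp_add]
      simp
    have h4 : (1 - Real.exp (-x)) ≠ 0 := by linarith
    field_simp
    linarith
  rw [h2]
  have h5 : (Real.exp (-x) ^ M - 1) / (Real.exp (-x) - 1)
      = (1 - Real.exp (-x) ^ M) / (1 - Real.exp (-x)) := by
    rw [← neg_sub, ← neg_sub (1 : ℝ), neg_div_neg_eq]
  rw [h5]
  apply mul_le_mul_of_nonneg_left _ hq0.le
  apply div_le_div_of_nonneg_right _ (by linarith)
  have : 0 ≤ Real.exp (-x) ^ M := by positivity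
  linarith

end Vale.Agent.P361.H18
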