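import Mathlib
import Vale.Agent.P361.H18_Riemann

open Filter Topology Real

namespace Vale.Agent.P361.H18

theorem J_eq (t : ℝ) (ht : 0 < t) :
    J t = (1 / (π * Real.sqrt t)) * ∫ u in (0 : ℝ)..(Real.sqrt t * π), Real.exp (-(1 / 2) * u ^ 2) := by
  unfold J
  have hs : 0 < Real.sqrt t := Real.sqrt_pos.mpr ht
  have h1 : ∫ θ in (0 : ℝ)..π, Real.exp (-(t * θ ^ 2 / 2)) =
      ∫ θ in (0 : ℝ)..π, (fun u => Real.exp (-(1 / 2) * u ^ 2)) (Real.sqrt t * θ) := by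
    congr 1
    ext θ
    simp only
    congr 1
    rw [mul_pow, Real.sq_sqrt ht.le]
    ring
  rw [h1, intervalIntegral.integral_comp_mul_left (f := fun u => Real.exp (-(1 / 2) * u ^ 2)) hs.ne']
  simp only [mul_zero, smul_eq_mul]
  have := Real.pi_pos.ne'
  field_simp

theorem J_sqrt_tendsto :
    Tendsto (fun t : ℝ => Real.sqrt t * J t) atTop (𝓝 (1 / Real.sqrt (2 * π))) := by
  have hG : MeasureTheory.IntegrableOn (fun u : ℝ => Real.exp (-(1 / 2) * u ^ 2)) (Set.Ioi 0) :=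
    (integrable_exp_neg_mul_sq (by norm_num : (0 : ℝ) < 1 / 2)).integrableOn
  have h1 : Tendsto (fun t : ℝ => ∫ u in (0 : ℝ)..(Real.sqrt t * π), Real.exp (-(1 / 2) * u ^ 2)) atTop
      (𝓝 (∫ u in Set.Ioi (0 : ℝ), Real.exp (-(1 / 2) * u ^ 2))) := by
    apply MeasureTheory.intervalIntegral_tendsto_integral_Ioi 0 hG
    exact Tendsto.atTop_mul_const Real.pi_pos Real.tendsto_sqrt_atTop
  rw [integral_gaussian_Ioi] at h1
  have h2 := h1.const_mul (1 / π)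
  have h3 : (1 / π) * (Real.sqrt (π / (1 / 2)) / 2) = 1 / Real.sqrt (2 * π) := by
    have hp := Real.pi_pos
    have e1 : π / (1 / 2) = 2 * π := by ring
    rw [e1]
    have hs : 0 < Real.sqrt (2 * π) := Real.sqrt_pos.mpr (by positivity)
    have hss : Real.sqrt (2 * π) ^ 2 = 2 * π := Real.sq_sqrt (by positivity)
    rw [div_mul_div_comm, one_mul, div_eq_div_iff (by positivity) hs.ne', ← pow_two, hss]
    ring
  rw [h3] at h2
  refine h2.congr' ?_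
  filter_upwards [eventually_gt_atTop 0] with t ht
  rw [J_eq t ht]
  have hs : 0 < Real.sqrt t := Real.sqrt_pos.mpr ht
  have := Real.pi_pos.ne'
  field_simp

theorem J_cube_tendsto (c : ℝ) (hc : 0 < c) :
    Tendsto (fun β : ℝ => β ^ (3 / 2 : ℝ) * (J (c * β)) ^ 3) atTop
      (𝓝 ((2 * π * c) ^ (-(3 / 2) : ℝ))) := by
  have h1 : Tendsto (fun β : ℝ => Real.sqrt (c * β) * J (c * β)) atTop
      (𝓝 (1 / Real.sqrt (2 * π))) :=
    J_sqrt_tendsto.comp (Tendsto.const_mul_atTop hc tendsto_id)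
  have h2 := (h1.pow 3).const_mul (c ^ (-(3 / 2) : ℝ))
  have hp := Real.pi_pos
  have h3 : c ^ (-(3 / 2) : ℝ) * (1 / Real.sqrt (2 * π)) ^ 3 = (2 * π * c) ^ (-(3 / 2) : ℝ) := by
    rw [mul_comm (2 * π) c, Real.mul_rpow hc.le (by positivity)]
    congr 1
    rw [Real.sqrt_eq_rpow, one_div, ← Real.rpow_neg (by positivity), ← Real.rpow_natCast,
      ← Real.rpow_mul (by positivity)]
    congr 1
    norm_num
  rw [h3] at h2
  refine h2.congr' ?_
  filter_upwards [eventually_gt_atTop 0] with β hβ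
  rw [mul_pow, ← mul_assoc]
  congr 1
  rw [Real.sqrt_eq_rpow, ← Real.rpow_natCast, ← Real.rpow_mul (by positivity),
    Real.mul_rpow hc.le hβ.le, ← mul_assoc, ← Real.rpow_add hc]
  norm_num

theorem zeta_re_eq : (riemannZeta (3 / 2)).re = ∑' n : ℕ, (((n + 1 : ℕ) : ℝ)) ^ (-(3 / 2) : ℝ) := by
  have h1 : (1 : ℝ) < (3 / 2 : ℂ).re := by norm_num
  rw [zeta_eq_tsum_one_div_nat_add_one_cpow h1]
  have h2 : ∀ n : ℕ, 1 / ((n : ℂ) + 1) ^ (3 / 2 : ℂ) =
      (((((n + 1 : ℕ) : ℝ)) ^ (-(3 / 2) : ℝ) : ℝ) : ℂ) := by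
    intro n
    rw [Complex.ofReal_cpow (by positivity), one_div, ← Complex.cpow_neg]
    push_cast
    congr 1
  simp_rw [h2]
  rw [← Complex.ofReal_tsum, Complex.ofReal_re]

theorem zeta_summable : Summable (fun n : ℕ => (((n + 1 : ℕ) : ℝ)) ^ (-(3 / 2) : ℝ)) := by
  have h : Summable (fun n : ℕ => ((n : ℝ)) ^ (-(3 / 2) : ℝ)) :=
    Real.summable_nat_rpow.mpr (by norm_num)
  exact (summable_nat_add_iff 1).mpr h

theorem final_asymptotics (S : ℝ) (hS : 0 < S) (m : ℝ → ℝ)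
    (hm : ∀ β : ℝ, 0 < β → ∀ m' : ℝ, 0 < m' → m' < m β → ∀ M : ℕ,
      m' / S * ∑ n ∈ Finset.range M,
        (J ((n + 1 : ℕ) * (β * ((2 * S - m') / m') * (2 * S)))) ^ 3 ≤ S - m β)
    (c : ℝ) (hc : c < (riemannZeta (3 / 2)).re / (8 * π ^ (3 / 2 : ℝ) * S ^ (3 / 2 : ℝ))) :
    ∀ᶠ β in atTop, c < β ^ (3 / 2 : ℝ) * (S - m β) := by
  have hp := Real.pi_pos
  set Z : ℕ → ℝ := fun M => ∑ n ∈ Finset.range M, (((n + 1 : ℕ) : ℝ)) ^ (-(3 / 2) : ℝ) with hZ
  have hZlim : Tendsto Z atTop (𝓝 (riemannZeta (3 / 2)).re) := by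
    rw [zeta_re_eq]
    exact zeta_summable.hasSum.tendsto_sum_nat
  set K : ℝ := 8 * π ^ (3 / 2 : ℝ) * S ^ (3 / 2 : ℝ) with hK
  have hKpos : 0 < K := by positivity
  have ev1 : Tendsto (fun M => Z M / K) atTop (𝓝 ((riemannZeta (3 / 2)).re / K)) :=
    hZlim.div_const K
  obtain ⟨M, hM⟩ := (ev1.eventually_const_lt hc).exists
  have hρt : Tendsto (fun ρ : ℝ => ρ * ((ρ / (2 - ρ)) ^ (3 / 2 : ℝ)) * (Z M / K)) (𝓝[<] 1)
      (𝓝 (1 * ((1 / (2 - 1) : ℝ) ^ (3 / 2 : ℝ)) * (Z M / K))) := by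
    apply Tendsto.mono_left _ nhdsWithin_le_nhds
    apply Tendsto.mul_const
    apply Tendsto.mul tendsto_id
    have h1 : Tendsto (fun ρ : ℝ => ρ / (2 - ρ)) (𝓝 1) (𝓝 (1 / (2 - 1))) := by
      apply Tendsto.div tendsto_id (tendsto_const_nhds.sub tendsto_id)
      norm_num
    exact h1.rpow_const (Or.inl (by norm_num))
  have e0 : (1 : ℝ) * ((1 / (2 - 1) : ℝ) ^ (3 / 2 : ℝ)) * (Z M / K) = Z M / K := by
    norm_num
  rw [e0] at hρt
  have ev2 := hρt.eventually_const_lt hM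
  have ev3 : ∀ᶠ ρ in 𝓝[<] (1 : ℝ), ρ ∈ Set.Ioo (0 : ℝ) 1 :=
    Ioo_mem_nhdsLT one_pos
  obtain ⟨ρ, hρ1, hρ0, hρlt⟩ := (ev2.and ev3).exists
  have h2ρ : 0 < 2 - ρ := by linarith
  have hlimJ : Tendsto (fun β : ℝ => β ^ (3 / 2 : ℝ) * (ρ * ∑ n ∈ Finset.range M,
      (J ((n + 1 : ℕ) * (β * ((2 * S - ρ * S) / (ρ * S)) * (2 * S)))) ^ 3)) atTop
      (𝓝 (ρ * ∑ n ∈ Finset.range M,
        (2 * π * ((n + 1 : ℕ) * ((2 - ρ) / ρ * (2 * S)))) ^ (-(3 / 2) : ℝ))) := by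
    have h1 : Tendsto (fun β : ℝ => ρ * ∑ n ∈ Finset.range M,
        β ^ (3 / 2 : ℝ) * (J (((n + 1 : ℕ) * ((2 - ρ) / ρ * (2 * S))) * β)) ^ 3) atTop
        (𝓝 (ρ * ∑ n ∈ Finset.range M,
          (2 * π * ((n + 1 : ℕ) * ((2 - ρ) / ρ * (2 * S)))) ^ (-(3 / 2) : ℝ))) := by
      apply Tendsto.const_mul
      apply tendsto_finsetSum
      intro n _
      apply J_cube_tendsto
      positivity
    refine h1.congr' ?_
    filter_upwards [eventually_gt_atTop 0] with β hβ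
    rw [← Finset.mul_sum, mul_left_comm]
    congr 2
    apply Finset.sum_congr rfl
    intro n _
    congr 2
    field_simp
  have hval : ρ * ∑ n ∈ Finset.range M,
      (2 * π * ((n + 1 : ℕ) * ((2 - ρ) / ρ * (2 * S)))) ^ (-(3 / 2) : ℝ)
      = ρ * ((ρ / (2 - ρ)) ^ (3 / 2 : ℝ)) * (Z M / K) := by
    have h1 : ∀ n : ℕ, (2 * π * ((n + 1 : ℕ) * ((2 - ρ) / ρ * (2 * S)))) ^ (-(3 / 2) : ℝ)
        = (((n + 1 : ℕ) : ℝ)) ^ (-(3 / 2) : ℝ) * ((ρ / (2 - ρ)) ^ (3 / 2 : ℝ) / K) := by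
      intro n
      have e1 : 2 * π * ((n + 1 : ℕ) * ((2 - ρ) / ρ * (2 * S))) =
          ((n + 1 : ℕ) : ℝ) * (4 * π * S / (ρ / (2 - ρ))) := by
        field_simp
        ring
      have hq : 0 < ρ / (2 - ρ) := by positivity
      rw [e1, Real.mul_rpow (by positivity) (by positivity)]
      congr 1
      rw [Real.rpow_neg (by positivity), Real.div_rpow (by positivity) hq.le,
        Real.mul_rpow (by positivity) (by positivity), Real.mul_rpow (by positivity) (by positivity),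
        inv_div]
      congr 1
      rw [hK]
      congr 2
      have : (4 : ℝ) = 2 ^ (2 : ℝ) := by norm_num
      rw [this, ← Real.rpow_mul (by norm_num)]
      norm_num
    simp_rw [h1]
    rw [← Finset.sum_mul, hZ]
    ring
  rw [hval] at hlimJ
  have ev4 := hlimJ.eventually_const_lt hρ1
  have ev5 : ∀ᶠ β : ℝ in atTop, c < β ^ (3 / 2 : ℝ) * ((1 - ρ) * S) := by
    have h1 : Tendsto (fun β : ℝ => β ^ (3 / 2 : ℝ) * ((1 - ρ) * S)) atTop atTop := by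
      apply Tendsto.atTop_mul_const
      · have : 0 < 1 - ρ := by linarith
        positivity
      · exact tendsto_rpow_atTop (by norm_num)
    exact h1.eventually_gt_atTop c
  filter_upwards [ev4, ev5, eventually_gt_atTop 0] with β h4 h5 hβ
  have hβ' : 0 < β ^ (3 / 2 : ℝ) := Real.rpow_pos_of_pos hβ _
  rcases le_or_gt (m β) (ρ * S) with hle | hgt
  · refine lt_of_lt_of_le h5 ?_
    gcongr
    linarith
  · have := hm β hβ (ρ * S) (by positivity) hgt M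
    refine lt_of_lt_of_le h4 ?_
    gcongr
    have e : ρ * S / S = ρ := by field_simp
    rwa [e] at this

end Vale.Agent.P361.H18
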