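import Mathlib

open Filter Topology

namespace Vale.Agent.P361.H18

theorem near_additive_limit (f : ℕ → ℝ) (K : ℝ)
    (hf : ∀ a b, |f (a + b) - f a - f b| ≤ K) :
    ∃ l : ℝ, Tendsto (fun n : ℕ => f n / n) atTop (𝓝 l) ∧ ∀ a : ℕ, |f a - a * l| ≤ K := by
  have hK : 0 ≤ K := le_trans (abs_nonneg _) (hf 0 0)
  have hlin : ∀ n : ℕ, |f n| ≤ n * (|f 1| + K) + |f 0| := by
    intro n
    induction n with
    | zero => simp
    | succ n ih =>
      have h1 := hf n 1
      have h2 : |f (n + 1)| ≤ |f (n + 1) - f n - f 1| + |f n| + |f 1| := by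
        have : f (n + 1) = (f (n + 1) - f n - f 1) + f n + f 1 := by ring
        calc |f (n + 1)| = |(f (n + 1) - f n - f 1) + f n + f 1| := by rw [← this]
          _ ≤ |(f (n + 1) - f n - f 1) + f n| + |f 1| := abs_add_le _ _
          _ ≤ |f (n + 1) - f n - f 1| + |f n| + |f 1| := by
            gcongr
            exact abs_add_le _ _
      push_cast
      nlinarith
  have hsub1 : Subadditive (fun n => f n + K) := by
    intro m n
    have := abs_le.mp (hf m n)
    simp only
    linarith [this.2]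
  have hsub2 : Subadditive (fun n => - f n + K) := by
    intro m n
    have := abs_le.mp (hf m n)
    simp only
    linarith [this.1]
  have hbd : ∀ n : ℕ, |f n / n| ≤ |f 1| + K + |f 0| := by
    intro n
    rcases Nat.eq_zero_or_pos n with h0 | hpos
    · subst h0
      simp
      positivity
    · have hn : (1 : ℝ) ≤ n := by exact_mod_cast hpos
      rw [abs_div, abs_of_pos (by linarith : (0 : ℝ) < n), div_le_iff₀ (by linarith)]
      have := hlin n
      nlinarith [abs_nonneg (f 0), abs_nonneg (f 1)]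
  have hKn : ∀ n : ℕ, 0 ≤ K / n ∧ K / n ≤ K := by
    intro n
    rcases Nat.eq_zero_or_pos n with h0 | hpos
    · subst h0
      simpa using hK
    · have hn : (1 : ℝ) ≤ n := by exact_mod_cast hpos
      refine ⟨by positivity, ?_⟩
      rw [div_le_iff₀ (by linarith)]
      nlinarith
  have hb1 : BddBelow (Set.range fun n : ℕ => (f n + K) / n) := by
    refine ⟨-(|f 1| + K + |f 0|), ?_⟩
    rintro _ ⟨n, rfl⟩
    have h := (abs_le.mp (hbd n)).1
    have h2 := (hKn n).1
    simp only
    rw [add_div]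
    linarith
  have hb2 : BddBelow (Set.range fun n : ℕ => (-f n + K) / n) := by
    refine ⟨-(|f 1| + K + |f 0|), ?_⟩
    rintro _ ⟨n, rfl⟩
    have h := (abs_le.mp (hbd n)).2
    have h2 := (hKn n).1
    simp only
    rw [add_div, neg_div]
    linarith
  have ht1 := hsub1.tendsto_lim hb1
  have ht2 := hsub2.tendsto_lim hb2
  have hKt : Tendsto (fun n : ℕ => K / (n : ℝ)) atTop (𝓝 0) :=
    tendsto_const_div_atTop_nhds_zero_nat K
  have ht1' : Tendsto (fun n : ℕ => f n / n) atTop (𝓝 hsub1.lim) := by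
    have := ht1.sub hKt
    simp only [sub_zero] at this
    refine this.congr ?_
    intro n
    ring
  have ht2' : Tendsto (fun n : ℕ => f n / n) atTop (𝓝 (-hsub2.lim)) := by
    have := (ht2.sub hKt).neg
    simp only [sub_zero] at this
    refine this.congr ?_
    intro n
    ring
  have hEq : hsub1.lim = -hsub2.lim := tendsto_nhds_unique ht1' ht2'
  refine ⟨hsub1.lim, ht1', ?_⟩
  intro a
  rcases Nat.eq_zero_or_pos a with h0 | hpos
  · subst h0
    have := hf 0 0
    simp at this
    simpa using this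
  · have ha : (0 : ℝ) < a := by exact_mod_cast hpos
    have hne : a ≠ 0 := by omega
    have h1 := hsub1.lim_le_div hb1 hne
    have h2 := hsub2.lim_le_div hb2 hne
    rw [le_div_iff₀ ha] at h1 h2
    have h3 : hsub2.lim = - hsub1.lim := by rw [hEq]; ring
    rw [h3] at h2
    rw [abs_le]
    constructor <;> nlinarith

theorem exists_limit_3d (f : ℕ → ℕ → ℕ → ℝ) (C : ℝ)
    (h1 : ∀ a a' b c, |f (a + a') b c - f a b c - f a' b c| ≤ C * (b * c))
    (h2 : ∀ a b b' c, |f a (b + b') c - f a b c - f a b' c| ≤ C * (a * c))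
    (h3 : ∀ a b c c', |f a b (c + c') - f a b c - f a b c'| ≤ C * (a * b)) :
    ∃ p : ℝ, ∀ L : ℕ, |f L L L - L ^ 3 * p| ≤ 3 * C * L ^ 2 := by
  have hC : 0 ≤ C := by
    have := h1 0 0 1 1
    have h' := le_trans (abs_nonneg _) this
    simpa using h'
  choose lam hlam1 hlam2 using fun b c => near_additive_limit (fun a => f a b c) (C * (b * c))
    (fun a a' => h1 a a' b c)
  have hl2 : ∀ b b' c : ℕ, |lam (b + b') c - lam b c - lam b' c| ≤ C * c := by
    intro b b' c
    have ht : Tendsto (fun a : ℕ => |f a (b + b') c / a - f a b c / a - f a b' c / a|) atTop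
        (𝓝 |lam (b + b') c - lam b c - lam b' c|) :=
      (((hlam1 (b + b') c).sub (hlam1 b c)).sub (hlam1 b' c)).abs
    refine le_of_tendsto ht ?_
    filter_upwards [eventually_gt_atTop 0] with a ha
    have ha' : (0 : ℝ) < a := by exact_mod_cast ha
    have : f a (b + b') c / a - f a b c / a - f a b' c / a
        = (f a (b + b') c - f a b c - f a b' c) / a := by ring
    rw [this, abs_div, abs_of_pos ha', div_le_iff₀ ha']
    calc _ ≤ C * (a * c) := h2 a b b' c
      _ = C * c * a := by ring
  have hl3 : ∀ b c c' : ℕ, |lam b (c + c') - lam b c - lam b c'| ≤ C * b := by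
    intro b c c'
    have ht : Tendsto (fun a : ℕ => |f a b (c + c') / a - f a b c / a - f a b c' / a|) atTop
        (𝓝 |lam b (c + c') - lam b c - lam b c'|) :=
      (((hlam1 b (c + c')).sub (hlam1 b c)).sub (hlam1 b c')).abs
    refine le_of_tendsto ht ?_
    filter_upwards [eventually_gt_atTop 0] with a ha
    have ha' : (0 : ℝ) < a := by exact_mod_cast ha
    have : f a b (c + c') / a - f a b c / a - f a b c' / a
        = (f a b (c + c') - f a b c - f a b c') / a := by ring
    rw [this, abs_div, abs_of_pos ha', div_le_iff₀ ha']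
    calc _ ≤ C * (a * b) := h3 a b c c'
      _ = C * b * a := by ring
  choose mu hmu1 hmu2 using fun c => near_additive_limit (fun b => lam b c) (C * c)
    (fun b b' => hl2 b b' c)
  have hm3 : ∀ c c' : ℕ, |mu (c + c') - mu c - mu c'| ≤ C := by
    intro c c'
    have ht : Tendsto (fun b : ℕ => |lam b (c + c') / b - lam b c / b - lam b c' / b|) atTop
        (𝓝 |mu (c + c') - mu c - mu c'|) :=
      (((hmu1 (c + c')).sub (hmu1 c)).sub (hmu1 c')).abs
    refine le_of_tendsto ht ?_
    filter_upwards [eventually_gt_atTop 0] with b hb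
    have hb' : (0 : ℝ) < b := by exact_mod_cast hb
    have : lam b (c + c') / b - lam b c / b - lam b c' / b
        = (lam b (c + c') - lam b c - lam b c') / b := by ring
    rw [this, abs_div, abs_of_pos hb', div_le_iff₀ hb']
    exact hl3 b c c'
  obtain ⟨p, -, hp⟩ := near_additive_limit mu C hm3
  refine ⟨p, ?_⟩
  intro L
  have e1 := hlam2 L L L
  have e2 := hmu2 L L
  have e3 := hp L
  have hL : (0 : ℝ) ≤ L := Nat.cast_nonneg L
  have key : f L L L - L ^ 3 * p = (f L L L - L * lam L L) + L * (lam L L - L * mu L)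
      + L ^ 2 * (mu L - L * p) := by ring
  rw [key]
  calc |(f L L L - L * lam L L) + L * (lam L L - L * mu L) + L ^ 2 * (mu L - L * p)|
      ≤ |(f L L L - L * lam L L) + L * (lam L L - L * mu L)| + |L ^ 2 * (mu L - L * p)| :=
        abs_add_le _ _
    _ ≤ |f L L L - L * lam L L| + |L * (lam L L - L * mu L)| + |L ^ 2 * (mu L - L * p)| := by
        gcongr
        exact abs_add_le _ _
    _ = |f L L L - L * lam L L| + L * |lam L L - L * mu L| + L ^ 2 * |mu L - L * p| := by
        rw [abs_mul, abs_mul, abs_of_nonneg hL, abs_of_nonneg (by positivity : (0 : ℝ) ≤ L ^ 2)]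
    _ ≤ C * (L * L) + L * (C * L) + L ^ 2 * C := by
        gcongr
    _ = 3 * C * L ^ 2 := by ring

theorem tendsto_of_3d (f : ℕ → ℕ → ℕ → ℝ) (C p : ℝ)
    (h : ∀ L : ℕ, |f L L L - L ^ 3 * p| ≤ 3 * C * L ^ 2) :
    Tendsto (fun L : ℕ => f L L L / (L : ℝ) ^ 3) atTop (𝓝 p) := by
  rw [tendsto_iff_norm_sub_tendsto_zero]
  have hz : Tendsto (fun L : ℕ => 3 * C / (L : ℝ)) atTop (𝓝 0) :=
    tendsto_const_div_atTop_nhds_zero_nat (3 * C)
  refine squeeze_zero' (Eventually.of_forall fun _ => norm_nonneg _) ?_ hz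
  filter_upwards [eventually_gt_atTop 0] with L hL
  have hL' : (0 : ℝ) < L := by exact_mod_cast hL
  have : f L L L / (L : ℝ) ^ 3 - p = (f L L L - L ^ 3 * p) / L ^ 3 := by
    field_simp
  rw [this, Real.norm_eq_abs, abs_div, abs_of_pos (by positivity : (0 : ℝ) < (L : ℝ) ^ 3),
    div_le_div_iff₀ (by positivity) hL']
  calc |f L L L - L ^ 3 * p| * L ≤ (3 * C * L ^ 2) * L := by
        gcongr
        exact h L
    _ = 3 * C * L ^ 3 := by ring

end Vale.Agent.P361.H18
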