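import Mathlib

open Matrix
open scoped Matrix ComplexOrder

namespace Vale.Agent.P361.H18

variable {n : Type*} [Fintype n] [DecidableEq n]

theorem exp_eq_conj {A : Matrix n n ℂ} (hA : A.IsHermitian) :
    NormedSpace.exp A = (hA.eigenvectorUnitary : Matrix n n ℂ) *
      diagonal (fun i => ((Real.exp (hA.eigenvalues i) : ℝ) : ℂ)) *
        star (hA.eigenvectorUnitary : Matrix n n ℂ) := by
  set U : Matrix n n ℂ := (hA.eigenvectorUnitary : Matrix n n ℂ) with hU
  have hUU : star U * U = 1 := Unitary.coe_star_mul_self hA.eigenvectorUnitary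
  have hUU' : U * star U = 1 := Unitary.coe_mul_star_self hA.eigenvectorUnitary
  have hinv : U⁻¹ = star U := Matrix.inv_eq_right_inv hUU'
  have hunit : IsUnit U := by
    rw [Matrix.isUnit_iff_isUnit_det]
    exact (Matrix.isUnit_det_of_right_inverse hUU')
  have hs : A = U * diagonal (fun i => ((hA.eigenvalues i : ℝ) : ℂ)) * U⁻¹ := by
    rw [hinv]
    have := hA.spectral_theorem
    rw [Unitary.conjStarAlgAut_apply] at this
    exact this
  conv_lhs => rw [hs]
  rw [Matrix.exp_conj _ _ hunit, Matrix.exp_diagonal, hinv]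
  congr 2
  ext i j
  by_cases h : i = j
  · subst h
    simp [Pi.coe_exp, ← Complex.exp_eq_exp_ℂ]
  · simp [Matrix.diagonal_apply_ne _ h]

theorem trace_exp {A : Matrix n n ℂ} (hA : A.IsHermitian) :
    trace (NormedSpace.exp A) = ((∑ i, Real.exp (hA.eigenvalues i) : ℝ) : ℂ) := by
  rw [exp_eq_conj hA, Matrix.trace_mul_comm, ← Matrix.mul_assoc]
  rw [Unitary.coe_star_mul_self hA.eigenvectorUnitary, Matrix.one_mul, Matrix.trace_diagonal]
  push_cast
  rfl

theorem quad_conj (U : Matrix n n ℂ) (d : n → ℝ) (u : n → ℂ) :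
    star u ⬝ᵥ ((U * diagonal (fun i => ((d i : ℝ) : ℂ)) * star U) *ᵥ u) =
      ((∑ j, d j * Complex.normSq ((star U *ᵥ u) j) : ℝ) : ℂ) := by
  have h1 : star u ⬝ᵥ ((U * diagonal (fun i => ((d i : ℝ) : ℂ)) * star U) *ᵥ u)
      = star (star U *ᵥ u) ⬝ᵥ (diagonal (fun i => ((d i : ℝ) : ℂ)) *ᵥ (star U *ᵥ u)) := by
    rw [Matrix.star_mulVec, Matrix.star_eq_conjTranspose, Matrix.conjTranspose_conjTranspose,
      ← Matrix.dotProduct_mulVec, Matrix.mulVec_mulVec, Matrix.mulVec_mulVec]
  rw [h1]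
  simp only [dotProduct, Matrix.mulVec_diagonal, Pi.star_apply]
  push_cast
  apply Finset.sum_congr rfl
  intro j _
  rw [Complex.normSq_eq_conj_mul_self]
  simp only [RCLike.star_def]
  ring

theorem exp_quad_le {A : Matrix n n ℂ} (hA : A.IsHermitian) (u : n → ℂ)
    (hu : star u ⬝ᵥ u = 1) :
    Real.exp (star u ⬝ᵥ (A *ᵥ u)).re ≤ (star u ⬝ᵥ (NormedSpace.exp A *ᵥ u)).re := by
  set U : Matrix n n ℂ := (hA.eigenvectorUnitary : Matrix n n ℂ) with hU
  have hUU' : U * star U = 1 := Unitary.coe_mul_star_self hA.eigenvectorUnitary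
  have hs : A = U * diagonal (fun i => ((hA.eigenvalues i : ℝ) : ℂ)) * star U := by
    have := hA.spectral_theorem
    rw [Unitary.conjStarAlgAut_apply] at this
    exact this
  have h1 : star u ⬝ᵥ (A *ᵥ u) =
      ((∑ j, hA.eigenvalues j * Complex.normSq ((star U *ᵥ u) j) : ℝ) : ℂ) := by
    conv_lhs => rw [hs]
    exact quad_conj U _ u
  have h2 : star u ⬝ᵥ (NormedSpace.exp A *ᵥ u) =
      ((∑ j, Real.exp (hA.eigenvalues j) * Complex.normSq ((star U *ᵥ u) j) : ℝ) : ℂ) := by
    rw [exp_eq_conj hA]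
    exact quad_conj U _ u
  have h3 : ((∑ j, 1 * Complex.normSq ((star U *ᵥ u) j) : ℝ) : ℂ) = 1 := by
    rw [← quad_conj U (fun _ => 1) u]
    simp only [Complex.ofReal_one]
    have : diagonal (fun _ : n => (1 : ℂ)) = 1 := Matrix.diagonal_one
    rw [this, Matrix.mul_one, hUU', Matrix.one_mulVec, hu]
  have h3' : ∑ j, Complex.normSq ((star U *ᵥ u) j) = 1 := by
    have := Complex.ofReal_injective (h3.trans Complex.ofReal_one.symm)
    simpa using this
  rw [h1, h2, Complex.ofReal_re, Complex.ofReal_re]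
  have := convexOn_exp.map_sum_le (t := Finset.univ)
    (w := fun j => Complex.normSq ((star U *ᵥ u) j)) (p := fun j => hA.eigenvalues j)
    (fun j _ => Complex.normSq_nonneg _) h3' (fun j _ => Set.mem_univ _)
  simp only [smul_eq_mul] at this
  calc _ = Real.exp (∑ j, Complex.normSq ((star U *ᵥ u) j) * hA.eigenvalues j) := by
        congr 1
        apply Finset.sum_congr rfl
        intro j _
        ring
    _ ≤ _ := this
    _ = _ := by
        apply Finset.sum_congr rfl
        intro j _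
        ring

theorem trace_exp_le {A B : Matrix n n ℂ} (hA : A.IsHermitian) (hB : B.IsHermitian) (c : ℝ)
    (h : ∀ u : n → ℂ, star u ⬝ᵥ u = 1 →
      (star u ⬝ᵥ (A *ᵥ u)).re ≤ (star u ⬝ᵥ (B *ᵥ u)).re + c) :
    (trace (NormedSpace.exp A)).re ≤ Real.exp c * (trace (NormedSpace.exp B)).re := by
  set U : Matrix n n ℂ := (hA.eigenvectorUnitary : Matrix n n ℂ) with hU
  have hUU : star U * U = 1 := Unitary.coe_star_mul_self hA.eigenvectorUnitary
  have hUU' : U * star U = 1 := Unitary.coe_mul_star_self hA.eigenvectorUnitary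
  set v : n → n → ℂ := fun i => U *ᵥ (Pi.single i 1) with hv
  have hv1 : ∀ i, star (v i) ⬝ᵥ v i = 1 := by
    intro i
    rw [hv]
    simp only
    rw [Matrix.star_mulVec, ← Matrix.dotProduct_mulVec, Matrix.mulVec_mulVec,
      ← Matrix.star_eq_conjTranspose, hUU, Matrix.one_mulVec]
    simp [dotProduct, Pi.single_apply]
  have hvB : ∀ X : Matrix n n ℂ, ∀ i, star (v i) ⬝ᵥ (X *ᵥ v i) = (star U * X * U) i i := by
    intro X i
    rw [hv]
    simp only
    rw [Matrix.star_mulVec, ← Matrix.dotProduct_mulVec, Matrix.mulVec_mulVec, Matrix.mulVec_mulVec,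
      ← Matrix.star_eq_conjTranspose]
    simp [dotProduct, Pi.single_apply]
  have htr : ∀ X : Matrix n n ℂ, trace X = ∑ i, star (v i) ⬝ᵥ (X *ᵥ v i) := by
    intro X
    have : trace X = trace (star U * X * U) := by
      rw [Matrix.trace_mul_comm, ← Matrix.mul_assoc, hUU', Matrix.one_mul]
    rw [this]
    simp only [Matrix.trace, Matrix.diag]
    exact Finset.sum_congr rfl fun i _ => (hvB X i).symm
  have hsA : star U * A * U = diagonal (fun i => ((hA.eigenvalues i : ℝ) : ℂ)) := by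
    have := hA.spectral_theorem
    rw [Unitary.conjStarAlgAut_apply] at this
    conv_lhs => rw [this]
    rw [← hU, Matrix.mul_assoc, Matrix.mul_assoc, hUU, Matrix.mul_one, ← Matrix.mul_assoc, hUU,
      Matrix.one_mul]
    rfl
  have hq : ∀ i, star (v i) ⬝ᵥ (A *ᵥ v i) = ((hA.eigenvalues i : ℝ) : ℂ) := by
    intro i
    rw [hvB, hsA]
    simp
  rw [trace_exp hA, Complex.ofReal_re, htr (NormedSpace.exp B), Complex.re_sum, Finset.mul_sum]
  apply Finset.sum_le_sum
  intro i _
  have h1 := h (v i) (hv1 i)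
  rw [hq, Complex.ofReal_re] at h1
  have h2 := exp_quad_le hB (v i) (hv1 i)
  calc Real.exp (hA.eigenvalues i) ≤ Real.exp ((star (v i) ⬝ᵥ (B *ᵥ v i)).re + c) :=
        Real.exp_le_exp.mpr h1
    _ = Real.exp c * Real.exp ((star (v i) ⬝ᵥ (B *ᵥ v i)).re) := by
        rw [Real.exp_add, mul_comm]
    _ ≤ _ := by gcongr

theorem trace_exp_pos [Nonempty n] {A : Matrix n n ℂ} (hA : A.IsHermitian) :
    0 < (trace (NormedSpace.exp A)).re := by
  rw [trace_exp hA, Complex.ofReal_re]
  exact Finset.sum_pos (fun i _ => Real.exp_pos _) Finset.univ_nonempty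

theorem log_trace_exp_le [Nonempty n] {A B : Matrix n n ℂ} (hA : A.IsHermitian)
    (hB : B.IsHermitian) (c : ℝ)
    (h : ∀ u : n → ℂ, star u ⬝ᵥ u = 1 →
      (star u ⬝ᵥ (A *ᵥ u)).re ≤ (star u ⬝ᵥ (B *ᵥ u)).re + c) :
    Real.log (trace (NormedSpace.exp A)).re ≤ Real.log (trace (NormedSpace.exp B)).re + c := by
  have h1 := trace_exp_le hA hB c h
  have h2 := Real.log_le_log (trace_exp_pos hA) h1
  rw [Real.log_mul (Real.exp_pos _).ne' (trace_exp_pos hB).ne', Real.log_exp] at h2
  linarith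

end Vale.Agent.P361.H18
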