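import Mathlib
import Vale.Agent.P361.H18_Peierls

open Matrix
open scoped Matrix Kronecker

namespace Vale.Agent.P361.H18

variable {m n : Type*} [Fintype m] [DecidableEq m] [Fintype n] [DecidableEq n]

set_option backward.isDefEq.respectTransparency false in
theorem matrix_map_exp (f : Matrix m m ℂ →+* Matrix n n ℂ) (hf : Continuous f)
    (A : Matrix m m ℂ) : f (NormedSpace.exp A) = NormedSpace.exp (f A) :=
  open scoped Norms.Operator in NormedSpace.map_exp f hf A

def kronLeft (m n : Type*) [Fintype m] [DecidableEq m] [Fintype n] [DecidableEq n] :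
    Matrix m m ℂ →+* Matrix (m × n) (m × n) ℂ where
  toFun A := A ⊗ₖ (1 : Matrix n n ℂ)
  map_one' := Matrix.one_kronecker_one
  map_mul' A B := by
    rw [← Matrix.mul_kronecker_mul, Matrix.one_mul]
  map_zero' := Matrix.zero_kronecker _
  map_add' A B := Matrix.add_kronecker _ _ _

def kronRight (m n : Type*) [Fintype m] [DecidableEq m] [Fintype n] [DecidableEq n] :
    Matrix n n ℂ →+* Matrix (m × n) (m × n) ℂ where
  toFun B := (1 : Matrix m m ℂ) ⊗ₖ B
  map_one' := Matrix.one_kronecker_one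
  map_mul' A B := by
    rw [← Matrix.mul_kronecker_mul, Matrix.one_mul]
  map_zero' := Matrix.kronecker_zero _
  map_add' A B := Matrix.kronecker_add _ _ _

theorem continuous_kronLeft : Continuous (kronLeft m n) := by
  apply continuous_matrix
  intro i j
  simp only [kronLeft, RingHom.coe_mk, MonoidHom.coe_mk, OneHom.coe_mk, Matrix.kroneckerMap_apply]
  exact (continuous_id.matrix_elem i.1 j.1).mul continuous_const

theorem continuous_kronRight : Continuous (kronRight m n) := by
  apply continuous_matrix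
  intro i j
  simp only [kronRight, RingHom.coe_mk, MonoidHom.coe_mk, OneHom.coe_mk, Matrix.kroneckerMap_apply]
  exact continuous_const.mul (continuous_id.matrix_elem i.2 j.2)

theorem exp_kron_sum (A : Matrix m m ℂ) (B : Matrix n n ℂ) :
    NormedSpace.exp (A ⊗ₖ (1 : Matrix n n ℂ) + (1 : Matrix m m ℂ) ⊗ₖ B) =
      NormedSpace.exp A ⊗ₖ NormedSpace.exp B := by
  have hc : Commute (A ⊗ₖ (1 : Matrix n n ℂ)) ((1 : Matrix m m ℂ) ⊗ₖ B) := by
    unfold Commute SemiconjBy
    rw [← Matrix.mul_kronecker_mul, ← Matrix.mul_kronecker_mul]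
    simp
  rw [Matrix.exp_add_of_commute _ _ hc]
  have h1 : NormedSpace.exp (A ⊗ₖ (1 : Matrix n n ℂ)) = NormedSpace.exp A ⊗ₖ (1 : Matrix n n ℂ) :=
    (matrix_map_exp (kronLeft m n) continuous_kronLeft A).symm
  have h2 : NormedSpace.exp ((1 : Matrix m m ℂ) ⊗ₖ B) = (1 : Matrix m m ℂ) ⊗ₖ NormedSpace.exp B :=
    (matrix_map_exp (kronRight m n) continuous_kronRight B).symm
  rw [h1, h2, ← Matrix.mul_kronecker_mul, Matrix.one_mul, Matrix.mul_one]

theorem trace_exp_kron_sum (A : Matrix m m ℂ) (B : Matrix n n ℂ) :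
    trace (NormedSpace.exp (A ⊗ₖ (1 : Matrix n n ℂ) + (1 : Matrix m m ℂ) ⊗ₖ B)) =
      trace (NormedSpace.exp A) * trace (NormedSpace.exp B) := by
  rw [exp_kron_sum, Matrix.trace_kronecker]

def reindexHom (e : m ≃ n) : Matrix m m ℂ →+* Matrix n n ℂ :=
  ((Matrix.reindexAlgEquiv ℂ ℂ e : Matrix m m ℂ ≃ₐ[ℂ] Matrix n n ℂ) : Matrix m m ℂ →+* Matrix n n ℂ)

theorem trace_exp_reindex (e : m ≃ n) (A : Matrix m m ℂ) :
    trace (NormedSpace.exp (Matrix.reindex e e A)) = trace (NormedSpace.exp A) := by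
  have hc : Continuous (reindexHom e) := by
    apply continuous_matrix
    intro i j
    exact continuous_id.matrix_elem (e.symm i) (e.symm j)
  have h := matrix_map_exp (reindexHom e) hc A
  have h1 : reindexHom e A = Matrix.reindex e e A := rfl
  rw [← h1, ← h]
  have h2 : reindexHom e (NormedSpace.exp A) = Matrix.reindex e e (NormedSpace.exp A) := rfl
  rw [h2]
  simp only [Matrix.trace, Matrix.diag, Matrix.reindex_apply, Matrix.submatrix_apply]
  exact Equiv.sum_comp e.symm (fun i => NormedSpace.exp A i i)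

end Vale.Agent.P361.H18
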