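import Mathlib
import Vale.Agent.P361.Defs
import Vale.Agent.P361.H18_Peierls
import Vale.Agent.P361.H18_Kron

open Matrix
open scoped Matrix Kronecker

namespace Vale.Agent.P361.H18

variable {V W : Type*} [Fintype V] [DecidableEq V] [Fintype W] [DecidableEq W]

theorem siteOp_eq {n : ℕ} (x : V) (A : Matrix (Fin (n + 1)) (Fin (n + 1)) ℂ) :
    siteOp x A = reindexHom (Equiv.funSplitAt x (Fin (n + 1))).symm (kronLeft _ _ A) := by
  ext σ τ
  change siteOp x A σ τ = A (σ x) (τ x) *
    (1 : Matrix ({j : V // j ≠ x} → Fin (n + 1)) ({j : V // j ≠ x} → Fin (n + 1)) ℂ)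
        (fun j => σ j.1) (fun j => τ j.1)
  simp only [siteOp, Matrix.of_apply, Matrix.one_apply]
  by_cases h : ∀ y, y ≠ x → σ y = τ y
  · have h2 : (fun j : {j : V // j ≠ x} => σ j.1) = (fun j => τ j.1) := by
      funext j
      exact h j.1 j.2
    rw [if_pos h, if_pos h2, mul_one]
  · have h2 : ¬ ((fun j : {j : V // j ≠ x} => σ j.1) = (fun j => τ j.1)) := by
      intro h3
      apply h
      intro y hy
      exact congrFun h3 ⟨y, hy⟩
    rw [if_neg h, if_neg h2, mul_zero]

theorem siteOp_mul {n : ℕ} (x : V) (A B : Matrix (Fin (n + 1)) (Fin (n + 1)) ℂ) :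
    siteOp x A * siteOp x B = siteOp x (A * B) := by
  rw [siteOp_eq, siteOp_eq, siteOp_eq, map_mul, map_mul]

theorem siteOp_conjTranspose {n : ℕ} (x : V) (A : Matrix (Fin (n + 1)) (Fin (n + 1)) ℂ) :
    (siteOp x A)ᴴ = siteOp x Aᴴ := by
  ext σ τ
  simp only [siteOp, Matrix.conjTranspose_apply, Matrix.of_apply]
  by_cases h : ∀ y, y ≠ x → σ y = τ y
  · rw [if_pos h, if_pos (fun y hy => (h y hy).symm)]
  · rw [if_neg h, if_neg (fun h' => h (fun y hy => (h' y hy).symm)), star_zero]

theorem spin_hermitian (n : ℕ) (a : Fin 3) : (spin n a)ᴴ = spin n a := by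
  fin_cases a
  · simp [spin, Matrix.conjTranspose_smul, Matrix.conjTranspose_add, add_comm]
  · simp [spin, Matrix.conjTranspose_smul, Matrix.conjTranspose_sub]
    rw [neg_div, neg_smul, ← smul_neg, neg_sub]
  · change (Sz n)ᴴ = Sz n
    unfold Sz
    rw [Matrix.diagonal_conjTranspose]
    congr 1
    funext i
    simp

noncomputable def SS (n : ℕ) (x y : V) : Matrix (V → Fin (n + 1)) (V → Fin (n + 1)) ℂ :=
  ∑ a, siteOp x (spin n a) * siteOp y (spin n a)

theorem SS_conjTranspose (n : ℕ) (x y : V) : (SS n x y)ᴴ = SS n y x := by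
  unfold SS
  rw [Matrix.conjTranspose_sum]
  apply Finset.sum_congr rfl
  intro a _
  rw [Matrix.conjTranspose_mul, siteOp_conjTranspose, siteOp_conjTranspose, spin_hermitian]

theorem hamG_eq (n : ℕ) (adj : V → V → Prop) [DecidableRel adj] :
    hamG n adj = -((1 / 2 : ℂ) • ∑ x : V, ∑ y : V, if adj x y then SS n x y else 0) := rfl

theorem hamG_hermitian (n : ℕ) (adj : V → V → Prop) [DecidableRel adj]
    (hs : ∀ x y, adj x y → adj y x) : (hamG n adj).IsHermitian := by
  unfold Matrix.IsHermitian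
  rw [hamG_eq, Matrix.conjTranspose_neg, Matrix.conjTranspose_smul, Matrix.conjTranspose_sum]
  congr 1
  have h2 : star (1 / 2 : ℂ) = 1 / 2 := by
    simp
  rw [h2]
  congr 1
  rw [Finset.sum_comm]
  apply Finset.sum_congr rfl
  intro x _
  rw [Matrix.conjTranspose_sum]
  apply Finset.sum_congr rfl
  intro y _
  by_cases h : adj x y
  · rw [if_pos h, if_pos (hs x y h), SS_conjTranspose]
  · rw [if_neg h, if_neg (fun h' => h (hs y x h')), Matrix.conjTranspose_zero]

theorem magG_hermitian (n : ℕ) : (magG n V).IsHermitian := by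
  unfold Matrix.IsHermitian magG
  rw [Matrix.conjTranspose_sum]
  apply Finset.sum_congr rfl
  intro x _
  rw [siteOp_conjTranspose, spin_hermitian]

end Vale.Agent.P361.H18
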