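import Mathlib
import Vale.Agent.P361.H18_Site

open Matrix
open scoped Matrix Kronecker
set_option linter.unusedSectionVars false

namespace Vale.Agent.P361.H18

section Q

variable {m : Type*} [Fintype m] [DecidableEq m]

noncomputable def Q (X : Matrix m m ℂ) (u : m → ℂ) : ℝ := (star u ⬝ᵥ (X *ᵥ u)).re

noncomputable def nsq (u : m → ℂ) : ℝ := ∑ i, Complex.normSq (u i)

theorem nsq_nonneg (u : m → ℂ) : 0 ≤ nsq u := Finset.sum_nonneg fun _ _ => Complex.normSq_nonneg _

theorem nsq_eq (u : m → ℂ) : ((nsq u : ℝ) : ℂ) = star u ⬝ᵥ u := by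
  unfold nsq dotProduct
  push_cast
  apply Finset.sum_congr rfl
  intro i _
  rw [Complex.normSq_eq_conj_mul_self]
  rfl

theorem Q_sum {ι : Type*} (s : Finset ι) (X : ι → Matrix m m ℂ) (u : m → ℂ) :
    Q (∑ i ∈ s, X i) u = ∑ i ∈ s, Q (X i) u := by
  unfold Q
  rw [Matrix.sum_mulVec, dotProduct_sum, Complex.re_sum]

theorem Q_sub (X Y : Matrix m m ℂ) (u : m → ℂ) : Q (X - Y) u = Q X u - Q Y u := by
  unfold Q
  rw [Matrix.sub_mulVec, dotProduct_sub, Complex.sub_re]

theorem Q_smul (c : ℝ) (X : Matrix m m ℂ) (u : m → ℂ) : Q ((c : ℂ) • X) u = c * Q X u := by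
  unfold Q
  rw [Matrix.smul_mulVec, dotProduct_smul, smul_eq_mul, Complex.re_ofReal_mul]

theorem Q_mul_le (X Y : Matrix m m ℂ) (u : m → ℂ) :
    |Q (X * Y) u| ≤ (nsq (Xᴴ *ᵥ u) + nsq (Y *ᵥ u)) / 2 := by
  have h1 : star u ⬝ᵥ ((X * Y) *ᵥ u) = star (Xᴴ *ᵥ u) ⬝ᵥ (Y *ᵥ u) := by
    rw [Matrix.star_mulVec, Matrix.conjTranspose_conjTranspose, ← Matrix.dotProduct_mulVec,
      Matrix.mulVec_mulVec]
  unfold Q
  rw [h1]
  simp only [dotProduct, Complex.re_sum, nsq, Pi.star_apply]
  rw [← Finset.sum_add_distrib, Finset.sum_div]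
  refine (Finset.abs_sum_le_sum_abs _ _).trans ?_
  apply Finset.sum_le_sum
  intro i _
  set a := (Xᴴ *ᵥ u) i
  set b := (Y *ᵥ u) i
  have h2 : (star a * b).re = a.re * b.re + a.im * b.im := by
    simp [Complex.mul_re]
  rw [h2, Complex.normSq_apply, Complex.normSq_apply, abs_le]
  constructor
  · nlinarith [sq_nonneg (a.re + b.re), sq_nonneg (a.im + b.im)]
  · nlinarith [sq_nonneg (a.re - b.re), sq_nonneg (a.im - b.im)]

end Q

variable {V W : Type*} [Fintype V] [DecidableEq V] [Fintype W] [DecidableEq W]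

noncomputable def frob {d : ℕ} (B : Matrix (Fin d) (Fin d) ℂ) : ℝ :=
  ∑ i, ∑ j, Complex.normSq (B i j)

theorem normSq_sum_mul_le {ι : Type*} (s : Finset ι) (a b : ι → ℂ) :
    Complex.normSq (∑ i ∈ s, a i * b i) ≤
      (∑ i ∈ s, Complex.normSq (a i)) * (∑ i ∈ s, Complex.normSq (b i)) := by
  have h1 : ‖∑ i ∈ s, a i * b i‖ ≤ ∑ i ∈ s, ‖a i‖ * ‖b i‖ := by
    refine (norm_sum_le _ _).trans ?_
    apply Finset.sum_le_sum
    intro i _
    rw [norm_mul]
  have h2 := Finset.sum_mul_sq_le_sq_mul_sq s (fun i => ‖a i‖) (fun i => ‖b i‖)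
  simp only [Complex.normSq_eq_norm_sq]
  calc ‖∑ i ∈ s, a i * b i‖ ^ 2 ≤ (∑ i ∈ s, ‖a i‖ * ‖b i‖) ^ 2 := by gcongr
    _ ≤ _ := h2

theorem nsq_siteOp_le {n : ℕ} (x : V) (B : Matrix (Fin (n + 1)) (Fin (n + 1)) ℂ)
    (u : (V → Fin (n + 1)) → ℂ) : nsq (siteOp x B *ᵥ u) ≤ frob B * nsq u := by
  set e := Equiv.funSplitAt x (Fin (n + 1)) with he
  have h0 : ∀ i ρ, (siteOp x B *ᵥ u) (e.symm (i, ρ)) = ∑ j, B i j * u (e.symm (j, ρ)) := by
    intro i ρ
    rw [siteOp_eq]
    change ∑ τ, (kronLeft _ _ B) (e (e.symm (i, ρ))) (e τ) * u τ = _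
    rw [Equiv.apply_symm_apply]
    rw [← Equiv.sum_comp e.symm, Fintype.sum_prod_type]
    apply Finset.sum_congr rfl
    intro j _
    rw [Finset.sum_eq_single ρ]
    · rw [Equiv.apply_symm_apply]
      simp [kronLeft, Matrix.kroneckerMap_apply]
    · intro ρ' _ hne
      rw [Equiv.apply_symm_apply]
      simp only [kronLeft, RingHom.coe_mk, MonoidHom.coe_mk, OneHom.coe_mk,
        Matrix.kroneckerMap_apply, Matrix.one_apply]
      rw [if_neg (fun h => hne h.symm)]
      simp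
    · intro h
      exact absurd (Finset.mem_univ _) h
  have h1 : nsq (siteOp x B *ᵥ u) = ∑ ρ, ∑ i, Complex.normSq (∑ j, B i j * u (e.symm (j, ρ))) := by
    unfold nsq
    rw [← Equiv.sum_comp e.symm, Fintype.sum_prod_type, Finset.sum_comm]
    apply Finset.sum_congr rfl
    intro ρ _
    apply Finset.sum_congr rfl
    intro i _
    rw [h0]
  have h2 : nsq u = ∑ ρ, ∑ j, Complex.normSq (u (e.symm (j, ρ))) := by
    unfold nsq
    rw [← Equiv.sum_comp e.symm, Fintype.sum_prod_type, Finset.sum_comm]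
  rw [h1, h2, Finset.mul_sum]
  apply Finset.sum_le_sum
  intro ρ _
  unfold frob
  rw [Finset.sum_mul]
  apply Finset.sum_le_sum
  intro i _
  exact normSq_sum_mul_le _ _ _

noncomputable def cSS (n : ℕ) : ℝ := ∑ a, frob (spin n a)

theorem frob_nonneg {d : ℕ} (B : Matrix (Fin d) (Fin d) ℂ) : 0 ≤ frob B :=
  Finset.sum_nonneg fun _ _ => Finset.sum_nonneg fun _ _ => Complex.normSq_nonneg _

theorem cSS_nonneg (n : ℕ) : 0 ≤ cSS n := Finset.sum_nonneg fun _ _ => frob_nonneg _

theorem Q_SS_le (n : ℕ) (x y : V) (u : (V → Fin (n + 1)) → ℂ) :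
    |Q (SS n x y) u| ≤ cSS n * nsq u := by
  unfold SS
  rw [Q_sum]
  refine (Finset.abs_sum_le_sum_abs _ _).trans ?_
  unfold cSS
  rw [Finset.sum_mul]
  apply Finset.sum_le_sum
  intro a _
  refine (Q_mul_le _ _ _).trans ?_
  rw [siteOp_conjTranspose, spin_hermitian]
  have h1 := nsq_siteOp_le x (spin n a) u
  have h2 := nsq_siteOp_le y (spin n a) u
  linarith

theorem gibbs_hermitian (n : ℕ) (adj : V → V → Prop) [DecidableRel adj]
    (hs : ∀ x y, adj x y → adj y x) (β h : ℝ) :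
    (-(β : ℂ) • (hamG n adj - (h : ℂ) • magG n V)).IsHermitian := by
  have h1 := hamG_hermitian (V := V) n adj hs
  have h2 := magG_hermitian (V := V) n
  unfold Matrix.IsHermitian at *
  rw [Matrix.conjTranspose_smul, Matrix.conjTranspose_sub, Matrix.conjTranspose_smul, h1, h2]
  simp

noncomputable def logZ (n : ℕ) (adj : V → V → Prop) [DecidableRel adj] (β h : ℝ) : ℝ :=
  Real.log (partG n adj β h)

noncomputable def diffCount (adj adj' : V → V → Prop) [DecidableRel adj] [DecidableRel adj'] : ℝ :=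
  ∑ x, ∑ y, if (adj x y ↔ adj' x y) then (0 : ℝ) else 1

theorem logZ_le (n : ℕ) (adj adj' : V → V → Prop) [DecidableRel adj] [DecidableRel adj']
    (hs : ∀ x y, adj x y → adj y x) (hs' : ∀ x y, adj' x y → adj' y x) (β h : ℝ) :
    logZ n adj β h ≤ logZ n adj' β h + |β| / 2 * cSS n * diffCount adj adj' := by
  unfold logZ partG
  apply log_trace_exp_le (gibbs_hermitian n adj hs β h) (gibbs_hermitian n adj' hs' β h)
  intro u hu
  have hnu : nsq u = 1 := by
    have := nsq_eq u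
    rw [hu] at this
    exact_mod_cast this
  change Q _ u ≤ Q _ u + _
  have h1 : Q (-(β : ℂ) • (hamG n adj - (h : ℂ) • magG n V)) u -
      Q (-(β : ℂ) • (hamG n adj' - (h : ℂ) • magG n V)) u =
      β / 2 * ∑ x : V, ∑ y : V, Q ((if adj x y then SS n x y else 0) -
        (if adj' x y then SS n x y else 0)) u := by
    rw [← Q_sub, ← smul_sub, sub_sub_sub_cancel_right, hamG_eq, hamG_eq]
    have e1 : -(β : ℂ) • (-((1 / 2 : ℂ) • ∑ x : V, ∑ y : V, if adj x y then SS n x y else 0) -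
        -((1 / 2 : ℂ) • ∑ x : V, ∑ y : V, if adj' x y then SS n x y else 0)) =
        ((β / 2 : ℝ) : ℂ) • ∑ x : V, ∑ y : V, ((if adj x y then SS n x y else 0) -
        (if adj' x y then SS n x y else 0)) := by
      simp only [Finset.sum_sub_distrib]
      push_cast
      rw [neg_sub_neg, ← smul_sub, smul_smul, ← neg_sub, smul_neg]
      rw [← neg_smul]
      congr 1
      ring
    rw [e1, Q_smul, Q_sum]
    congr 1
    apply Finset.sum_congr rfl
    intro x _
    rw [Q_sum]
  have h2 : ∀ x y : V, |Q ((if adj x y then SS n x y else 0) -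
        (if adj' x y then SS n x y else 0)) u| ≤
        cSS n * (if (adj x y ↔ adj' x y) then (0 : ℝ) else 1) := by
    intro x y
    have hb := Q_SS_le n x y u
    rw [hnu, mul_one] at hb
    by_cases ha : adj x y <;> by_cases ha' : adj' x y
    · rw [if_pos ha, if_pos ha', sub_self, if_pos (iff_of_true ha ha')]
      simp [Q]
    · rw [if_pos ha, if_neg ha', sub_zero, if_neg (fun hh => ha' (hh.mp ha)), mul_one]
      exact hb
    · rw [if_neg ha, if_pos ha', if_neg (fun hh => ha (hh.mpr ha')), mul_one, Q_sub]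
      have : Q (0 : Matrix (V → Fin (n + 1)) (V → Fin (n + 1)) ℂ) u = 0 := by simp [Q]
      rw [this, zero_sub, abs_neg]
      exact hb
    · rw [if_neg ha, if_neg ha', sub_self, if_pos (iff_of_false ha ha')]
      simp [Q]
  have h3 : |∑ x : V, ∑ y : V, Q ((if adj x y then SS n x y else 0) -
        (if adj' x y then SS n x y else 0)) u| ≤ cSS n * diffCount adj adj' := by
    refine (Finset.abs_sum_le_sum_abs _ _).trans ?_
    unfold diffCount
    rw [Finset.mul_sum]
    apply Finset.sum_le_sum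
    intro x _
    refine (Finset.abs_sum_le_sum_abs _ _).trans ?_
    rw [Finset.mul_sum]
    exact Finset.sum_le_sum fun y _ => h2 x y
  have h4 : Q (-(β : ℂ) • (hamG n adj - (h : ℂ) • magG n V)) u -
      Q (-(β : ℂ) • (hamG n adj' - (h : ℂ) • magG n V)) u ≤
      |β| / 2 * cSS n * diffCount adj adj' := by
    rw [h1]
    refine (le_abs_self _).trans ?_
    rw [abs_mul, abs_div, abs_two, mul_assoc]
    gcongr
  linarith

theorem abs_logZ_sub_le (n : ℕ) (adj adj' : V → V → Prop) [DecidableRel adj] [DecidableRel adj']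
    (hs : ∀ x y, adj x y → adj y x) (hs' : ∀ x y, adj' x y → adj' y x) (β h : ℝ) :
    |logZ n adj β h - logZ n adj' β h| ≤ |β| / 2 * cSS n * diffCount adj adj' := by
  rw [abs_le]
  have h1 := logZ_le n adj adj' hs hs' β h
  have h2 := logZ_le n adj' adj hs' hs β h
  have h3 : diffCount adj' adj = diffCount adj adj' := by
    unfold diffCount
    apply Finset.sum_congr rfl
    intro x _
    apply Finset.sum_congr rfl
    intro y _
    by_cases h : (adj x y ↔ adj' x y)
    · rw [if_pos h, if_pos h.symm]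
    · rw [if_neg h, if_neg (fun h' => h h'.symm)]
  rw [h3] at h2
  constructor <;> linarith

end Vale.Agent.P361.H18
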