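import Mathlib
import Vale.Agent.P361.H18_Lip

open Matrix
open scoped Matrix Kronecker

namespace Vale.Agent.P361.H18

variable {V W : Type*} [Fintype V] [DecidableEq V] [Fintype W] [DecidableEq W]

theorem reindexHom_siteOp {n : ℕ} (e : V ≃ W) (x : V) (A : Matrix (Fin (n + 1)) (Fin (n + 1)) ℂ) :
    reindexHom (Equiv.arrowCongr e (Equiv.refl (Fin (n + 1)))) (siteOp x A) = siteOp (e x) A := by
  ext σ τ
  change siteOp x A (fun v => σ (e v)) (fun v => τ (e v)) = siteOp (e x) A σ τ
  simp only [siteOp, Matrix.of_apply]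
  by_cases h : ∀ y, y ≠ e x → σ y = τ y
  · rw [if_pos h, if_pos]
    intro y hy
    exact h (e y) (fun h' => hy (e.injective h'))
  · rw [if_neg h, if_neg]
    intro h'
    apply h
    intro y hy
    have := h' (e.symm y) (fun h'' => hy (by rw [← h'', Equiv.apply_symm_apply]))
    simpa using this

theorem partG_equiv (n : ℕ) (e : V ≃ W) (adj : V → V → Prop) (adj' : W → W → Prop)
    [DecidableRel adj] [DecidableRel adj'] (he : ∀ x y, adj' (e x) (e y) ↔ adj x y) (β h : ℝ) :
    partG n adj' β h = partG n adj β h := by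
  set E := Equiv.arrowCongr e (Equiv.refl (Fin (n + 1))) with hE
  have hH : reindexHom E (hamG n adj) = hamG n adj' := by
    rw [hamG_eq, hamG_eq]
    have h1 : reindexHom E (-((1 / 2 : ℂ) • ∑ x : V, ∑ y : V, if adj x y then SS n x y else 0))
        = -((1 / 2 : ℂ) • reindexHom E (∑ x : V, ∑ y : V, if adj x y then SS n x y else 0)) := rfl
    rw [h1, map_sum, ← Equiv.sum_comp e]
    congr 2
    apply Finset.sum_congr rfl
    intro x _
    rw [map_sum, ← Equiv.sum_comp e]
    apply Finset.sum_congr rfl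
    intro y _
    by_cases hxy : adj x y
    · rw [if_pos hxy, if_pos ((he x y).mpr hxy)]
      unfold SS
      rw [map_sum]
      apply Finset.sum_congr rfl
      intro a _
      rw [map_mul, reindexHom_siteOp, reindexHom_siteOp]
    · rw [if_neg hxy, if_neg (fun h' => hxy ((he x y).mp h')), map_zero]
  have hM : reindexHom E (magG n V) = magG n W := by
    unfold magG
    rw [map_sum, ← Equiv.sum_comp e]
    apply Finset.sum_congr rfl
    intro x _
    exact reindexHom_siteOp e x _
  unfold partG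
  rw [← trace_exp_reindex E]
  congr 3
  rw [← hH, ← hM]
  rfl

abbrev sumE (n : ℕ) (V W : Type*) : (V ⊕ W → Fin (n + 1)) ≃ (V → Fin (n + 1)) × (W → Fin (n + 1)) :=
  Equiv.sumArrowEquivProdArrow V W (Fin (n + 1))

theorem reindexHom_siteOp_inl {n : ℕ} (x : V) (A : Matrix (Fin (n + 1)) (Fin (n + 1)) ℂ) :
    reindexHom (sumE n V W) (siteOp (Sum.inl x : V ⊕ W) A) = kronLeft _ _ (siteOp x A) := by
  ext ⟨σ, σ'⟩ ⟨τ, τ'⟩
  change siteOp (Sum.inl x : V ⊕ W) A (Sum.elim σ σ') (Sum.elim τ τ') =
    siteOp x A σ τ * (1 : Matrix (W → Fin (n + 1)) (W → Fin (n + 1)) ℂ) σ' τ'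
  simp only [siteOp, Matrix.of_apply, Matrix.one_apply]
  by_cases h1 : ∀ y, y ≠ x → σ y = τ y
  · by_cases h2 : σ' = τ'
    · rw [if_pos, if_pos h1, if_pos h2, mul_one]
      · rfl
      · rintro (y | y) hy
        · exact h1 y (fun h => hy (by rw [h]))
        · simp [h2]
    · rw [if_neg, if_neg h2, mul_zero]
      intro h
      apply h2
      funext y
      exact h (Sum.inr y) (by simp)
  · rw [if_neg, if_neg h1, zero_mul]
    intro h
    apply h1
    intro y hy
    exact h (Sum.inl y) (fun h' => hy (Sum.inl_injective h'))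

theorem reindexHom_siteOp_inr {n : ℕ} (x : W) (A : Matrix (Fin (n + 1)) (Fin (n + 1)) ℂ) :
    reindexHom (sumE n V W) (siteOp (Sum.inr x : V ⊕ W) A) = kronRight _ _ (siteOp x A) := by
  ext ⟨σ, σ'⟩ ⟨τ, τ'⟩
  change siteOp (Sum.inr x : V ⊕ W) A (Sum.elim σ σ') (Sum.elim τ τ') =
    (1 : Matrix (V → Fin (n + 1)) (V → Fin (n + 1)) ℂ) σ τ * siteOp x A σ' τ'
  simp only [siteOp, Matrix.of_apply, Matrix.one_apply]
  by_cases h1 : ∀ y, y ≠ x → σ' y = τ' y
  · by_cases h2 : σ = τ
    · rw [if_pos, if_pos h1, if_pos h2, one_mul]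
      · rfl
      · rintro (y | y) hy
        · simp [h2]
        · exact h1 y (fun h => hy (by rw [h]))
    · rw [if_neg, if_neg h2, zero_mul]
      intro h
      apply h2
      funext y
      exact h (Sum.inl y) (by simp)
  · rw [if_neg, if_neg h1, mul_zero]
    intro h
    apply h1
    intro y hy
    exact h (Sum.inr y) (fun h' => hy (Sum.inr_injective h'))

theorem logZ_sum (n : ℕ) (adj : V → V → Prop) (adj' : W → W → Prop)
    (adjS : V ⊕ W → V ⊕ W → Prop)
    [DecidableRel adj] [DecidableRel adj'] [DecidableRel adjS]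
    (hs : ∀ x y, adj x y → adj y x) (hs' : ∀ x y, adj' x y → adj' y x)
    (h1 : ∀ x y, adjS (Sum.inl x) (Sum.inl y) ↔ adj x y)
    (h2 : ∀ x y, adjS (Sum.inr x) (Sum.inr y) ↔ adj' x y)
    (h3 : ∀ x y, ¬ adjS (Sum.inl x) (Sum.inr y))
    (h4 : ∀ x y, ¬ adjS (Sum.inr x) (Sum.inl y)) (β h : ℝ) :
    logZ n adjS β h = logZ n adj β h + logZ n adj' β h := by
  have hH : reindexHom (sumE n V W) (hamG n adjS) =
      kronLeft _ _ (hamG n adj) + kronRight _ _ (hamG n adj') := by
    rw [hamG_eq, hamG_eq, hamG_eq]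
    have e1 : reindexHom (sumE n V W) (-((1 / 2 : ℂ) • ∑ x : V ⊕ W, ∑ y : V ⊕ W,
          if adjS x y then SS n x y else 0))
        = -((1 / 2 : ℂ) • reindexHom (sumE n V W) (∑ x : V ⊕ W, ∑ y : V ⊕ W,
          if adjS x y then SS n x y else 0)) := rfl
    have e2 : kronLeft (V → Fin (n + 1)) (W → Fin (n + 1))
        (-((1 / 2 : ℂ) • ∑ x : V, ∑ y : V, if adj x y then SS n x y else 0))
        = -((1 / 2 : ℂ) • kronLeft (V → Fin (n + 1)) (W → Fin (n + 1))
          (∑ x : V, ∑ y : V, if adj x y then SS n x y else 0)) := by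
      rw [map_neg]
      congr 1
      exact Matrix.smul_kronecker _ _ _
    have e3 : kronRight (V → Fin (n + 1)) (W → Fin (n + 1))
        (-((1 / 2 : ℂ) • ∑ x : W, ∑ y : W, if adj' x y then SS n x y else 0))
        = -((1 / 2 : ℂ) • kronRight (V → Fin (n + 1)) (W → Fin (n + 1))
          (∑ x : W, ∑ y : W, if adj' x y then SS n x y else 0)) := by
      rw [map_neg]
      congr 1
      exact Matrix.kronecker_smul _ _ _
    rw [e1, e2, e3, ← neg_add, ← smul_add]
    congr 2
    rw [Fintype.sum_sum_type]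
    simp only [Fintype.sum_sum_type, h1, h2, h3, h4, if_false, Finset.sum_const_zero, add_zero,
      zero_add]
    rw [map_add]
    congr 1
    · simp only [map_sum]
      apply Finset.sum_congr rfl
      intro x _
      apply Finset.sum_congr rfl
      intro y _
      by_cases hxy : adj x y
      · rw [if_pos hxy, if_pos hxy]
        unfold SS
        simp only [map_sum, map_mul, reindexHom_siteOp_inl]
      · rw [if_neg hxy, if_neg hxy, map_zero, map_zero]
    · simp only [map_sum]
      apply Finset.sum_congr rfl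
      intro x _
      apply Finset.sum_congr rfl
      intro y _
      by_cases hxy : adj' x y
      · rw [if_pos hxy, if_pos hxy]
        unfold SS
        simp only [map_sum, map_mul, reindexHom_siteOp_inr]
      · rw [if_neg hxy, if_neg hxy, map_zero, map_zero]
  have hM : reindexHom (sumE n V W) (magG n (V ⊕ W)) =
      kronLeft _ _ (magG n V) + kronRight _ _ (magG n W) := by
    unfold magG
    rw [Fintype.sum_sum_type, map_add]
    simp only [map_sum, reindexHom_siteOp_inl, reindexHom_siteOp_inr]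
  have hG : reindexHom (sumE n V W) (-(β : ℂ) • (hamG n adjS - (h : ℂ) • magG n (V ⊕ W))) =
      (-(β : ℂ) • (hamG n adj - (h : ℂ) • magG n V)) ⊗ₖ
        (1 : Matrix (W → Fin (n + 1)) (W → Fin (n + 1)) ℂ) +
      (1 : Matrix (V → Fin (n + 1)) (V → Fin (n + 1)) ℂ) ⊗ₖ
        (-(β : ℂ) • (hamG n adj' - (h : ℂ) • magG n W)) := by
    have e1 : reindexHom (sumE n V W) (-(β : ℂ) • (hamG n adjS - (h : ℂ) • magG n (V ⊕ W)))
        = -(β : ℂ) • (reindexHom (sumE n V W) (hamG n adjS) -
          (h : ℂ) • reindexHom (sumE n V W) (magG n (V ⊕ W))) := rfl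
    have e2 : (-(β : ℂ) • (hamG n adj - (h : ℂ) • magG n V)) ⊗ₖ
        (1 : Matrix (W → Fin (n + 1)) (W → Fin (n + 1)) ℂ) =
        -(β : ℂ) • (kronLeft (V → Fin (n + 1)) (W → Fin (n + 1)) (hamG n adj) -
          (h : ℂ) • kronLeft (V → Fin (n + 1)) (W → Fin (n + 1)) (magG n V)) := by
      rw [Matrix.smul_kronecker]
      congr 1
      change kronLeft (V → Fin (n + 1)) (W → Fin (n + 1)) (hamG n adj - (h : ℂ) • magG n V) = _
      rw [map_sub]
      congr 1
      exact Matrix.smul_kronecker _ _ _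
    have e3 : (1 : Matrix (V → Fin (n + 1)) (V → Fin (n + 1)) ℂ) ⊗ₖ
        (-(β : ℂ) • (hamG n adj' - (h : ℂ) • magG n W)) =
        -(β : ℂ) • (kronRight (V → Fin (n + 1)) (W → Fin (n + 1)) (hamG n adj') -
          (h : ℂ) • kronRight (V → Fin (n + 1)) (W → Fin (n + 1)) (magG n W)) := by
      rw [Matrix.kronecker_smul]
      congr 1
      change kronRight (V → Fin (n + 1)) (W → Fin (n + 1)) (hamG n adj' - (h : ℂ) • magG n W) = _
      rw [map_sub]
      congr 1
      exact Matrix.kronecker_smul _ _ _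
    rw [e1, hH, hM, e2, e3, smul_add (h : ℂ), add_sub_add_comm, smul_add]
  have hT : trace (NormedSpace.exp (-(β : ℂ) • (hamG n adjS - (h : ℂ) • magG n (V ⊕ W)))) =
      trace (NormedSpace.exp (-(β : ℂ) • (hamG n adj - (h : ℂ) • magG n V))) *
      trace (NormedSpace.exp (-(β : ℂ) • (hamG n adj' - (h : ℂ) • magG n W))) := by
    rw [← trace_exp_kron_sum, ← hG]
    exact (trace_exp_reindex (sumE n V W) _).symm
  have hA := gibbs_hermitian (V := V) n adj hs β h
  have hB := gibbs_hermitian (V := W) n adj' hs' β h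
  have p1 := trace_exp_pos hA
  have p2 := trace_exp_pos hB
  unfold logZ partG
  rw [hT, trace_exp hA, trace_exp hB, ← Complex.ofReal_mul, Complex.ofReal_re, Complex.ofReal_re,
    Complex.ofReal_re, Real.log_mul]
  · rw [trace_exp hA, Complex.ofReal_re] at p1
    exact p1.ne'
  · rw [trace_exp hB, Complex.ofReal_re] at p2
    exact p2.ne'

end Vale.Agent.P361.H18
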