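import Mathlib
import Vale.Agent.P361.H18_Sum
import Vale.Agent.P361.H18_NearAdd

open Matrix Filter Topology

namespace Vale.Agent.P361.H18

abbrev G3 (a b c : ℕ) : Type := Fin a × Fin b × Fin c

def gAdj {a b c a' b' c' : ℕ} (x : G3 a b c) (y : G3 a' b' c') : Prop :=
  |((x.1 : ℕ) : ℤ) - ((y.1 : ℕ) : ℤ)| + |((x.2.1 : ℕ) : ℤ) - ((y.2.1 : ℕ) : ℤ)| +
    |((x.2.2 : ℕ) : ℤ) - ((y.2.2 : ℕ) : ℤ)| = 1

instance {a b c : ℕ} : DecidableRel (gAdj : G3 a b c → G3 a b c → Prop) := fun x y => by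
  unfold gAdj
  infer_instance

theorem gAdj_symm {a b c : ℕ} (x y : G3 a b c) (h : gAdj x y) : gAdj y x := by
  unfold gAdj at *
  rw [abs_sub_comm ((y.1 : ℕ) : ℤ), abs_sub_comm ((y.2.1 : ℕ) : ℤ), abs_sub_comm ((y.2.2 : ℕ) : ℤ)]
  exact h

noncomputable def gF (n : ℕ) (β h : ℝ) (a b c : ℕ) : ℝ :=
  logZ n (gAdj : G3 a b c → G3 a b c → Prop) β h

theorem gF_swap12 (n : ℕ) (β h : ℝ) (a b c : ℕ) : gF n β h a b c = gF n β h b a c := by
  unfold gF logZ
  congr 1
  let e : G3 b a c ≃ G3 a b c :=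
    { toFun := fun x => (x.2.1, x.1, x.2.2)
      invFun := fun x => (x.2.1, x.1, x.2.2)
      left_inv := fun x => rfl
      right_inv := fun x => rfl }
  apply partG_equiv n e
  intro x y
  simp only [gAdj, e, Equiv.coe_fn_mk]
  constructor <;> intro h <;> linarith

theorem gF_swap13 (n : ℕ) (β h : ℝ) (a b c : ℕ) : gF n β h a b c = gF n β h c b a := by
  unfold gF logZ
  congr 1
  let e : G3 c b a ≃ G3 a b c :=
    { toFun := fun x => (x.2.2, x.2.1, x.1)
      invFun := fun x => (x.2.2, x.2.1, x.1)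
      left_inv := fun x => rfl
      right_inv := fun x => rfl }
  apply partG_equiv n e
  intro x y
  simp only [gAdj, e, Equiv.coe_fn_mk]
  constructor <;> intro h <;> linarith

def splitE (a a' b c : ℕ) : (G3 a b c) ⊕ (G3 a' b c) ≃ G3 (a + a') b c :=
  (Equiv.sumProdDistrib (Fin a) (Fin a') (Fin b × Fin c)).symm.trans
    (Equiv.prodCongr finSumFinEquiv (Equiv.refl _))

theorem splitE_inl (a a' b c : ℕ) (x : G3 a b c) :
    splitE a a' b c (Sum.inl x) = (Fin.castAdd a' x.1, x.2) := rfl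

theorem splitE_inr (a a' b c : ℕ) (x : G3 a' b c) :
    splitE a a' b c (Sum.inr x) = (Fin.natAdd a x.1, x.2) := rfl

def sAdj {a a' b c : ℕ} (x y : (G3 a b c) ⊕ (G3 a' b c)) : Prop :=
  gAdj (splitE a a' b c x) (splitE a a' b c y)

instance {a a' b c : ℕ} : DecidableRel (sAdj : (G3 a b c) ⊕ (G3 a' b c) → _ → Prop) :=
  fun x y => by
    unfold sAdj
    infer_instance

def dAdj {a a' b c : ℕ} : (G3 a b c) ⊕ (G3 a' b c) → (G3 a b c) ⊕ (G3 a' b c) → Prop
  | Sum.inl x, Sum.inl y => gAdj x y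
  | Sum.inr x, Sum.inr y => gAdj x y
  | Sum.inl _, Sum.inr _ => False
  | Sum.inr _, Sum.inl _ => False

instance {a a' b c : ℕ} : DecidableRel (dAdj : (G3 a b c) ⊕ (G3 a' b c) → _ → Prop) :=
  fun x y => by
    rcases x with x | x <;> rcases y with y | y <;> unfold dAdj <;> infer_instance

theorem sum_ind_le_one {α : Type*} [Fintype α] (P : α → Prop) [DecidablePred P]
    (h : ∀ x y, P x → P y → x = y) : ∑ x, (if P x then (1 : ℝ) else 0) ≤ 1 := by
  rw [Finset.sum_boole]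
  have : (Finset.univ.filter P).card ≤ 1 := by
    rw [Finset.card_le_one]
    intro x hx y hy
    exact h x y (Finset.mem_filter.mp hx).2 (Finset.mem_filter.mp hy).2
  exact_mod_cast this

theorem cross_count (a a' b c : ℕ) :
    ∑ x : G3 a b c, ∑ y : G3 a' b c,
      (if sAdj (Sum.inl x : (G3 a b c) ⊕ (G3 a' b c)) (Sum.inr y) then (1 : ℝ) else 0) ≤ b * c := by
  have h1 : ∀ (x : G3 a b c) (y : G3 a' b c),
      (if sAdj (Sum.inl x : (G3 a b c) ⊕ (G3 a' b c)) (Sum.inr y) then (1 : ℝ) else 0) ≤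
      (if (x.1 : ℕ) + 1 = a then (1 : ℝ) else 0) * ((if (y.1 : ℕ) = 0 then (1 : ℝ) else 0) *
        (if y.2 = x.2 then (1 : ℝ) else 0)) := by
    intro x y
    by_cases h : sAdj (Sum.inl x : (G3 a b c) ⊕ (G3 a' b c)) (Sum.inr y)
    · rw [if_pos h]
      unfold sAdj at h
      rw [splitE_inl, splitE_inr] at h
      unfold gAdj at h
      simp only [Fin.val_castAdd, Fin.val_natAdd] at h
      have hx := x.1.isLt
      push_cast at h
      have a1 := neg_abs_le (((x.1 : ℕ) : ℤ) - ((a : ℤ) + ((y.1 : ℕ) : ℤ)))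
      have a2 := abs_nonneg (((x.2.1 : ℕ) : ℤ) - ((y.2.1 : ℕ) : ℤ))
      have a3 := abs_nonneg (((x.2.2 : ℕ) : ℤ) - ((y.2.2 : ℕ) : ℤ))
      have b1 : (x.1 : ℕ) + 1 = a := by omega
      have b2 : (y.1 : ℕ) = 0 := by omega
      have b3 : |((x.2.1 : ℕ) : ℤ) - ((y.2.1 : ℕ) : ℤ)| = 0 := by omega
      have b4 : |((x.2.2 : ℕ) : ℤ) - ((y.2.2 : ℕ) : ℤ)| = 0 := by omega
      rw [abs_eq_zero] at b3 b4
      have b5 : y.2 = x.2 := by
        apply Prod.ext
        · apply Fin.ext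
          omega
        · apply Fin.ext
          omega
      rw [if_pos b1, if_pos b2, if_pos b5]
      norm_num
    · rw [if_neg h]
      positivity
  calc ∑ x : G3 a b c, ∑ y : G3 a' b c,
      (if sAdj (Sum.inl x : (G3 a b c) ⊕ (G3 a' b c)) (Sum.inr y) then (1 : ℝ) else 0)
      ≤ ∑ x : G3 a b c, ∑ y : G3 a' b c,
        (if (x.1 : ℕ) + 1 = a then (1 : ℝ) else 0) * ((if (y.1 : ℕ) = 0 then (1 : ℝ) else 0) *
        (if y.2 = x.2 then (1 : ℝ) else 0)) :=
        Finset.sum_le_sum fun x _ => Finset.sum_le_sum fun y _ => h1 x y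
    _ ≤ ∑ x : G3 a b c, (if (x.1 : ℕ) + 1 = a then (1 : ℝ) else 0) := by
        apply Finset.sum_le_sum
        intro x _
        rw [← Finset.mul_sum]
        have : ∑ y : G3 a' b c, ((if (y.1 : ℕ) = 0 then (1 : ℝ) else 0) *
            (if y.2 = x.2 then (1 : ℝ) else 0)) ≤ 1 := by
          have h2 : ∀ y : G3 a' b c, ((if (y.1 : ℕ) = 0 then (1 : ℝ) else 0) *
            (if y.2 = x.2 then (1 : ℝ) else 0)) =
            if ((y.1 : ℕ) = 0 ∧ y.2 = x.2) then (1 : ℝ) else 0 := by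
            intro y
            by_cases h3 : (y.1 : ℕ) = 0 <;> by_cases h4 : y.2 = x.2 <;> simp [h3, h4]
          simp_rw [h2]
          apply sum_ind_le_one
          intro u v hu hv
          apply Prod.ext
          · apply Fin.ext
            rw [hu.1, hv.1]
          · rw [hu.2, hv.2]
        calc (if (x.1 : ℕ) + 1 = a then (1 : ℝ) else 0) *
            ∑ y : G3 a' b c, ((if (y.1 : ℕ) = 0 then (1 : ℝ) else 0) *
            (if y.2 = x.2 then (1 : ℝ) else 0))
            ≤ (if (x.1 : ℕ) + 1 = a then (1 : ℝ) else 0) * 1 := by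
              apply mul_le_mul_of_nonneg_left this
              positivity
          _ = _ := mul_one _
    _ ≤ b * c := by
        rw [Fintype.sum_prod_type]
        rw [Finset.sum_comm]
        calc ∑ _r : Fin b × Fin c, ∑ i : Fin a, (if (i : ℕ) + 1 = a then (1 : ℝ) else 0)
            ≤ ∑ _r : Fin b × Fin c, (1 : ℝ) := by
              apply Finset.sum_le_sum
              intro r _
              apply sum_ind_le_one
              intro i j hi hj
              apply Fin.ext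
              omega
          _ = b * c := by
              simp

theorem diffCount_le (a a' b c : ℕ) :
    diffCount (sAdj : (G3 a b c) ⊕ (G3 a' b c) → _ → Prop) dAdj ≤ 2 * (b * c) := by
  unfold diffCount
  rw [Fintype.sum_sum_type]
  simp only [Fintype.sum_sum_type]
  have hll : ∀ x y : G3 a b c, (sAdj (Sum.inl x : (G3 a b c) ⊕ (G3 a' b c)) (Sum.inl y) ↔
      dAdj (Sum.inl x : (G3 a b c) ⊕ (G3 a' b c)) (Sum.inl y)) := by
    intro x y
    rfl
  have hrr : ∀ x y : G3 a' b c, (sAdj (Sum.inr x : (G3 a b c) ⊕ (G3 a' b c)) (Sum.inr y) ↔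
      dAdj (Sum.inr x : (G3 a b c) ⊕ (G3 a' b c)) (Sum.inr y)) := by
    intro x y
    unfold sAdj dAdj
    rw [splitE_inr, splitE_inr]
    unfold gAdj
    simp only [Fin.val_natAdd]
    push_cast
    rw [add_sub_add_left_eq_sub]
  have hlr : ∀ (x : G3 a b c) (y : G3 a' b c),
      (if (sAdj (Sum.inl x : (G3 a b c) ⊕ (G3 a' b c)) (Sum.inr y) ↔
        dAdj (Sum.inl x : (G3 a b c) ⊕ (G3 a' b c)) (Sum.inr y)) then (0 : ℝ) else 1) =
      (if sAdj (Sum.inl x : (G3 a b c) ⊕ (G3 a' b c)) (Sum.inr y) then (1 : ℝ) else 0) := by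
    intro x y
    by_cases h : sAdj (Sum.inl x : (G3 a b c) ⊕ (G3 a' b c)) (Sum.inr y)
    · rw [if_pos h, if_neg]
      intro h'
      exact h'.mp h
    · rw [if_neg h, if_pos]
      exact ⟨fun h' => absurd h' h, fun h' => h'.elim⟩
  have hrl : ∀ (x : G3 a' b c) (y : G3 a b c),
      (if (sAdj (Sum.inr x : (G3 a b c) ⊕ (G3 a' b c)) (Sum.inl y) ↔
        dAdj (Sum.inr x : (G3 a b c) ⊕ (G3 a' b c)) (Sum.inl y)) then (0 : ℝ) else 1) =
      (if sAdj (Sum.inl y : (G3 a b c) ⊕ (G3 a' b c)) (Sum.inr x) then (1 : ℝ) else 0) := by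
    intro x y
    by_cases h : sAdj (Sum.inl y : (G3 a b c) ⊕ (G3 a' b c)) (Sum.inr x)
    · rw [if_pos h, if_neg]
      intro h'
      exact h'.mp (gAdj_symm _ _ h)
    · rw [if_neg h, if_pos]
      exact ⟨fun h' => absurd (gAdj_symm _ _ h') h, fun h' => h'.elim⟩
  simp only [hll, hrr, hlr, hrl, if_true, Finset.sum_const_zero, add_zero, zero_add, iff_self]
  have c1 := cross_count a a' b c
  have c2 : ∑ x : G3 a' b c, ∑ y : G3 a b c,
      (if sAdj (Sum.inl y : (G3 a b c) ⊕ (G3 a' b c)) (Sum.inr x) then (1 : ℝ) else 0) ≤ b * c := by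
    rw [Finset.sum_comm]
    exact c1
  linarith

theorem gF_near1 (n : ℕ) (β h : ℝ) (a a' b c : ℕ) :
    |gF n β h (a + a') b c - gF n β h a b c - gF n β h a' b c| ≤ (|β| * cSS n) * (b * c) := by
  have e1 : gF n β h (a + a') b c =
      logZ n (sAdj : (G3 a b c) ⊕ (G3 a' b c) → _ → Prop) β h := by
    unfold gF logZ
    congr 1
    apply partG_equiv n (splitE a a' b c)
    intro x y
    rfl
  have e2 : logZ n (dAdj : (G3 a b c) ⊕ (G3 a' b c) → _ → Prop) β h =
      gF n β h a b c + gF n β h a' b c := by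
    unfold gF
    apply logZ_sum
    · exact gAdj_symm
    · exact gAdj_symm
    · intro x y
      rfl
    · intro x y
      rfl
    · intro x y h
      exact h
    · intro x y h
      exact h
  have hs : ∀ x y : (G3 a b c) ⊕ (G3 a' b c), sAdj x y → sAdj y x :=
    fun x y h => gAdj_symm _ _ h
  have hd : ∀ x y : (G3 a b c) ⊕ (G3 a' b c), dAdj x y → dAdj y x := by
    rintro (x | x) (y | y) h
    · exact gAdj_symm _ _ h
    · exact h.elim
    · exact h.elim
    · exact gAdj_symm _ _ h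
  have key := abs_logZ_sub_le n (sAdj : (G3 a b c) ⊕ (G3 a' b c) → _ → Prop) dAdj hs hd β h
  rw [← e1, e2] at key
  have hc := diffCount_le a a' b c
  have hb : 0 ≤ |β| / 2 * cSS n := mul_nonneg (by positivity) (cSS_nonneg n)
  calc |gF n β h (a + a') b c - gF n β h a b c - gF n β h a' b c|
      = |gF n β h (a + a') b c - (gF n β h a b c + gF n β h a' b c)| := by
        congr 1
        ring
    _ ≤ |β| / 2 * cSS n * diffCount (sAdj : (G3 a b c) ⊕ (G3 a' b c) → _ → Prop) dAdj := key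
    _ ≤ |β| / 2 * cSS n * (2 * (b * c)) := by gcongr
    _ = (|β| * cSS n) * (b * c) := by ring

theorem gF_near2 (n : ℕ) (β h : ℝ) (a b b' c : ℕ) :
    |gF n β h a (b + b') c - gF n β h a b c - gF n β h a b' c| ≤ (|β| * cSS n) * (a * c) := by
  rw [gF_swap12 n β h a (b + b') c, gF_swap12 n β h a b c, gF_swap12 n β h a b' c]
  exact gF_near1 n β h b b' a c

theorem gF_near3 (n : ℕ) (β h : ℝ) (a b c c' : ℕ) :
    |gF n β h a b (c + c') - gF n β h a b c - gF n β h a b c'| ≤ (|β| * cSS n) * (a * b) := by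
  rw [gF_swap13 n β h a b (c + c'), gF_swap13 n β h a b c, gF_swap13 n β h a b c']
  have := gF_near1 n β h c c' b a
  rwa [mul_comm (b : ℝ) (a : ℝ)] at this

def iccE (N : ℕ) : Fin (2 * N + 1) ≃ ↥(Finset.Icc (-(N : ℤ)) (N : ℤ)) where
  toFun i := ⟨((i : ℕ) : ℤ) - N, by
    have := i.isLt
    rw [Finset.mem_Icc]
    omega⟩
  invFun z := ⟨((z : ℤ) + N).toNat, by
    have := Finset.mem_Icc.mp z.2
    omega⟩
  left_inv i := by
    apply Fin.ext
    simp
  right_inv z := by
    apply Subtype.ext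
    have := Finset.mem_Icc.mp z.2
    simp only
    omega

def siteE (N : ℕ) : G3 (2 * N + 1) (2 * N + 1) (2 * N + 1) ≃ Site N where
  toFun x := ![iccE N x.1, iccE N x.2.1, iccE N x.2.2]
  invFun s := ((iccE N).symm (s 0), (iccE N).symm (s 1), (iccE N).symm (s 2))
  left_inv x := by
    simp
  right_inv s := by
    funext j
    fin_cases j <;> simp

theorem partG_nn (n N : ℕ) (β h : ℝ) :
    Real.log (partG n (nn N) β h) = gF n β h (2 * N + 1) (2 * N + 1) (2 * N + 1) := by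
  unfold gF logZ
  congr 1
  apply partG_equiv n (siteE N)
  intro x y
  unfold nn gAdj
  rw [Fin.sum_univ_three]
  simp only [siteE, iccE, Equiv.coe_fn_mk, Matrix.cons_val_zero, Matrix.cons_val_one,
    Matrix.cons_val_two, Matrix.head_cons, Matrix.tail_cons]
  simp

theorem pressureN_tendsto (n : ℕ) (β h : ℝ) :
    ∃ p : ℝ, Tendsto (fun N : ℕ => pressureN n N β h) atTop (𝓝 p) := by
  obtain ⟨p, hp⟩ := exists_limit_3d (gF n β h) (|β| * cSS n) (gF_near1 n β h) (gF_near2 n β h)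
    (gF_near3 n β h)
  have ht := tendsto_of_3d (gF n β h) (|β| * cSS n) p hp
  refine ⟨1 / β * p, ?_⟩
  have h1 : Tendsto (fun N : ℕ => 2 * N + 1) atTop atTop :=
    tendsto_atTop_mono (fun N => by omega : ∀ N : ℕ, N ≤ 2 * N + 1) tendsto_id
  have h2 := (ht.comp h1).const_mul (1 / β)
  refine h2.congr ?_
  intro N
  unfold pressureN
  rw [partG_nn]
  simp only [Function.comp]
  push_cast
  rw [div_mul_div_comm, one_mul, div_mul_eq_mul_div, one_mul]

theorem pressure_tendsto (n : ℕ) (β h : ℝ) :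
    Tendsto (fun N : ℕ => pressureN n N β h) atTop (𝓝 (pressure n β h)) := by
  unfold pressure
  exact tendsto_nhds_limUnder (pressureN_tendsto n β h)

end Vale.Agent.P361.H18
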