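import Mathlib
import Vale.Agent.P361.H18_Grid

open Matrix Filter Topology
open scoped Matrix

namespace Vale.Agent.P361.H18

theorem exists_support {m : Type*} [Fintype m] [DecidableEq m] [Nonempty m]
    {A B : Matrix m m ℂ} (hA : A.IsHermitian) (hB : B.IsHermitian) :
    ∃ g : ℝ, ∀ s : ℝ, Real.log (trace (NormedSpace.exp A)).re + s * g ≤
      Real.log (trace (NormedSpace.exp (A + (s : ℂ) • B))).re := by
  set U : Matrix m m ℂ := (hA.eigenvectorUnitary : Matrix m m ℂ) with hU
  have hUU : star U * U = 1 := Unitary.coe_star_mul_self hA.eigenvectorUnitary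
  have hUU' : U * star U = 1 := Unitary.coe_mul_star_self hA.eigenvectorUnitary
  set v : m → m → ℂ := fun i => U *ᵥ (Pi.single i 1) with hv
  have hv1 : ∀ i, star (v i) ⬝ᵥ v i = 1 := by
    intro i
    rw [hv]
    simp only
    rw [Matrix.star_mulVec, ← Matrix.dotProduct_mulVec, Matrix.mulVec_mulVec,
      ← Matrix.star_eq_conjTranspose, hUU, Matrix.one_mulVec]
    simp [dotProduct, Pi.single_apply]
  have hvB : ∀ X : Matrix m m ℂ, ∀ i, star (v i) ⬝ᵥ (X *ᵥ v i) = (star U * X * U) i i := by
    intro X i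
    rw [hv]
    simp only
    rw [Matrix.star_mulVec, ← Matrix.dotProduct_mulVec, Matrix.mulVec_mulVec, Matrix.mulVec_mulVec,
      ← Matrix.star_eq_conjTranspose]
    simp [dotProduct, Pi.single_apply]
  have htr : ∀ X : Matrix m m ℂ, trace X = ∑ i, star (v i) ⬝ᵥ (X *ᵥ v i) := by
    intro X
    have : trace X = trace (star U * X * U) := by
      rw [Matrix.trace_mul_comm, ← Matrix.mul_assoc, hUU', Matrix.one_mul]
    rw [this]
    simp only [Matrix.trace, Matrix.diag]
    exact Finset.sum_congr rfl fun i _ => (hvB X i).symm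
  have hsA : star U * A * U = diagonal (fun i => ((hA.eigenvalues i : ℝ) : ℂ)) := by
    have := hA.spectral_theorem
    rw [Unitary.conjStarAlgAut_apply] at this
    conv_lhs => rw [this]
    rw [← hU, Matrix.mul_assoc, Matrix.mul_assoc, hUU, Matrix.mul_one, ← Matrix.mul_assoc, hUU,
      Matrix.one_mul]
    rfl
  have hq : ∀ i, star (v i) ⬝ᵥ (A *ᵥ v i) = ((hA.eigenvalues i : ℝ) : ℂ) := by
    intro i
    rw [hvB, hsA]
    simp
  set lam := hA.eigenvalues with hlam
  set Z : ℝ := ∑ i, Real.exp (lam i) with hZ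
  have hZpos : 0 < Z := Finset.sum_pos (fun i _ => Real.exp_pos _) Finset.univ_nonempty
  set b : m → ℝ := fun i => (star (v i) ⬝ᵥ (B *ᵥ v i)).re with hb
  refine ⟨∑ i, Real.exp (lam i) / Z * b i, ?_⟩
  intro s
  have hH : (A + (s : ℂ) • B).IsHermitian := by
    unfold Matrix.IsHermitian at *
    rw [Matrix.conjTranspose_add, Matrix.conjTranspose_smul, hA, hB]
    simp
  have h1 : ∑ i, Real.exp (lam i + s * b i) ≤ (trace (NormedSpace.exp (A + (s : ℂ) • B))).re := by
    rw [htr, Complex.re_sum]
    apply Finset.sum_le_sum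
    intro i _
    refine le_trans (le_of_eq ?_) (exp_quad_le hH (v i) (hv1 i))
    congr 1
    rw [Matrix.add_mulVec, dotProduct_add, hq, Matrix.smul_mulVec, dotProduct_smul, smul_eq_mul,
      Complex.add_re, Complex.ofReal_re, Complex.re_ofReal_mul]
  have h2 : Z * Real.exp (∑ i, Real.exp (lam i) / Z * (s * b i)) ≤
      ∑ i, Real.exp (lam i + s * b i) := by
    have hj := convexOn_exp.map_sum_le (t := Finset.univ) (w := fun i => Real.exp (lam i) / Z)
      (p := fun i => s * b i) (fun i _ => by positivity)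
      (by rw [← Finset.sum_div, div_self hZpos.ne']) (fun i _ => Set.mem_univ _)
    simp only [smul_eq_mul] at hj
    calc Z * Real.exp (∑ i, Real.exp (lam i) / Z * (s * b i))
        ≤ Z * ∑ i, Real.exp (lam i) / Z * Real.exp (s * b i) := by gcongr
      _ = ∑ i, Real.exp (lam i + s * b i) := by
        rw [Finset.mul_sum]
        apply Finset.sum_congr rfl
        intro i _
        rw [Real.exp_add]
        field_simp
  have h3 := h2.trans h1
  have h4 := Real.log_le_log (by positivity) h3
  rw [Real.log_mul hZpos.ne' (Real.exp_pos _).ne', Real.log_exp] at h4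
  have h5 : (trace (NormedSpace.exp A)).re = Z := by
    rw [trace_exp hA, Complex.ofReal_re]
  rw [h5]
  have h6 : s * ∑ i, Real.exp (lam i) / Z * b i = ∑ i, Real.exp (lam i) / Z * (s * b i) := by
    rw [Finset.mul_sum]
    apply Finset.sum_congr rfl
    intro i _
    ring
  rw [h6]
  exact h4

theorem convexOn_of_support (f : ℝ → ℝ) (hf : ∀ x : ℝ, ∃ g : ℝ, ∀ s : ℝ, f x + s * g ≤ f (x + s)) :
    ConvexOn ℝ Set.univ f := by
  refine ⟨convex_univ, ?_⟩
  intro x _ y _ a b ha hb hab
  simp only [smul_eq_mul]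
  obtain ⟨g, hg⟩ := hf (a * x + b * y)
  have h1 := hg (x - (a * x + b * y))
  have h2 := hg (y - (a * x + b * y))
  rw [add_sub_cancel] at h1 h2
  have h3 : a * (f (a * x + b * y) + (x - (a * x + b * y)) * g) +
      b * (f (a * x + b * y) + (y - (a * x + b * y)) * g) =
      (a + b) * f (a * x + b * y) + ((a * x + b * y) - (a + b) * (a * x + b * y)) * g := by ring
  rw [hab, one_mul, one_mul, sub_self, zero_mul, add_zero] at h3
  rw [← h3]
  gcongr

variable {V : Type*} [Fintype V] [DecidableEq V]

theorem logZ_convex (n : ℕ) (adj : V → V → Prop) [DecidableRel adj]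
    (hs : ∀ x y, adj x y → adj y x) (β : ℝ) :
    ConvexOn ℝ Set.univ (fun h => logZ n adj β h) := by
  apply convexOn_of_support
  intro h
  have hB : ((β : ℂ) • magG n V).IsHermitian := by
    have := magG_hermitian (V := V) n
    unfold Matrix.IsHermitian at *
    rw [Matrix.conjTranspose_smul, this]
    simp
  obtain ⟨g, hg⟩ := exists_support (gibbs_hermitian n adj hs β h) hB
  refine ⟨g, ?_⟩
  intro s
  have h1 := hg s
  have h2 : -(β : ℂ) • (hamG n adj - (h : ℂ) • magG n V) + (s : ℂ) • (β : ℂ) • magG n V =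
      -(β : ℂ) • (hamG n adj - ((h + s : ℝ) : ℂ) • magG n V) := by
    push_cast
    rw [smul_sub, smul_sub, smul_smul, smul_smul, smul_smul, sub_add, ← sub_smul]
    congr 2
    ring
  rw [h2] at h1
  exact h1

theorem nn_symm (N : ℕ) (x y : Site N) (h : nn N x y) : nn N y x := by
  unfold nn at *
  rw [← h]
  apply Finset.sum_congr rfl
  intro j _
  exact abs_sub_comm _ _

theorem pressureN_convex (n N : ℕ) (β : ℝ) (hβ : 0 < β) :
    ConvexOn ℝ Set.univ (fun h => pressureN n N β h) := by
  have h1 := (logZ_convex n (nn N) (nn_symm N) β).smul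
    (by positivity : (0 : ℝ) ≤ 1 / (β * (2 * N + 1) ^ 3))
  exact h1

theorem pressure_convex (n : ℕ) (β : ℝ) (hβ : 0 < β) :
    ConvexOn ℝ Set.univ (fun h => pressure n β h) := by
  refine ⟨convex_univ, ?_⟩
  intro x _ y _ a b ha hb hab
  simp only [smul_eq_mul]
  have h1 : Tendsto (fun N => pressureN n N β (a * x + b * y)) atTop
      (𝓝 (pressure n β (a * x + b * y))) := pressure_tendsto n β _
  have h2 : Tendsto (fun N => a * pressureN n N β x + b * pressureN n N β y) atTop
      (𝓝 (a * pressure n β x + b * pressure n β y)) :=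
    ((pressure_tendsto n β x).const_mul a).add ((pressure_tendsto n β y).const_mul b)
  refine le_of_tendsto_of_tendsto' h1 h2 ?_
  intro N
  exact (pressureN_convex n N β hβ).2 (Set.mem_univ x) (Set.mem_univ y) ha hb hab

theorem spontMag_le_slope (n : ℕ) (β : ℝ) (hβ : 0 < β) (h : ℝ) (hh : 0 < h) :
    spontMag n β ≤ (pressure n β h - pressure n β 0) / h := by
  have h1 := (pressure_convex n β hβ).rightDeriv_le_slope_of_mem_interior (x := 0) (y := h)
    (by simp) (Set.mem_univ _) hh
  unfold spontMag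
  refine h1.trans (le_of_eq ?_)
  rw [slope_def_field, sub_zero]

end Vale.Agent.P361.H18
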