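import Mathlib
import Vale.Agent.P361.H18_Riemann

open Filter Topology Real

namespace Vale.Agent.P361.H18

theorem sum3_ge (N M : ℕ) (b h : ℝ) (hb : 0 ≤ b) (hh : 0 < h) :
    ∑ n ∈ Finset.range M, Real.exp (-((n + 1 : ℕ) * h)) *
        (max 0 (((2 * N + 1 : ℕ) : ℝ) * J ((n + 1 : ℕ) * b) - 1)) ^ 3 ≤
      ∑ κ : Fin 3 → Fin (2 * N + 1),
        1 / (Real.exp (b * (∑ j, (1 - Real.cos (2 * π * (κ j : ℕ) / ((2 * N + 1 : ℕ) : ℝ)))) + h)
          - 1) := by
  have hx : ∀ κ : Fin 3 → Fin (2 * N + 1),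
      0 < b * (∑ j, (1 - Real.cos (2 * π * (κ j : ℕ) / ((2 * N + 1 : ℕ) : ℝ)))) + h := by
    intro κ
    have : 0 ≤ ∑ j, (1 - Real.cos (2 * π * (κ j : ℕ) / ((2 * N + 1 : ℕ) : ℝ))) := by
      apply Finset.sum_nonneg
      intro j _
      linarith [Real.cos_le_one (2 * π * (κ j : ℕ) / ((2 * N + 1 : ℕ) : ℝ))]
    have := mul_nonneg hb this
    linarith
  calc ∑ n ∈ Finset.range M, Real.exp (-((n + 1 : ℕ) * h)) *
        (max 0 (((2 * N + 1 : ℕ) : ℝ) * J ((n + 1 : ℕ) * b) - 1)) ^ 3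
      ≤ ∑ n ∈ Finset.range M, Real.exp (-((n + 1 : ℕ) * h)) *
        (∑ k ∈ Finset.range (2 * N + 1),
        Real.exp (-(((n + 1 : ℕ) * b) * (1 - Real.cos (2 * π * k / ((2 * N + 1 : ℕ) : ℝ)))))) ^ 3 := by
        apply Finset.sum_le_sum
        intro n _
        gcongr
        apply max_le
        · apply Finset.sum_nonneg
          intro k _
          exact (Real.exp_pos _).le
        · exact sum_range_ge N _ (by positivity)
    _ = ∑ n ∈ Finset.range M, ∑ κ : Fin 3 → Fin (2 * N + 1), Real.exp (-((n + 1 : ℕ) *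
        (b * (∑ j, (1 - Real.cos (2 * π * (κ j : ℕ) / ((2 * N + 1 : ℕ) : ℝ)))) + h))) := by
        apply Finset.sum_congr rfl
        intro n _
        rw [Finset.sum_range, Fintype.sum_pow, Finset.mul_sum]
        apply Finset.sum_congr rfl
        intro κ _
        rw [← Real.exp_sum, ← Real.exp_add]
        congr 1
        rw [Finset.sum_neg_distrib, ← Finset.mul_sum]
        ring
    _ = ∑ κ : Fin 3 → Fin (2 * N + 1), ∑ n ∈ Finset.range M, Real.exp (-((n + 1 : ℕ) *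
        (b * (∑ j, (1 - Real.cos (2 * π * (κ j : ℕ) / ((2 * N + 1 : ℕ) : ℝ)))) + h))) :=
        Finset.sum_comm
    _ ≤ _ := by
        apply Finset.sum_le_sum
        intro κ _
        exact geom_bound _ (hx κ) M

theorem finite_rhs_tendsto (M : ℕ) (b h : ℝ) :
    Tendsto (fun N : ℕ => ∑ n ∈ Finset.range M, Real.exp (-((n + 1 : ℕ) * h)) *
        (max 0 (J ((n + 1 : ℕ) * b) - 1 / ((2 * N + 1 : ℕ) : ℝ))) ^ 3) atTop
      (𝓝 (∑ n ∈ Finset.range M, Real.exp (-((n + 1 : ℕ) * h)) * (J ((n + 1 : ℕ) * b)) ^ 3)) := by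
  apply tendsto_finsetSum
  intro n _
  apply Tendsto.const_mul
  have h0 : Tendsto (fun N : ℕ => 1 / ((2 * N + 1 : ℕ) : ℝ)) atTop (𝓝 0) := by
    have h1 : Tendsto (fun N : ℕ => 2 * N + 1) atTop atTop :=
      tendsto_atTop_mono (fun N => by omega : ∀ N : ℕ, N ≤ 2 * N + 1) tendsto_id
    exact tendsto_one_div_atTop_nhds_zero_nat.comp h1
  have h2 : Tendsto (fun N : ℕ => J ((n + 1 : ℕ) * b) - 1 / ((2 * N + 1 : ℕ) : ℝ)) atTop
      (𝓝 (J ((n + 1 : ℕ) * b) - 0)) := tendsto_const_nhds.sub h0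
  have h3 := (tendsto_const_nhds (x := (0 : ℝ))).max h2
  rw [sub_zero, max_eq_right (J_nonneg _)] at h3
  exact h3.pow 3

theorem abstract_bound (S β : ℝ) (hS : 0 < S) (hβ : 0 < β)
    (pN : ℕ → ℝ → ℝ) (p : ℝ → ℝ) (mS : ℝ)
    (hlim : ∀ h : ℝ, 0 ≤ h → Tendsto (fun N => pN N h) atTop (𝓝 (p h)))
    (hmS : ∀ h : ℝ, 0 < h → mS ≤ (p h - p 0) / h)
    (hle : ∀ N : ℕ, ∀ h : ℝ, 0 < h → (pN N h - pN N 0) / h ≤ S)
    (hineq : ∀ N : ℕ, ∀ h : ℝ, 0 < h → ∀ a : ℝ, a = (pN N h - pN N 0) / h → 0 < a →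
      a / S * ((((2 * N + 1 : ℕ) : ℝ) ^ 3)⁻¹ * ∑ κ : Fin 3 → Fin (2 * N + 1),
        1 / (Real.exp (β * (h + (2 * S - a) / a * (2 * S * ∑ j, (1 - Real.cos (2 * π * (κ j : ℕ) /
          ((2 * N + 1 : ℕ) : ℝ)))))) - 1)) ≤ S - a)
    (m' : ℝ) (hm' : 0 < m') (hm'S : m' < mS) (M : ℕ) :
    m' / S * ∑ n ∈ Finset.range M,
      (J ((n + 1 : ℕ) * (β * ((2 * S - m') / m') * (2 * S)))) ^ 3 ≤ S - mS := by
  have key : ∀ h : ℝ, 0 < h → ∀ ε : ℝ, 0 < ε →
      m' / S * ∑ n ∈ Finset.range M, Real.exp (-((n + 1 : ℕ) * (β * h))) *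
        (J ((n + 1 : ℕ) * (β * ((2 * S - m') / m') * (2 * S)))) ^ 3 ≤ S - mS + ε := by
    intro h hh ε hε
    have hl : Tendsto (fun N => (pN N h - pN N 0) / h) atTop (𝓝 ((p h - p 0) / h)) :=
      ((hlim h hh.le).sub (hlim 0 le_rfl)).div_const h
    have hge := hmS h hh
    have ev1 : ∀ᶠ N in atTop, m' < (pN N h - pN N 0) / h :=
      hl.eventually_const_lt (by linarith)
    have ev2 : ∀ᶠ N in atTop, mS - ε < (pN N h - pN N 0) / h :=
      hl.eventually_const_lt (by linarith)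
    have ht := (finite_rhs_tendsto M (β * ((2 * S - m') / m') * (2 * S)) (β * h)).const_mul (m' / S)
    refine le_of_tendsto ht ?_
    filter_upwards [ev1, ev2] with N h1 h2
    obtain ⟨a, ha⟩ : ∃ a, a = (pN N h - pN N 0) / h := ⟨_, rfl⟩
    have haS : a ≤ S := ha ▸ hle N h hh
    rw [← ha] at h1 h2
    have ha0 : 0 < a := hm'.trans h1
    have hL : (0 : ℝ) < ((2 * N + 1 : ℕ) : ℝ) := by positivity
    have hI := hineq N h hh a ha ha0
    have hm2 : m' < S := lt_of_lt_of_le h1 haS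
    have hr0 : 0 < (2 * S - m') / m' := div_pos (by linarith) hm'
    have hr1 : 0 < (2 * S - a) / a := div_pos (by linarith) ha0
    have hr : (2 * S - a) / a ≤ (2 * S - m') / m' := by
      rw [div_le_div_iff₀ ha0 hm']
      nlinarith
    have hs3 := sum3_ge N M (β * ((2 * S - m') / m') * (2 * S)) (β * h) (by positivity)
      (by positivity)
    have hE : ∀ κ : Fin 3 → Fin (2 * N + 1),
        0 ≤ ∑ j, (1 - Real.cos (2 * π * (κ j : ℕ) / ((2 * N + 1 : ℕ) : ℝ))) := by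
      intro κ
      apply Finset.sum_nonneg
      intro j _
      linarith [Real.cos_le_one (2 * π * (κ j : ℕ) / ((2 * N + 1 : ℕ) : ℝ))]
    have hcmp : ∑ κ : Fin 3 → Fin (2 * N + 1),
        1 / (Real.exp (β * ((2 * S - m') / m') * (2 * S) * (∑ j, (1 - Real.cos (2 * π * (κ j : ℕ) /
          ((2 * N + 1 : ℕ) : ℝ)))) + β * h) - 1) ≤
        ∑ κ : Fin 3 → Fin (2 * N + 1),
        1 / (Real.exp (β * (h + (2 * S - a) / a * (2 * S * ∑ j, (1 - Real.cos (2 * π * (κ j : ℕ) /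
          ((2 * N + 1 : ℕ) : ℝ)))))) - 1) := by
      apply Finset.sum_le_sum
      intro κ _
      have hE' := hE κ
      set E := ∑ j, (1 - Real.cos (2 * π * (κ j : ℕ) / ((2 * N + 1 : ℕ) : ℝ))) with hEdef
      have hpos : 0 < β * (h + (2 * S - a) / a * (2 * S * E)) := by positivity
      have hle : β * (h + (2 * S - a) / a * (2 * S * E)) ≤
          β * ((2 * S - m') / m') * (2 * S) * E + β * h := by
        have e1 : β * (h + (2 * S - a) / a * (2 * S * E)) =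
            β * ((2 * S - a) / a) * (2 * S) * E + β * h := by
          ring
        rw [e1]
        gcongr
      apply one_div_le_one_div_of_le
      · have := Real.add_one_lt_exp hpos.ne'
        linarith
      · have := Real.exp_le_exp.mpr hle
        linarith
    have hsum0 : 0 ≤ ∑ κ : Fin 3 → Fin (2 * N + 1),
        1 / (Real.exp (β * (h + (2 * S - a) / a * (2 * S * ∑ j, (1 - Real.cos (2 * π * (κ j : ℕ) /
          ((2 * N + 1 : ℕ) : ℝ)))))) - 1) := by
      apply Finset.sum_nonneg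
      intro κ _
      have hE' := hE κ
      have hpos : 0 < β * (h + (2 * S - a) / a * (2 * S * ∑ j, (1 - Real.cos (2 * π * (κ j : ℕ) /
          ((2 * N + 1 : ℕ) : ℝ))))) := by positivity
      have := Real.add_one_lt_exp hpos.ne'
      apply div_nonneg zero_le_one
      linarith
    calc m' / S * ∑ n ∈ Finset.range M, Real.exp (-((n + 1 : ℕ) * (β * h))) *
        (max 0 (J ((n + 1 : ℕ) * (β * ((2 * S - m') / m') * (2 * S))) -
          1 / ((2 * N + 1 : ℕ) : ℝ))) ^ 3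
        = m' / S * ((((2 * N + 1 : ℕ) : ℝ) ^ 3)⁻¹ * ∑ n ∈ Finset.range M,
          Real.exp (-((n + 1 : ℕ) * (β * h))) *
        (max 0 (((2 * N + 1 : ℕ) : ℝ) *
          J ((n + 1 : ℕ) * (β * ((2 * S - m') / m') * (2 * S))) - 1)) ^ 3) := by
          congr 1
          rw [Finset.mul_sum]
          apply Finset.sum_congr rfl
          intro n _
          have e2 : max 0 (((2 * N + 1 : ℕ) : ℝ) *
              J ((n + 1 : ℕ) * (β * ((2 * S - m') / m') * (2 * S))) - 1)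
              = ((2 * N + 1 : ℕ) : ℝ) *
                max 0 (J ((n + 1 : ℕ) * (β * ((2 * S - m') / m') * (2 * S))) -
                  1 / ((2 * N + 1 : ℕ) : ℝ)) := by
            rw [mul_max_of_nonneg _ _ hL.le, mul_zero]
            congr 1
            field_simp
          rw [e2, mul_pow]
          field_simp
      _ ≤ m' / S * ((((2 * N + 1 : ℕ) : ℝ) ^ 3)⁻¹ * ∑ κ : Fin 3 → Fin (2 * N + 1),
        1 / (Real.exp (β * (h + (2 * S - a) / a * (2 * S * ∑ j, (1 - Real.cos (2 * π * (κ j : ℕ) /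
          ((2 * N + 1 : ℕ) : ℝ)))))) - 1)) := by
          have := hs3.trans hcmp
          gcongr
      _ ≤ a / S * ((((2 * N + 1 : ℕ) : ℝ) ^ 3)⁻¹ * ∑ κ : Fin 3 → Fin (2 * N + 1),
        1 / (Real.exp (β * (h + (2 * S - a) / a * (2 * S * ∑ j, (1 - Real.cos (2 * π * (κ j : ℕ) /
          ((2 * N + 1 : ℕ) : ℝ)))))) - 1)) := by
          gcongr
      _ ≤ S - a := hI
      _ ≤ S - mS + ε := by linarith
  have key2 : ∀ h : ℝ, 0 < h →
      m' / S * ∑ n ∈ Finset.range M, Real.exp (-((n + 1 : ℕ) * (β * h))) *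
        (J ((n + 1 : ℕ) * (β * ((2 * S - m') / m') * (2 * S)))) ^ 3 ≤ S - mS := by
    intro h hh
    exact le_of_forall_pos_le_add (key h hh)
  have hcont : Continuous (fun h : ℝ => m' / S * ∑ n ∈ Finset.range M,
      Real.exp (-((n + 1 : ℕ) * (β * h))) *
        (J ((n + 1 : ℕ) * (β * ((2 * S - m') / m') * (2 * S)))) ^ 3) := by
    fun_prop
  have hT : Tendsto (fun h : ℝ => m' / S * ∑ n ∈ Finset.range M,
      Real.exp (-((n + 1 : ℕ) * (β * h))) *
        (J ((n + 1 : ℕ) * (β * ((2 * S - m') / m') * (2 * S)))) ^ 3)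
      (𝓝[>] 0) (𝓝 (m' / S * ∑ n ∈ Finset.range M,
      Real.exp (-((n + 1 : ℕ) * (β * 0))) *
        (J ((n + 1 : ℕ) * (β * ((2 * S - m') / m') * (2 * S)))) ^ 3)) :=
    (hcont.tendsto 0).mono_left nhdsWithin_le_nhds
  have hfin := le_of_tendsto hT (eventually_nhdsWithin_of_forall fun h hh => key2 h hh)
  simpa using hfin

end Vale.Agent.P361.H18
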