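import Mathlib
import Vale.Agent.P361.H18_Convex
import Vale.Agent.P361.H18_Limit
import Vale.Agent.P361.H18_Asymp

open Filter Topology Real

namespace Vale.Agent.P361.H18

theorem final_from_finite (n : ℕ) (hn : 0 < n)
    (hle : ∀ β : ℝ, 0 < β → ∀ N : ℕ, ∀ h : ℝ, 0 < h →
      (pressureN n N β h - pressureN n N β 0) / h ≤ (n : ℝ) / 2)
    (hineq : ∀ β : ℝ, 0 < β → ∀ N : ℕ, ∀ h : ℝ, 0 < h → ∀ a : ℝ,
      a = (pressureN n N β h - pressureN n N β 0) / h → 0 < a →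
      a / ((n : ℝ) / 2) * ((((2 * N + 1 : ℕ) : ℝ) ^ 3)⁻¹ * ∑ κ : Fin 3 → Fin (2 * N + 1),
        1 / (Real.exp (β * (h + (2 * ((n : ℝ) / 2) - a) / a * (2 * ((n : ℝ) / 2) *
          ∑ j, (1 - Real.cos (2 * π * (κ j : ℕ) / ((2 * N + 1 : ℕ) : ℝ)))))) - 1))
        ≤ (n : ℝ) / 2 - a)
    (c : ℝ) (hc : c < (riemannZeta (3 / 2)).re /
      (8 * π ^ (3 / 2 : ℝ) * ((n : ℝ) / 2) ^ (3 / 2 : ℝ))) :
    ∀ᶠ β in atTop, c < β ^ (3 / 2 : ℝ) * ((n : ℝ) / 2 - spontMag n β) := by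
  have hS : (0 : ℝ) < (n : ℝ) / 2 := by positivity
  refine final_asymptotics ((n : ℝ) / 2) hS (fun β => spontMag n β) ?_ c hc
  intro β hβ m' hm' hm'S M
  exact abstract_bound ((n : ℝ) / 2) β hS hβ (fun N h => pressureN n N β h)
    (fun h => pressure n β h) (spontMag n β) (fun h _ => pressure_tendsto n β h)
    (fun h hh => spontMag_le_slope n β hβ h hh) (hle β hβ) (hineq β hβ) m' hm' hm'S M

end Vale.Agent.P361.H18
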