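import Mathlib
import Vale.Agent.P361.H18_Convex

open Matrix Filter Topology
open scoped Matrix

namespace Vale.Agent.P361.H18

variable {V : Type*} [Fintype V] [DecidableEq V]

theorem siteOp_Sz (n : ℕ) (x : V) : siteOp x (spin n 2) =
    diagonal (fun σ : V → Fin (n + 1) => ((n : ℂ) / 2 - ((σ x : ℕ) : ℂ))) := by
  have h2 : spin n 2 = Sz n := rfl
  rw [h2]
  ext σ τ
  simp only [siteOp, Matrix.of_apply, Sz, Matrix.diagonal_apply]
  by_cases h : σ = τ
  · subst h
    simp
  · rw [if_neg h]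
    by_cases h1 : ∀ y, y ≠ x → σ y = τ y
    · rw [if_pos h1, if_neg]
      intro h3
      apply h
      funext y
      by_cases hy : y = x
      · rw [hy, h3]
      · exact h1 y hy
    · rw [if_neg h1]

theorem magG_eq_diagonal (n : ℕ) : magG n V =
    diagonal (fun σ : V → Fin (n + 1) => (((∑ x, ((n : ℝ) / 2 - ((σ x : ℕ) : ℝ))) : ℝ) : ℂ)) := by
  unfold magG
  simp_rw [siteOp_Sz]
  ext σ τ
  rw [Matrix.sum_apply]
  by_cases h : σ = τ
  · subst h
    simp only [Matrix.diagonal_apply_eq]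
    push_cast
    rfl
  · simp only [Matrix.diagonal_apply_ne _ h, Finset.sum_const_zero]

theorem Q_magG_le (n : ℕ) (u : (V → Fin (n + 1)) → ℂ) :
    Q (magG n V) u ≤ (n : ℝ) / 2 * Fintype.card V * nsq u := by
  rw [magG_eq_diagonal]
  unfold Q nsq dotProduct
  rw [Complex.re_sum, Finset.mul_sum]
  apply Finset.sum_le_sum
  intro σ _
  rw [Matrix.mulVec_diagonal]
  have h1 : (star u σ * ((((∑ x, ((n : ℝ) / 2 - ((σ x : ℕ) : ℝ))) : ℝ) : ℂ) * u σ)).re =
      (∑ x, ((n : ℝ) / 2 - ((σ x : ℕ) : ℝ))) * Complex.normSq (u σ) := by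
    rw [mul_left_comm, Complex.re_ofReal_mul, Pi.star_apply]
    congr 1
    rw [RCLike.star_def, ← Complex.normSq_eq_conj_mul_self, Complex.ofReal_re]
  rw [h1]
  apply mul_le_mul_of_nonneg_right _ (Complex.normSq_nonneg _)
  calc ∑ x, ((n : ℝ) / 2 - ((σ x : ℕ) : ℝ)) ≤ ∑ _x : V, (n : ℝ) / 2 := by
        apply Finset.sum_le_sum
        intro x _
        have : (0 : ℝ) ≤ ((σ x : ℕ) : ℝ) := Nat.cast_nonneg _
        linarith
    _ = (n : ℝ) / 2 * Fintype.card V := by
        rw [Finset.sum_const, nsmul_eq_mul, Finset.card_univ]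
        ring

theorem logZ_sub_le (n : ℕ) (adj : V → V → Prop) [DecidableRel adj]
    (hs : ∀ x y, adj x y → adj y x) (β h : ℝ) (hβ : 0 < β) (hh : 0 < h) :
    logZ n adj β h - logZ n adj β 0 ≤ β * h * ((n : ℝ) / 2 * Fintype.card V) := by
  have key : logZ n adj β h ≤ logZ n adj β 0 + β * h * ((n : ℝ) / 2 * Fintype.card V) := by
    unfold logZ partG
    apply log_trace_exp_le (gibbs_hermitian n adj hs β h) (gibbs_hermitian n adj hs β 0)
    intro u hu
    have hnu : nsq u = 1 := by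
      have := nsq_eq u
      rw [hu] at this
      exact_mod_cast this
    change Q _ u ≤ Q _ u + _
    have h1 : Q (-(β : ℂ) • (hamG n adj - (h : ℂ) • magG n V)) u -
      Q (-(β : ℂ) • (hamG n adj - ((0 : ℝ) : ℂ) • magG n V)) u = β * h * Q (magG n V) u := by
      rw [← Q_sub, ← Q_smul]
      congr 1
      push_cast
      rw [zero_smul, sub_zero, smul_sub, sub_sub_cancel_left, smul_smul, neg_mul, neg_smul, neg_neg]
    have h2 := Q_magG_le n u
    rw [hnu, mul_one] at h2
    have h3 : β * h * Q (magG n V) u ≤ β * h * ((n : ℝ) / 2 * Fintype.card V) := by gcongr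
    linarith
  linarith

theorem card_site (N : ℕ) : Fintype.card (Site N) = (2 * N + 1) ^ 3 := by
  rw [Fintype.card_fun, Fintype.card_fin, Fintype.card_coe, Int.card_Icc]
  congr 1
  omega

theorem hle (n N : ℕ) (β h : ℝ) (hβ : 0 < β) (hh : 0 < h) :
    (pressureN n N β h - pressureN n N β 0) / h ≤ (n : ℝ) / 2 := by
  have h1 := logZ_sub_le n (nn N) (nn_symm N) β h hβ hh
  rw [card_site] at h1
  rw [div_le_iff₀ hh]
  unfold pressureN
  unfold logZ at h1
  rw [← mul_sub]
  have hp : (0 : ℝ) < β * (2 * N + 1) ^ 3 := by positivity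
  rw [one_div, inv_mul_le_iff₀ hp]
  refine h1.trans (le_of_eq ?_)
  push_cast
  ring

end Vale.Agent.P361.H18
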