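import Vale.Agent.P361.Defs

namespace Vale.Agent.P361

open Matrix

noncomputable section

theorem normSq_exp_sub (c α γ : ℝ) :
    Complex.normSq ((c : ℂ) * Complex.exp (Complex.I * α) - (c : ℂ) * Complex.exp (Complex.I * γ)) =
      c ^ 2 * (2 * (1 - Real.cos (α - γ))) := by
  rw [← mul_sub, Complex.normSq_mul, Complex.normSq_ofReal]
  have h1 : ∀ t : ℝ, Complex.exp (Complex.I * t) = (Real.cos t : ℂ) + (Real.sin t : ℂ) * Complex.I := by
    intro t
    rw [mul_comm, Complex.exp_mul_I, Complex.ofReal_cos, Complex.ofReal_sin]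
  rw [h1, h1, Complex.normSq_apply]
  simp only [Complex.sub_re, Complex.add_re, Complex.ofReal_re, Complex.mul_re, Complex.I_re,
    mul_zero, Complex.ofReal_im, Complex.I_im, mul_one, Complex.sub_im,
    Complex.add_im, Complex.mul_im, zero_add, add_zero, sub_self]
  rw [Real.cos_sub]
  have h2 := Real.sin_sq_add_cos_sq α
  have h3 := Real.sin_sq_add_cos_sq γ
  linear_combination c ^ 2 * h2 + c ^ 2 * h3

def stepP {N : ℕ} (x : Site N) (j : Fin 3) (s : ℤ) (y : Site N) : Prop :=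
  (y j : ℤ) = (x j : ℤ) + s ∧ ∀ i, i ≠ j → (y i : ℤ) = (x i : ℤ)

instance {N : ℕ} (x : Site N) (j : Fin 3) (s : ℤ) : DecidablePred (stepP x j s) :=
  fun y => by unfold stepP; infer_instance

theorem nn_step {N : ℕ} {x y : Site N} (h : nn N x y) :
    ∃ j, stepP x j 1 y ∨ stepP x j (-1) y := by
  unfold nn at h
  rw [Fin.sum_univ_three] at h
  have h0 : 0 ≤ |(x 0 : ℤ) - (y 0 : ℤ)| := abs_nonneg _
  have h1 : 0 ≤ |(x 1 : ℤ) - (y 1 : ℤ)| := abs_nonneg _
  have h2 : 0 ≤ |(x 2 : ℤ) - (y 2 : ℤ)| := abs_nonneg _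
  have key : ∀ a b : ℤ, |a - b| = 0 → b = a := by
    intro a b hab
    have := abs_eq_zero.1 hab
    omega
  have key1 : ∀ a b : ℤ, |a - b| = 1 → b = a + 1 ∨ b = a + -1 := by
    intro a b hab
    rcases (abs_eq (by norm_num)).1 hab with h | h <;> omega
  have hcase : (|(x 0 : ℤ) - (y 0 : ℤ)| = 1 ∧ |(x 1 : ℤ) - (y 1 : ℤ)| = 0 ∧
      |(x 2 : ℤ) - (y 2 : ℤ)| = 0) ∨ (|(x 0 : ℤ) - (y 0 : ℤ)| = 0 ∧ |(x 1 : ℤ) - (y 1 : ℤ)| = 1 ∧
      |(x 2 : ℤ) - (y 2 : ℤ)| = 0) ∨ (|(x 0 : ℤ) - (y 0 : ℤ)| = 0 ∧ |(x 1 : ℤ) - (y 1 : ℤ)| = 0 ∧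
      |(x 2 : ℤ) - (y 2 : ℤ)| = 1) := by omega
  rcases hcase with ⟨a0, a1, a2⟩ | ⟨a0, a1, a2⟩ | ⟨a0, a1, a2⟩
  · refine ⟨0, ?_⟩
    rcases key1 _ _ a0 with h | h
    · left; refine ⟨h, fun i hi => ?_⟩
      fin_cases i
      · exact absurd rfl hi
      · exact key _ _ a1
      · exact key _ _ a2
    · right; refine ⟨h, fun i hi => ?_⟩
      fin_cases i
      · exact absurd rfl hi
      · exact key _ _ a1
      · exact key _ _ a2
  · refine ⟨1, ?_⟩
    rcases key1 _ _ a1 with h | h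
    · left; refine ⟨h, fun i hi => ?_⟩
      fin_cases i
      · exact key _ _ a0
      · exact absurd rfl hi
      · exact key _ _ a2
    · right; refine ⟨h, fun i hi => ?_⟩
      fin_cases i
      · exact key _ _ a0
      · exact absurd rfl hi
      · exact key _ _ a2
  · refine ⟨2, ?_⟩
    rcases key1 _ _ a2 with h | h
    · left; refine ⟨h, fun i hi => ?_⟩
      fin_cases i
      · exact key _ _ a0
      · exact key _ _ a1
      · exact absurd rfl hi
    · right; refine ⟨h, fun i hi => ?_⟩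
      fin_cases i
      · exact key _ _ a0
      · exact key _ _ a1
      · exact absurd rfl hi

theorem step_sum_le {N : ℕ} (x : Site N) (j : Fin 3) (s : ℤ) (C : ℝ) (hC : 0 ≤ C) :
    (∑ y : Site N, if stepP x j s y then C else 0) ≤ C := by
  rw [← Finset.sum_filter, Finset.sum_const, nsmul_eq_mul]
  have : (Finset.univ.filter fun y : Site N => stepP x j s y).card ≤ 1 := by
    rw [Finset.card_le_one]
    intro a ha b hb
    simp only [Finset.mem_filter, Finset.mem_univ, true_and] at ha hb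
    funext i
    apply Subtype.ext
    by_cases hi : i = j
    · subst hi; rw [ha.1, hb.1]
    · rw [ha.2 i hi, hb.2 i hi]
  calc ((Finset.univ.filter fun y : Site N => stepP x j s y).card : ℝ) * C ≤ 1 * C := by
        refine mul_le_mul_of_nonneg_right ?_ hC
        exact_mod_cast this
    _ = C := one_mul C

def wave (N : ℕ) (θ : Fin 3 → ℝ) (c : ℝ) (x : Site N) : ℂ :=
  (c : ℂ) * Complex.exp (Complex.I * ((∑ j, θ j * ((x j : ℤ) : ℝ) : ℝ) : ℂ))

theorem step_normSq {N : ℕ} {x y : Site N} {j : Fin 3} {s : ℤ} (hs : s = 1 ∨ s = -1)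
    (h : stepP x j s y) (θ : Fin 3 → ℝ) (c : ℝ) :
    Complex.normSq (wave N θ c x - wave N θ c y) = c ^ 2 * (2 * (1 - Real.cos (θ j))) := by
  unfold wave
  rw [normSq_exp_sub]
  congr 3
  have h1 : (∑ i, θ i * ((x i : ℤ) : ℝ)) - (∑ i, θ i * ((y i : ℤ) : ℝ)) = -(s : ℝ) * θ j := by
    rw [← Finset.sum_sub_distrib, Finset.sum_eq_single j]
    · rw [h.1]; push_cast; ring
    · intro i _ hi
      rw [h.2 i hi]; ring
    · intro hj; exact absurd (Finset.mem_univ _) hj
  rw [h1]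
  rcases hs with rfl | rfl
  · simp
  · simp

theorem neighbor_bound {N : ℕ} (θ : Fin 3 → ℝ) (c : ℝ) (x : Site N) :
    (∑ y, if nn N x y then Complex.normSq (wave N θ c x - wave N θ c y) else 0) ≤
      2 * (∑ j, 2 * (1 - Real.cos (θ j))) * c ^ 2 := by
  have hC : ∀ j, 0 ≤ c ^ 2 * (2 * (1 - Real.cos (θ j))) := by
    intro j
    have := Real.cos_le_one (θ j)
    have h2 : 0 ≤ 1 - Real.cos (θ j) := by linarith
    positivity
  have h1 : ∀ y : Site N, (if nn N x y then Complex.normSq (wave N θ c x - wave N θ c y) else 0) ≤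
      ∑ j, ((if stepP x j 1 y then c ^ 2 * (2 * (1 - Real.cos (θ j))) else 0) +
        (if stepP x j (-1) y then c ^ 2 * (2 * (1 - Real.cos (θ j))) else 0)) := by
    intro y
    have hnn : ∀ j, 0 ≤ ((if stepP x j 1 y then c ^ 2 * (2 * (1 - Real.cos (θ j))) else 0) +
        (if stepP x j (-1) y then c ^ 2 * (2 * (1 - Real.cos (θ j))) else 0)) := by
      intro j
      have := hC j
      split_ifs <;> linarith
    by_cases hxy : nn N x y
    · rw [if_pos hxy]
      obtain ⟨j, hj⟩ := nn_step hxy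
      refine le_trans ?_ (Finset.single_le_sum (fun j _ => hnn j) (Finset.mem_univ j))
      have := hC j
      rcases hj with hj | hj
      · rw [step_normSq (Or.inl rfl) hj, if_pos hj]
        split_ifs <;> linarith
      · rw [step_normSq (Or.inr rfl) hj, if_pos hj]
        split_ifs <;> linarith
    · rw [if_neg hxy]
      exact Finset.sum_nonneg fun j _ => hnn j
  refine (Finset.sum_le_sum fun y _ => h1 y).trans ?_
  rw [Finset.sum_comm]
  have h2 : ∀ j, (∑ y : Site N, ((if stepP x j 1 y then c ^ 2 * (2 * (1 - Real.cos (θ j))) else 0) +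
        (if stepP x j (-1) y then c ^ 2 * (2 * (1 - Real.cos (θ j))) else 0))) ≤
        2 * (c ^ 2 * (2 * (1 - Real.cos (θ j)))) := by
    intro j
    rw [Finset.sum_add_distrib]
    have a1 := step_sum_le x j 1 _ (hC j)
    have a2 := step_sum_le x j (-1) _ (hC j)
    linarith
  refine (Finset.sum_le_sum fun j _ => h2 j).trans (le_of_eq ?_)
  rw [← Finset.mul_sum, ← Finset.mul_sum]
  ring

theorem nn_symm {N : ℕ} (x y : Site N) (h : nn N x y) : nn N y x := by
  unfold nn at *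
  rw [← h]
  refine Finset.sum_congr rfl fun j _ => ?_
  rw [abs_sub_comm]

theorem nn_irrefl {N : ℕ} (x : Site N) : ¬ nn N x x := by
  unfold nn
  simp

theorem wave_normSq {N : ℕ} (θ : Fin 3 → ℝ) (c : ℝ) (x : Site N) :
    Complex.normSq (wave N θ c x) = c ^ 2 := by
  unfold wave
  rw [Complex.normSq_mul, Complex.normSq_ofReal, Complex.normSq_eq_norm_sq, mul_comm Complex.I,
    Complex.norm_exp_ofReal_mul_I]
  ring

end

end Vale.Agent.P361
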