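import Vale.Agent.P361.FiniteVol2
import Vale.Agent.P361.Neighbor

namespace Vale.Agent.P361

open Matrix

noncomputable section

theorem card_Site (N : ℕ) : Fintype.card (Site N) = (2 * N + 1) ^ 3 := by
  unfold Site
  rw [Fintype.card_fun, Fintype.card_coe, Int.card_Icc, Fintype.card_fin]
  congr 1
  omega

def ang (N : ℕ) (κ : Fin 3 → Fin (2 * N + 1)) (j : Fin 3) : ℝ :=
  2 * Real.pi * (κ j : ℕ) / ((2 * N + 1 : ℕ) : ℝ)

def amp (N : ℕ) : ℝ := Real.sqrt (1 / ((2 * N + 1 : ℕ) : ℝ) ^ 3)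

theorem amp_sq (N : ℕ) : amp N ^ 2 = 1 / ((2 * N + 1 : ℕ) : ℝ) ^ 3 := by
  unfold amp; rw [Real.sq_sqrt]; positivity

theorem geom_char (L : ℕ) (hL : 0 < L) (d : ℤ) (hd : |d| < L) :
    ∑ c : Fin L, Complex.exp (Complex.I * (((2 * Real.pi * (c : ℕ) / (L : ℝ)) * (d : ℝ) : ℝ) : ℂ)) =
      if d = 0 then (L : ℂ) else 0 := by
  by_cases h : d = 0
  · subst h; simp
  · rw [if_neg h]
    set ζ : ℂ := Complex.exp (2 * Real.pi * Complex.I * ((d : ℂ) / L)) with hζ
    have h1 : ∀ c : Fin L, Complex.exp (Complex.I * (((2 * Real.pi * (c : ℕ) / (L : ℝ)) * (d : ℝ) : ℝ) : ℂ)) =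
        ζ ^ (c : ℕ) := by
      intro c
      rw [hζ, ← Complex.exp_nat_mul]
      congr 1
      push_cast
      ring
    rw [Finset.sum_congr rfl fun c _ => h1 c, Fin.sum_univ_eq_sum_range (fun c => ζ ^ c)]
    have hζ1 : ζ ≠ 1 := by
      intro hh
      rw [hζ, Complex.exp_eq_one_iff] at hh
      obtain ⟨k, hk⟩ := hh
      have hpi : (2 * Real.pi * Complex.I : ℂ) ≠ 0 := Complex.two_pi_I_ne_zero
      have h2 : (d : ℂ) / L = k := by
        have : (2 * Real.pi * Complex.I : ℂ) * ((d : ℂ) / L) = (2 * Real.pi * Complex.I) * k := by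
          rw [hk]; ring
        exact mul_left_cancel₀ hpi this
      have hLne : (L : ℂ) ≠ 0 := by exact_mod_cast hL.ne'
      have h3 : (d : ℂ) = k * L := by
        rw [div_eq_iff hLne] at h2; exact h2
      have h4 : d = k * L := by exact_mod_cast h3
      have hk0 : k ≠ 0 := by rintro rfl; simp at h4; exact h h4
      have h5 : (L : ℤ) ≤ |d| := by
        rw [h4, abs_mul]
        have : 1 ≤ |k| := Int.one_le_abs hk0
        have h6 : |(L : ℤ)| = L := abs_of_nonneg (by positivity)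
        rw [h6]
        nlinarith
      omega
    have hζL : ζ ^ L = 1 := by
      rw [hζ, ← Complex.exp_nat_mul, Complex.exp_eq_one_iff]
      refine ⟨d, ?_⟩
      have hLne : (L : ℂ) ≠ 0 := by exact_mod_cast hL.ne'
      field_simp
    have := geom_sum_mul ζ L
    rw [hζL, sub_self] at this
    rcases mul_eq_zero.1 this with h6 | h6
    · exact h6
    · exact absurd (sub_eq_zero.1 h6) hζ1

theorem wave_complete (N : ℕ) (x y : Site N) :
    ∑ κ : Fin 3 → Fin (2 * N + 1), star (wave N (ang N κ) (amp N) x) * wave N (ang N κ) (amp N) y =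
      if x = y then 1 else 0 := by
  have h1 : ∀ κ : Fin 3 → Fin (2 * N + 1),
      star (wave N (ang N κ) (amp N) x) * wave N (ang N κ) (amp N) y =
      ((amp N ^ 2 : ℝ) : ℂ) * ∏ j, Complex.exp (Complex.I *
        (((2 * Real.pi * ((κ j : Fin (2 * N + 1)) : ℕ) / ((2 * N + 1 : ℕ) : ℝ)) *
          (((y j : ℤ) - (x j : ℤ) : ℤ) : ℝ) : ℝ) : ℂ)) := by
    intro κ
    unfold wave
    rw [← Complex.exp_sum]
    change (starRingEnd ℂ) ((amp N : ℂ) * Complex.exp (Complex.I *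
      ((∑ j, ang N κ j * ((x j : ℤ) : ℝ) : ℝ) : ℂ))) * _ = _
    rw [map_mul, Complex.conj_ofReal, ← Complex.exp_conj, map_mul, Complex.conj_I,
      Complex.conj_ofReal]
    have : ∀ a b : ℂ, (amp N : ℂ) * Complex.exp a * ((amp N : ℂ) * Complex.exp b) =
        ((amp N ^ 2 : ℝ) : ℂ) * Complex.exp (a + b) := by
      intro a b; rw [Complex.exp_add]; push_cast; ring
    rw [this]
    congr 2
    rw [← Finset.mul_sum]
    unfold ang
    push_cast
    rw [neg_mul, neg_add_eq_sub, ← mul_sub, ← Finset.sum_sub_distrib]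
    congr 1
    refine Finset.sum_congr rfl fun j _ => ?_
    ring
  rw [Finset.sum_congr rfl fun κ _ => h1 κ, ← Finset.mul_sum]
  have h2 := Finset.prod_univ_sum (fun _ : Fin 3 => (Finset.univ : Finset (Fin (2 * N + 1))))
    (fun j c => Complex.exp (Complex.I *
        (((2 * Real.pi * ((c : Fin (2 * N + 1)) : ℕ) / ((2 * N + 1 : ℕ) : ℝ)) *
          (((y j : ℤ) - (x j : ℤ) : ℤ) : ℝ) : ℝ) : ℂ)))
  rw [Fintype.piFinset_univ] at h2
  rw [← h2]
  have h3 : ∀ j : Fin 3, (∑ c : Fin (2 * N + 1), Complex.exp (Complex.I *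
        (((2 * Real.pi * ((c : Fin (2 * N + 1)) : ℕ) / ((2 * N + 1 : ℕ) : ℝ)) *
          (((y j : ℤ) - (x j : ℤ) : ℤ) : ℝ) : ℝ) : ℂ))) =
      if (y j : ℤ) - (x j : ℤ) = 0 then ((2 * N + 1 : ℕ) : ℂ) else 0 := by
    intro j
    refine geom_char (2 * N + 1) (by omega) _ ?_
    have hx := Finset.mem_Icc.1 (x j).2
    have hy := Finset.mem_Icc.1 (y j).2
    rw [abs_lt]
    push_cast
    constructor <;> omega
  rw [Finset.prod_congr rfl fun j _ => h3 j]
  by_cases hxy : x = y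
  · subst hxy
    rw [if_pos rfl, amp_sq]
    simp only [sub_self, if_true, Finset.prod_const, Finset.card_univ, Fintype.card_fin]
    have : (((2 * N + 1 : ℕ) : ℂ)) ≠ 0 := by exact_mod_cast (by omega : (2 * N + 1) ≠ 0)
    rw [Complex.ofReal_div, Complex.ofReal_one, Complex.ofReal_pow, Complex.ofReal_natCast]
    field_simp
  · rw [if_neg hxy]
    have : ∃ j, x j ≠ y j := by
      by_contra hcon
      push Not at hcon
      exact hxy (funext hcon)
    obtain ⟨j, hj⟩ := this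
    rw [Finset.prod_eq_zero (Finset.mem_univ j), mul_zero]
    rw [if_neg]
    intro h0
    apply hj
    apply Subtype.ext
    omega

/-- Finite-volume inequality in terms of magnetisation -/
theorem finite_mag (n N : ℕ) (hn : 0 < n) {β h : ℝ} (hβ : 0 < β) (m : ℝ)
    (hm : m = (tau (expo n (nn N) β h) (magG n (Site N))).re /
      (((2 * N + 1 : ℕ) : ℝ) ^ 3 * (tau (expo n (nn N) β h) 1).re)) (hm0 : 0 < m) :
    m / ((n : ℝ) / 2) * ((((2 * N + 1 : ℕ) : ℝ) ^ 3)⁻¹ * ∑ κ : Fin 3 → Fin (2 * N + 1),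
      1 / (Real.exp (β * (h + ((n : ℝ) - m) / m * ((n : ℝ) / 2 *
        ∑ j, 2 * (1 - Real.cos (ang N κ j))))) - 1)) ≤ (n : ℝ) / 2 - m := by
  have hcard : (Fintype.card (Site N) : ℝ) = ((2 * N + 1 : ℕ) : ℝ) ^ 3 := by
    rw [card_Site]; push_cast; ring
  have : Nonempty (Site N) := ⟨fun _ => ⟨0, by simp⟩⟩
  have := main_sum (n := n) (V := Site N) (adj := nn N) (h := h) nn_symm nn_irrefl hβ
    (fun κ : Fin 3 → Fin (2 * N + 1) => wave N (ang N κ) (amp N))
    (fun κ x => by rw [wave_normSq, amp_sq, hcard])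
    (fun κ => ∑ j, 2 * (1 - Real.cos (ang N κ j)))
    (fun κ x => by
      refine (neighbor_bound (ang N κ) (amp N) x).trans (le_of_eq ?_)
      rw [amp_sq, hcard]; ring)
    (wave_complete N) m (by rw [hcard]; exact hm) hm0 hn
  rw [hcard] at this
  exact this

theorem slope_le_mag (n N : ℕ) {β h : ℝ} (hβ : 0 < β) (hh : 0 < h) :
    (pressureN n N β h - pressureN n N β 0) / h ≤
      (tau (expo n (nn N) β h) (magG n (Site N))).re /
      (((2 * N + 1 : ℕ) : ℝ) ^ 3 * (tau (expo n (nn N) β h) 1).re) := by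
  have : Nonempty (Site N) := ⟨fun _ => ⟨0, by simp⟩⟩
  have h1 := logpart_support (n := n) (V := Site N) (adj := nn N) nn_symm β h 0
  unfold pressureN
  set M := (tau (expo n (nn N) β h) (magG n (Site N))).re
  set Z := (tau (expo n (nn N) β h) 1).re
  have hL : (0 : ℝ) < ((2 * N + 1 : ℕ) : ℝ) ^ 3 := by positivity
  have hL' : (2 * (N : ℝ) + 1) ^ 3 = ((2 * N + 1 : ℕ) : ℝ) ^ 3 := by push_cast; ring
  rw [hL', ← mul_sub, div_le_iff₀ hh]
  have h2 : Real.log (partG n (nn N) β h) - Real.log (partG n (nn N) β 0) ≤ h * (β * (M / Z)) := by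
    linarith
  have h3 : 1 / (β * ((2 * N + 1 : ℕ) : ℝ) ^ 3) *
      (Real.log (partG n (nn N) β h) - Real.log (partG n (nn N) β 0)) ≤
      1 / (β * ((2 * N + 1 : ℕ) : ℝ) ^ 3) * (h * (β * (M / Z))) :=
    mul_le_mul_of_nonneg_left h2 (by positivity)
  refine h3.trans (le_of_eq ?_)
  rw [← div_div]
  field_simp

theorem mono_aux {K : Type*} [Fintype K] (S β h a m c : ℝ) (hS : 0 < S) (hβ : 0 < β)
    (hh : 0 < h) (ha : 0 < a) (ham : a ≤ m) (hm : m ≤ S) (hc : 0 ≤ c) (G G' : K → ℝ)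
    (hG : ∀ k, 0 ≤ G k) (hG' : ∀ k, G' k = 2 * G k) :
    a / S * (c * ∑ k, 1 / (Real.exp (β * (h + (2 * S - a) / a * (2 * S * G k))) - 1)) ≤
      m / S * (c * ∑ k, 1 / (Real.exp (β * (h + (2 * S - m) / m * (S * G' k))) - 1)) := by
  have hm0 : 0 < m := ha.trans_le ham
  have hfrac : (2 * S - m) / m ≤ (2 * S - a) / a := by
    rw [div_le_div_iff₀ hm0 ha]
    nlinarith
  have hfrac0 : 0 ≤ (2 * S - m) / m := div_nonneg (by linarith) hm0.le
  have hfrac1 : 0 ≤ (2 * S - a) / a := hfrac0.trans hfrac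
  have hden : ∀ r g : ℝ, 0 ≤ r → 0 ≤ g → 0 < Real.exp (β * (h + r * g)) - 1 := by
    intro r g hr hg
    rw [sub_pos]
    apply Real.one_lt_exp_iff.2
    have := mul_nonneg hr hg
    exact mul_pos hβ (by linarith)
  have hterm : ∀ k, 1 / (Real.exp (β * (h + (2 * S - a) / a * (2 * S * G k))) - 1) ≤
      1 / (Real.exp (β * (h + (2 * S - m) / m * (S * G' k))) - 1) := by
    intro k
    have h3 : S * G' k = 2 * S * G k := by rw [hG' k]; ring
    have h4 : 0 ≤ 2 * S * G k := mul_nonneg (by linarith) (hG k)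
    rw [h3]
    refine one_div_le_one_div_of_le (hden _ _ hfrac0 h4) ?_
    have h5 := mul_le_mul_of_nonneg_right hfrac h4
    exact sub_le_sub_right (Real.exp_le_exp.2 (mul_le_mul_of_nonneg_left (by linarith) hβ.le)) 1
  have hsum := Finset.sum_le_sum fun k (_ : k ∈ Finset.univ) => hterm k
  have hsum0 : 0 ≤ ∑ k, 1 / (Real.exp (β * (h + (2 * S - a) / a * (2 * S * G k))) - 1) :=
    Finset.sum_nonneg fun k _ => one_div_nonneg.2 (hden _ _ hfrac1 (mul_nonneg (by linarith) (hG k))).le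
  exact mul_le_mul (div_le_div_of_nonneg_right ham hS.le) (mul_le_mul_of_nonneg_left hsum hc)
    (mul_nonneg hc hsum0) (div_nonneg hm0.le hS.le)

theorem hineq (n : ℕ) (hn : 0 < n) (β : ℝ) (hβ : 0 < β) (N : ℕ) (h : ℝ) (hh : 0 < h) (a : ℝ)
    (ha : a = (pressureN n N β h - pressureN n N β 0) / h) (ha0 : 0 < a) :
    a / ((n : ℝ) / 2) * ((((2 * N + 1 : ℕ) : ℝ) ^ 3)⁻¹ * ∑ κ : Fin 3 → Fin (2 * N + 1),
        1 / (Real.exp (β * (h + (2 * ((n : ℝ) / 2) - a) / a * (2 * ((n : ℝ) / 2) *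
          ∑ j, (1 - Real.cos (2 * Real.pi * (κ j : ℕ) / ((2 * N + 1 : ℕ) : ℝ)))))) - 1))
        ≤ (n : ℝ) / 2 - a := by
  have h1 := slope_le_mag n N hβ hh
  rw [← ha] at h1
  have : Nonempty (Site N) := ⟨fun _ => ⟨0, by simp⟩⟩
  have hcard : (Fintype.card (Site N) : ℝ) = ((2 * N + 1 : ℕ) : ℝ) ^ 3 := by
    rw [card_Site]; push_cast; ring
  have hmn := m_le (n := n) (V := Site N) (adj := nn N) nn_symm (β := β) (h := h)
  rw [hcard] at hmn
  obtain ⟨m, hm⟩ : ∃ m, m = (tau (expo n (nn N) β h) (magG n (Site N))).re /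
      (((2 * N + 1 : ℕ) : ℝ) ^ 3 * (tau (expo n (nn N) β h) 1).re) := ⟨_, rfl⟩
  rw [← hm] at h1 hmn
  have hm0 : 0 < m := lt_of_lt_of_le ha0 h1
  have h2 := finite_mag n N hn hβ m hm hm0
  have hnpos : (0 : ℝ) < (n : ℝ) / 2 := by
    have : (0 : ℝ) < n := by exact_mod_cast hn
    linarith
  have h3 := mono_aux ((n : ℝ) / 2) β h a m ((((2 * N + 1 : ℕ) : ℝ) ^ 3)⁻¹) hnpos hβ hh ha0 h1 hmn
    (by positivity)
    (fun κ : Fin 3 → Fin (2 * N + 1) => ∑ j, (1 - Real.cos (2 * Real.pi * (κ j : ℕ) / ((2 * N + 1 : ℕ) : ℝ))))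
    (fun κ => ∑ j, 2 * (1 - Real.cos (ang N κ j)))
    (fun κ => Finset.sum_nonneg fun j _ => sub_nonneg.2 (Real.cos_le_one _))
    (fun κ => by rw [Finset.mul_sum]; rfl)
  have h4 : 2 * ((n : ℝ) / 2) - m = n - m := by ring
  simp only [h4] at h3
  exact h3.trans (h2.trans (by linarith))

end

end Vale.Agent.P361
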