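import Mathlib
import Vale.Agent.P361.H18_Final
import Vale.Agent.P361.H18_Even
import Vale.Agent.P361.Hineq

open Filter Topology Real Matrix

namespace Vale.Agent.P361.H18

theorem spin_comm_01 (n : ℕ) :
    spin n 0 * spin n 1 - spin n 1 * spin n 0 = Complex.I • spin n 2 := by
  change ((1 / 2 : ℂ) • (Sp n + (Sp n)ᴴ)) * ((-Complex.I / 2) • (Sp n - (Sp n)ᴴ)) -
    ((-Complex.I / 2) • (Sp n - (Sp n)ᴴ)) * ((1 / 2 : ℂ) • (Sp n + (Sp n)ᴴ)) = Complex.I • Sz n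
  have h := Sp_comm_Sm n
  have h2 : ((1 / 2 : ℂ) • (Sp n + (Sp n)ᴴ)) * ((-Complex.I / 2) • (Sp n - (Sp n)ᴴ)) -
    ((-Complex.I / 2) • (Sp n - (Sp n)ᴴ)) * ((1 / 2 : ℂ) • (Sp n + (Sp n)ᴴ)) =
    (Complex.I / 2) • (Sp n * (Sp n)ᴴ - (Sp n)ᴴ * Sp n) := by
    simp only [smul_mul_smul_comm, mul_sub, sub_mul, mul_add, add_mul, smul_sub, smul_add]
    module
  rw [h2, h, smul_smul]
  congr 1
  ring

theorem spin_comm_12 (n : ℕ) :
    spin n 1 * spin n 2 - spin n 2 * spin n 1 = Complex.I • spin n 0 := by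
  change ((-Complex.I / 2) • (Sp n - (Sp n)ᴴ)) * Sz n - Sz n * ((-Complex.I / 2) • (Sp n - (Sp n)ᴴ))
    = Complex.I • ((1 / 2 : ℂ) • (Sp n + (Sp n)ᴴ))
  have h1 := Sz_comm_Sp n
  have h2 := Sz_comm_Sm n
  have h3 : ((-Complex.I / 2) • (Sp n - (Sp n)ᴴ)) * Sz n -
      Sz n * ((-Complex.I / 2) • (Sp n - (Sp n)ᴴ)) =
      (Complex.I / 2) • ((Sz n * Sp n - Sp n * Sz n) - (Sz n * (Sp n)ᴴ - (Sp n)ᴴ * Sz n)) := by
    simp only [smul_mul_assoc, mul_smul_comm, mul_sub, sub_mul]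
    module
  rw [h3, h1, h2, sub_neg_eq_add, smul_smul]
  congr 1
  ring

theorem spin_comm_20 (n : ℕ) :
    spin n 2 * spin n 0 - spin n 0 * spin n 2 = Complex.I • spin n 1 := by
  change Sz n * ((1 / 2 : ℂ) • (Sp n + (Sp n)ᴴ)) - ((1 / 2 : ℂ) • (Sp n + (Sp n)ᴴ)) * Sz n
    = Complex.I • ((-Complex.I / 2) • (Sp n - (Sp n)ᴴ))
  have h1 := Sz_comm_Sp n
  have h2 := Sz_comm_Sm n
  have h3 : Sz n * ((1 / 2 : ℂ) • (Sp n + (Sp n)ᴴ)) - ((1 / 2 : ℂ) • (Sp n + (Sp n)ᴴ)) * Sz n =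
      (1 / 2 : ℂ) • ((Sz n * Sp n - Sp n * Sz n) + (Sz n * (Sp n)ᴴ - (Sp n)ᴴ * Sz n)) := by
    simp only [smul_mul_assoc, mul_smul_comm, mul_add, add_mul]
    module
  rw [h3, h1, h2, ← sub_eq_add_neg, smul_smul]
  congr 1
  rw [mul_div_assoc', mul_neg, Complex.I_mul_I]
  norm_num

theorem spin_casimir (n : ℕ) :
    ∑ a, spin n a * spin n a = (((n : ℂ) / 2) * ((n : ℂ) / 2 + 1)) • 1 := by
  rw [Fin.sum_univ_three]
  change ((1 / 2 : ℂ) • (Sp n + (Sp n)ᴴ)) * ((1 / 2 : ℂ) • (Sp n + (Sp n)ᴴ)) +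
    ((-Complex.I / 2) • (Sp n - (Sp n)ᴴ)) * ((-Complex.I / 2) • (Sp n - (Sp n)ᴴ)) +
    Sz n * Sz n = _
  have hI : (-Complex.I / 2) * (-Complex.I / 2) = -(1 / 4 : ℂ) := by
    have := Complex.I_mul_I
    linear_combination (1 / 4 : ℂ) * this
  have h1 : ((1 / 2 : ℂ) • (Sp n + (Sp n)ᴴ)) * ((1 / 2 : ℂ) • (Sp n + (Sp n)ᴴ)) +
    ((-Complex.I / 2) • (Sp n - (Sp n)ᴴ)) * ((-Complex.I / 2) • (Sp n - (Sp n)ᴴ)) =
    (1 / 2 : ℂ) • (Sp n * (Sp n)ᴴ + (Sp n)ᴴ * Sp n) := by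
    rw [smul_mul_smul_comm, smul_mul_smul_comm, hI]
    simp only [mul_add, add_mul, mul_sub, sub_mul]
    module
  rw [h1, Sp_mul_Sm, Sm_mul_Sp, Sz, Matrix.diagonal_mul_diagonal, Matrix.diagonal_add,
    ← Matrix.diagonal_smul, Matrix.diagonal_add, ← Matrix.diagonal_one, ← Matrix.diagonal_smul]
  congr 1
  funext i
  simp only [Pi.smul_apply, smul_eq_mul]
  push_cast
  ring

theorem main (n : ℕ) (hn : 0 < n) :
    (spin n 0 * spin n 1 - spin n 1 * spin n 0 = Complex.I • spin n 2 ∧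
      spin n 1 * spin n 2 - spin n 2 * spin n 1 = Complex.I • spin n 0 ∧
      spin n 2 * spin n 0 - spin n 0 * spin n 2 = Complex.I • spin n 1 ∧
      ∑ a, spin n a * spin n a = (((n : ℂ) / 2) * ((n : ℂ) / 2 + 1)) • 1) ∧
    (∀ β : ℝ, 0 < β →
      (∀ h : ℝ, Tendsto (fun N => pressureN n N β h) atTop (𝓝 (pressure n β h))) ∧
      ConvexOn ℝ Set.univ (pressure n β) ∧
      HasDerivWithinAt (pressure n β) (spontMag n β) (Set.Ioi 0) 0 ∧
      0 ≤ spontMag n β ∧ spontMag n β ≤ (n : ℝ) / 2) ∧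
    (((riemannZeta (3 / 2)).re / (8 * Real.pi ^ (3 / 2 : ℝ) * ((n : ℝ) / 2) ^ (3 / 2 : ℝ)) : ℝ) :
      EReal) ≤ liminf (fun β : ℝ => ((β ^ (3 / 2 : ℝ) * ((n : ℝ) / 2 - spontMag n β) : ℝ) : EReal))
        atTop := by
  refine ⟨⟨spin_comm_01 n, spin_comm_12 n, spin_comm_20 n, spin_casimir n⟩,
    fun β hβ => ⟨fun h => pressure_tendsto n β h, pressure_convex n β hβ,
      hasDeriv_spontMag n β hβ, spontMag_nonneg n β hβ, spontMag_le n β hβ⟩, ?_⟩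
  apply le_of_forall_lt
  intro c hc
  induction c with
  | bot =>
    obtain ⟨d, hd⟩ : ∃ d : ℝ, d < (riemannZeta (3 / 2)).re /
      (8 * Real.pi ^ (3 / 2 : ℝ) * ((n : ℝ) / 2) ^ (3 / 2 : ℝ)) := exists_lt _
    have h1 := final_from_finite n hn (fun β hβ N h hh => hle n N β h hβ hh)
      (fun β hβ N h hh a ha ha0 => hineq n hn β hβ N h hh a ha ha0) d hd
    have h2 : (d : EReal) ≤ liminf (fun β : ℝ =>
        ((β ^ (3 / 2 : ℝ) * ((n : ℝ) / 2 - spontMag n β) : ℝ) : EReal)) atTop := by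
      apply le_liminf_of_le
      · isBoundedDefault
      · filter_upwards [h1] with β hβ
        exact_mod_cast hβ.le
    exact lt_of_lt_of_le (EReal.bot_lt_coe d) h2
  | coe c =>
    have hc' : c < (riemannZeta (3 / 2)).re /
      (8 * Real.pi ^ (3 / 2 : ℝ) * ((n : ℝ) / 2) ^ (3 / 2 : ℝ)) := by exact_mod_cast hc
    obtain ⟨d, hcd, hd⟩ := exists_between hc'
    have h1 := final_from_finite n hn (fun β hβ N h hh => hle n N β h hβ hh)
      (fun β hβ N h hh a ha ha0 => hineq n hn β hβ N h hh a ha ha0) d hd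
    have h2 : (d : EReal) ≤ liminf (fun β : ℝ =>
        ((β ^ (3 / 2 : ℝ) * ((n : ℝ) / 2 - spontMag n β) : ℝ) : EReal)) atTop := by
      apply le_liminf_of_le
      · isBoundedDefault
      · filter_upwards [h1] with β hβ
        exact_mod_cast hβ.le
    exact lt_of_lt_of_le (by exact_mod_cast hcd) h2
  | top => exact absurd hc (by simp)

end Vale.Agent.P361.H18
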