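import Mathlib
import Vale.Agent.P361.Defs

open Matrix Filter Topology

namespace Vale.Agent.P361.H18

noncomputable def mode (N : ℕ) (κ : Fin 3 → Fin (2 * N + 1)) (x : Site N) : ℂ :=
  ((1 / Real.sqrt ((2 * (N : ℝ) + 1) ^ 3) : ℝ) : ℂ) *
    Complex.exp (2 * Real.pi * Complex.I * (∑ j, ((κ j : ℕ) : ℂ) * ((x j : ℤ) : ℂ)) /
      (2 * (N : ℂ) + 1))

theorem mode_eq (N : ℕ) (κ : Fin 3 → Fin (2 * N + 1)) (x : Site N) :
    mode N κ x = ((1 / Real.sqrt ((2 * (N : ℝ) + 1) ^ 3) : ℝ) : ℂ) *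
      Complex.exp (((2 * Real.pi * (∑ j, ((κ j : ℕ) : ℝ) * ((x j : ℤ) : ℝ)) /
        (2 * (N : ℝ) + 1) : ℝ) : ℂ) * Complex.I) := by
  unfold mode
  congr 2
  push_cast
  ring

theorem normSq_mode (N : ℕ) (κ : Fin 3 → Fin (2 * N + 1)) (x : Site N) :
    Complex.normSq (mode N κ x) = 1 / (2 * (N : ℝ) + 1) ^ 3 := by
  rw [mode_eq, Complex.normSq_mul, Complex.normSq_ofReal]
  have h1 : Complex.normSq (Complex.exp (((2 * Real.pi * (∑ j, ((κ j : ℕ) : ℝ) * ((x j : ℤ) : ℝ)) /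
        (2 * (N : ℝ) + 1) : ℝ) : ℂ) * Complex.I)) = 1 := by
    rw [Complex.normSq_eq_norm_sq, Complex.norm_exp_ofReal_mul_I]
    norm_num
  rw [h1, mul_one]
  have h2 : (0 : ℝ) ≤ (2 * (N : ℝ) + 1) ^ 3 := by positivity
  rw [div_mul_div_comm, Real.mul_self_sqrt h2, one_mul]

theorem geom_root (L : ℕ) (hL : 0 < L) (d : ℤ) (hd : |d| < L) :
    ∑ k : Fin L, Complex.exp (2 * Real.pi * Complex.I * (((k : ℕ) : ℂ) * (d : ℂ)) / (L : ℂ)) =
      if d = 0 then (L : ℂ) else 0 := by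
  have hL' : (L : ℂ) ≠ 0 := by exact_mod_cast hL.ne'
  by_cases h : d = 0
  · subst h
    simp
  · rw [if_neg h]
    set ζ : ℂ := Complex.exp (2 * Real.pi * Complex.I * (d : ℂ) / (L : ℂ)) with hζ
    have h1 : ∀ k : Fin L, Complex.exp (2 * Real.pi * Complex.I * (((k : ℕ) : ℂ) * (d : ℂ)) / (L : ℂ))
        = ζ ^ (k : ℕ) := by
      intro k
      rw [hζ, ← Complex.exp_nat_mul]
      congr 1
      ring
    simp_rw [h1]
    rw [Fin.sum_univ_eq_sum_range (fun k => ζ ^ k) L]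
    have h2 : ζ ^ L = 1 := by
      rw [hζ, ← Complex.exp_nat_mul]
      have e : (L : ℂ) * (2 * Real.pi * Complex.I * (d : ℂ) / (L : ℂ)) =
          (d : ℂ) * (2 * Real.pi * Complex.I) := by
        field_simp
      rw [e]
      exact Complex.exp_int_mul_two_pi_mul_I d
    have h3 : ζ ≠ 1 := by
      intro h4
      rw [hζ, Complex.exp_eq_one_iff] at h4
      obtain ⟨m, hm⟩ := h4
      have hpi : (2 * Real.pi * Complex.I : ℂ) ≠ 0 := Complex.two_pi_I_ne_zero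
      have h5 : (d : ℂ) = (m : ℂ) * (L : ℂ) := by
        field_simp at hm
        have h6 : (2 * (Real.pi : ℂ) * Complex.I) * (d : ℂ) =
            (2 * (Real.pi : ℂ) * Complex.I) * ((m : ℂ) * (L : ℂ)) := by
          linear_combination (2 * (Real.pi : ℂ) * Complex.I) * hm
        exact mul_left_cancel₀ hpi h6
      have h7 : d = m * (L : ℤ) := by exact_mod_cast h5
      have h8 : (L : ℤ) ∣ d := ⟨m, by rw [h7]; ring⟩
      have h9 := Int.le_of_dvd (abs_pos.mpr h) ((dvd_abs _ _).mpr h8)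
      omega
    have h4 := geom_sum_eq h3 L
    rw [h4, h2, sub_self, zero_div]

theorem mode_complete (N : ℕ) (x y : Site N) :
    ∑ κ : Fin 3 → Fin (2 * N + 1), star (mode N κ x) * mode N κ y = if x = y then 1 else 0 := by
  have hLc : ((2 * N + 1 : ℕ) : ℂ) = 2 * (N : ℂ) + 1 := by push_cast; ring
  have hL0 : (2 * (N : ℂ) + 1) ≠ 0 := by
    rw [← hLc]
    exact_mod_cast (Nat.succ_ne_zero (2 * N))
  have h0 : (0 : ℝ) ≤ (2 * (N : ℝ) + 1) ^ 3 := by positivity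
  have h1 : ∀ κ : Fin 3 → Fin (2 * N + 1), star (mode N κ x) * mode N κ y =
      (1 / (2 * (N : ℂ) + 1) ^ 3) * ∏ j, Complex.exp (2 * Real.pi * Complex.I *
        (((κ j : ℕ) : ℂ) * ((((y j : ℤ) - (x j : ℤ) : ℤ)) : ℂ)) / ((2 * N + 1 : ℕ) : ℂ)) := by
    intro κ
    rw [mode_eq, mode_eq, RCLike.star_def, map_mul, Complex.conj_ofReal, ← Complex.exp_conj,
      map_mul, Complex.conj_ofReal, Complex.conj_I, mul_mul_mul_comm, ← Complex.exp_add,
      ← Complex.ofReal_mul, div_mul_div_comm, Real.mul_self_sqrt h0, one_mul, ← Complex.exp_sum]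
    congr 1
    · push_cast
      rfl
    · congr 1
      rw [hLc]
      push_cast
      rw [Fin.sum_univ_three, Fin.sum_univ_three, Fin.sum_univ_three]
      field_simp
      ring
  simp_rw [h1]
  rw [← Finset.mul_sum]
  have h2 : ∑ κ : Fin 3 → Fin (2 * N + 1), ∏ j, Complex.exp (2 * Real.pi * Complex.I *
        (((κ j : ℕ) : ℂ) * ((((y j : ℤ) - (x j : ℤ) : ℤ)) : ℂ)) / ((2 * N + 1 : ℕ) : ℂ)) =
      ∏ j, ∑ k : Fin (2 * N + 1), Complex.exp (2 * Real.pi * Complex.I *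
        (((k : ℕ) : ℂ) * ((((y j : ℤ) - (x j : ℤ) : ℤ)) : ℂ)) / ((2 * N + 1 : ℕ) : ℂ)) := by
    rw [Finset.prod_univ_sum]
    rfl
  rw [h2]
  have h3 : ∀ j, ∑ k : Fin (2 * N + 1), Complex.exp (2 * Real.pi * Complex.I *
        (((k : ℕ) : ℂ) * ((((y j : ℤ) - (x j : ℤ) : ℤ)) : ℂ)) / ((2 * N + 1 : ℕ) : ℂ)) =
      if x j = y j then ((2 * N + 1 : ℕ) : ℂ) else 0 := by
    intro j
    have hx := Finset.mem_Icc.mp (x j).2
    have hy := Finset.mem_Icc.mp (y j).2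
    rw [geom_root (2 * N + 1) (by omega) ((y j : ℤ) - (x j : ℤ))
      (by rw [abs_lt]; push_cast; omega)]
    by_cases h : x j = y j
    · rw [if_pos h, if_pos]
      rw [h]
      ring
    · rw [if_neg h, if_neg]
      intro h'
      apply h
      apply Subtype.ext
      omega
  simp_rw [h3]
  by_cases hxy : x = y
  · subst hxy
    simp only [if_true, Finset.prod_const, Finset.card_univ, Fintype.card_fin]
    rw [hLc]
    field_simp
  · rw [if_neg hxy]
    have : ∃ j, x j ≠ y j := by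
      by_contra hcon
      push Not at hcon
      exact hxy (funext hcon)
    obtain ⟨j, hj⟩ := this
    rw [Finset.prod_eq_zero (Finset.mem_univ j) (by rw [if_neg hj]), mul_zero]

end Vale.Agent.P361.H18
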