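import Mathlib
import Vale.Agent.P361.H18_Peierls

open Matrix
open scoped Matrix

namespace Vale.Agent.P361.H18

theorem log_sum_aux {ι : Type*} (s : Finset ι) (p x y : ι → ℝ) (hp : ∀ i ∈ s, 0 ≤ p i)
    (ha : 0 < ∑ i ∈ s, p i * Real.exp (y i)) (hb : 0 < ∑ i ∈ s, p i * Real.exp (x i)) :
    ∑ i ∈ s, p i * Real.exp (y i) * (x i - y i) ≤
      (∑ i ∈ s, p i * Real.exp (y i)) *
        (Real.log (∑ i ∈ s, p i * Real.exp (x i)) - Real.log (∑ i ∈ s, p i * Real.exp (y i))) := by
  set a := ∑ i ∈ s, p i * Real.exp (y i) with haDef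
  set b := ∑ i ∈ s, p i * Real.exp (x i) with hbDef
  have hj := convexOn_exp.map_sum_le (t := s) (w := fun i => p i * Real.exp (y i) / a)
    (p := fun i => x i - y i) (fun i hi => div_nonneg (mul_nonneg (hp i hi) (Real.exp_pos _).le) ha.le)
    (by rw [← Finset.sum_div, ← haDef, div_self ha.ne']) (fun i _ => Set.mem_univ _)
  simp only [smul_eq_mul] at hj
  have h1 : ∑ i ∈ s, p i * Real.exp (y i) / a * Real.exp (x i - y i) = b / a := by
    rw [hbDef, Finset.sum_div]
    apply Finset.sum_congr rfl
    intro i _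
    rw [Real.exp_sub]
    field_simp
  rw [h1] at hj
  have h2 := Real.log_le_log (Real.exp_pos _) hj
  rw [Real.log_exp, Real.log_div hb.ne' ha.ne'] at h2
  have h3 : ∑ i ∈ s, p i * Real.exp (y i) / a * (x i - y i) =
      (∑ i ∈ s, p i * Real.exp (y i) * (x i - y i)) / a := by
    rw [Finset.sum_div]
    apply Finset.sum_congr rfl
    intro i _
    ring
  rw [h3, div_le_iff₀ ha] at h2
  linarith

theorem log_sum_ineq {ι : Type*} (s : Finset ι) (p x y : ι → ℝ) (hp : ∀ i ∈ s, 0 ≤ p i)
    (ha : 0 < ∑ i ∈ s, p i * Real.exp (y i)) (hb : 0 < ∑ i ∈ s, p i * Real.exp (x i)) :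
    ((∑ i ∈ s, p i * Real.exp (x i)) - ∑ i ∈ s, p i * Real.exp (y i)) *
        (Real.log (∑ i ∈ s, p i * Real.exp (x i)) - Real.log (∑ i ∈ s, p i * Real.exp (y i))) ≤
      ∑ i ∈ s, p i * ((Real.exp (x i) - Real.exp (y i)) * (x i - y i)) := by
  have h1 := log_sum_aux s p x y hp ha hb
  have h2 := log_sum_aux s p y x hp hb ha
  have h3 : ∑ i ∈ s, p i * ((Real.exp (x i) - Real.exp (y i)) * (x i - y i)) =
      -(∑ i ∈ s, p i * Real.exp (x i) * (y i - x i)) - ∑ i ∈ s, p i * Real.exp (y i) * (x i - y i) := by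
    rw [← Finset.sum_neg_distrib, ← Finset.sum_sub_distrib]
    apply Finset.sum_congr rfl
    intro i _
    ring
  rw [h3]
  nlinarith [h1, h2]

variable {m : Type*} [Fintype m] [DecidableEq m]

theorem trace_conj (U X : Matrix m m ℂ) (h : U * star U = 1) :
    trace (star U * X * U) = trace X := by
  rw [Matrix.trace_mul_comm, ← Matrix.mul_assoc, h, Matrix.one_mul]

theorem roepstorff {G : Matrix m m ℂ} (hG : G.IsHermitian) (A : Matrix m m ℂ) (a b c : ℝ)
    (ha : a = (trace (Aᴴ * A * NormedSpace.exp G)).re)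
    (hb : b = (trace (A * Aᴴ * NormedSpace.exp G)).re)
    (hc : c = (trace ((A * (Aᴴ * G - G * Aᴴ) - (Aᴴ * G - G * Aᴴ) * A) * NormedSpace.exp G)).re)
    (hab : a < b) : b - a ≤ a * (Real.exp (c / (b - a)) - 1) := by
  set U : Matrix m m ℂ := (hG.eigenvectorUnitary : Matrix m m ℂ) with hU
  have hUU : star U * U = 1 := Unitary.coe_star_mul_self hG.eigenvectorUnitary
  have hUU' : U * star U = 1 := Unitary.coe_mul_star_self hG.eigenvectorUnitary
  set g := hG.eigenvalues with hg
  set D : Matrix m m ℂ := diagonal (fun i => ((g i : ℝ) : ℂ)) with hD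
  set E : Matrix m m ℂ := diagonal (fun i => ((Real.exp (g i) : ℝ) : ℂ)) with hE
  have hs : G = U * D * star U := by
    have := hG.spectral_theorem
    rw [Unitary.conjStarAlgAut_apply] at this
    exact this
  have he : NormedSpace.exp G = U * E * star U := exp_eq_conj hG
  set A' : Matrix m m ℂ := star U * A * U with hA'
  have hA : A = U * A' * star U := by
    rw [hA']
    calc A = (U * star U) * A * (U * star U) := by rw [hUU', Matrix.one_mul, Matrix.mul_one]
      _ = U * (star U * A * U) * star U := by simp only [Matrix.mul_assoc]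
  have hAh : Aᴴ = U * A'ᴴ * star U := by
    conv_lhs => rw [hA]
    rw [Matrix.conjTranspose_mul, Matrix.conjTranspose_mul, Matrix.star_eq_conjTranspose,
      Matrix.conjTranspose_conjTranspose, Matrix.mul_assoc]
  have hmul : ∀ X Y : Matrix m m ℂ, (U * X * star U) * (U * Y * star U) = U * (X * Y) * star U := by
    intro X Y
    calc (U * X * star U) * (U * Y * star U) = U * X * (star U * U) * Y * star U := by
          simp only [Matrix.mul_assoc]
      _ = U * (X * Y) * star U := by
          rw [hUU, Matrix.mul_one]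
          simp only [Matrix.mul_assoc]
  have hsub : ∀ X Y : Matrix m m ℂ, (U * X * star U) - (U * Y * star U) = U * (X - Y) * star U := by
    intro X Y
    rw [Matrix.mul_sub, Matrix.sub_mul]
  have htr : ∀ X : Matrix m m ℂ, trace (U * X * star U) = trace X := by
    intro X
    rw [Matrix.trace_mul_comm, ← Matrix.mul_assoc, hUU, Matrix.one_mul]
  have hdiag : ∀ (X : Matrix m m ℂ), trace (X * E) = ∑ i, X i i * ((Real.exp (g i) : ℝ) : ℂ) := by
    intro X
    simp only [Matrix.trace, Matrix.diag, hE, Matrix.mul_diagonal]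
  set P : m × m → ℝ := fun ij => Complex.normSq (A' ij.1 ij.2) with hP
  have ea : a = ∑ ij : m × m, P ij * Real.exp (g ij.2) := by
    rw [ha, hAh]
    conv_lhs => rw [hA]
    rw [he, hmul, hmul, htr, hdiag, Complex.re_sum, Fintype.sum_prod_type, Finset.sum_comm]
    apply Finset.sum_congr rfl
    intro j _
    rw [Complex.re_mul_ofReal, Matrix.mul_apply, Complex.re_sum, Finset.sum_mul]
    apply Finset.sum_congr rfl
    intro i _
    simp only [hP, Matrix.conjTranspose_apply]
    rw [RCLike.star_def, ← Complex.normSq_eq_conj_mul_self, Complex.ofReal_re]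
  have eb : b = ∑ ij : m × m, P ij * Real.exp (g ij.1) := by
    rw [hb, hAh]
    conv_lhs => rw [hA]
    rw [he, hmul, hmul, htr, hdiag, Complex.re_sum, Fintype.sum_prod_type]
    apply Finset.sum_congr rfl
    intro i _
    rw [Complex.re_mul_ofReal, Matrix.mul_apply, Complex.re_sum, Finset.sum_mul]
    apply Finset.sum_congr rfl
    intro j _
    simp only [hP, Matrix.conjTranspose_apply]
    rw [RCLike.star_def, mul_comm (A' i j), ← Complex.normSq_eq_conj_mul_self, Complex.ofReal_re]
  have ec : c = ∑ ij : m × m, P ij * ((Real.exp (g ij.1) - Real.exp (g ij.2)) *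
      (g ij.1 - g ij.2)) := by
    rw [hc, hAh]
    conv_lhs => rw [hA, hs]
    rw [← hs, he]
    conv_lhs => rw [hs]
    simp only [hmul, hsub]
    rw [htr, hdiag]
    have hcomm : ∀ i j, (A'ᴴ * D - D * A'ᴴ) j i = star (A' i j) * (((g i - g j : ℝ)) : ℂ) := by
      intro i j
      simp only [hD, Matrix.sub_apply, Matrix.mul_diagonal, Matrix.diagonal_mul,
        Matrix.conjTranspose_apply]
      push_cast
      ring
    have h1 : ∀ i, (A' * (A'ᴴ * D - D * A'ᴴ) - (A'ᴴ * D - D * A'ᴴ) * A') i i =
        (((∑ j, P (i, j) * (g i - g j)) - (∑ j, P (j, i) * (g j - g i)) : ℝ) : ℂ) := by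
      intro i
      rw [Matrix.sub_apply, Matrix.mul_apply, Matrix.mul_apply]
      push_cast
      congr 1
      · apply Finset.sum_congr rfl
        intro j _
        rw [hcomm i j]
        simp only [hP]
        rw [RCLike.star_def, Complex.normSq_eq_conj_mul_self]
        push_cast
        ring
      · apply Finset.sum_congr rfl
        intro j _
        rw [hcomm j i]
        simp only [hP]
        rw [RCLike.star_def, Complex.normSq_eq_conj_mul_self]
        push_cast
        ring
    simp_rw [h1, ← Complex.ofReal_mul]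
    rw [← Complex.ofReal_sum, Complex.ofReal_re]
    simp_rw [sub_mul]
    rw [Finset.sum_sub_distrib]
    have h2 : ∑ i, (∑ j, P (j, i) * (g j - g i)) * Real.exp (g i) =
        ∑ i, ∑ j, P (i, j) * (g i - g j) * Real.exp (g j) := by
      simp_rw [Finset.sum_mul]
      rw [Finset.sum_comm]
    rw [h2, Fintype.sum_prod_type, ← Finset.sum_sub_distrib]
    apply Finset.sum_congr rfl
    intro i _
    rw [Finset.sum_mul, ← Finset.sum_sub_distrib]
    apply Finset.sum_congr rfl
    intro j _
    ring
  have hPnn : ∀ ij ∈ (Finset.univ : Finset (m × m)), 0 ≤ P ij := fun ij _ => Complex.normSq_nonneg _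
  have hann : 0 ≤ a := by
    rw [ea]
    exact Finset.sum_nonneg fun ij h => mul_nonneg (hPnn ij h) (Real.exp_pos _).le
  have hbpos : 0 < b := lt_of_le_of_lt hann hab
  have hapos : 0 < a := by
    rcases hann.lt_or_eq with h | h
    · exact h
    · exfalso
      rw [ea] at h
      have h2 := (Finset.sum_eq_zero_iff_of_nonneg
        (fun ij h => mul_nonneg (hPnn ij h) (Real.exp_pos (g ij.2)).le)).mp h.symm
      have h3 : b = 0 := by
        rw [eb]
        apply Finset.sum_eq_zero
        intro ij hij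
        have h4 := h2 ij hij
        rcases mul_eq_zero.mp h4 with h5 | h5
        · rw [h5, zero_mul]
        · exact absurd h5 (Real.exp_pos _).ne'
      linarith
  have key := log_sum_ineq Finset.univ P (fun ij => g ij.1) (fun ij => g ij.2) hPnn
    (by rw [← ea]; exact hapos) (by rw [← eb]; exact hbpos)
  rw [← ea, ← eb, ← ec] at key
  have hd : 0 < b - a := by linarith
  have h6 : Real.log b - Real.log a ≤ c / (b - a) := by
    rw [le_div_iff₀ hd]
    linarith
  rw [← Real.log_div hbpos.ne' hapos.ne'] at h6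
  have h7 : b / a ≤ Real.exp (c / (b - a)) := by
    have := Real.exp_le_exp.mpr h6
    rwa [Real.exp_log (by positivity)] at this
  rw [div_le_iff₀ hapos] at h7
  linarith

end Vale.Agent.P361.H18
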