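import Vale.Agent.P361.Defs

namespace Vale.Agent.P361

open Matrix

noncomputable section

variable {V : Type*} [Fintype V] [DecidableEq V] {n : ℕ}

theorem sum_offsite {R : Type*} [AddCommMonoid R] (x : V) (σ : V → Fin (n + 1))
    (F : (V → Fin (n + 1)) → R) :
    (∑ ρ : V → Fin (n + 1), if ∀ y, y ≠ x → σ y = ρ y then F ρ else 0) =
      ∑ c : Fin (n + 1), F (Function.update σ x c) := by
  rw [← Finset.sum_filter]
  refine Finset.sum_nbij' (fun ρ => ρ x) (fun c => Function.update σ x c) ?_ ?_ ?_ ?_ ?_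
  · intro ρ _; exact Finset.mem_univ _
  · intro c _
    simp only [Finset.mem_filter, Finset.mem_univ, true_and]
    intro y hy; rw [Function.update_of_ne hy]
  · intro ρ hρ
    simp only [Finset.mem_filter, Finset.mem_univ, true_and] at hρ
    funext y
    by_cases hy : y = x
    · subst hy; simp
    · rw [Function.update_of_ne hy]; exact hρ y hy
  · intro c _; simp
  · intro ρ hρ
    simp only [Finset.mem_filter, Finset.mem_univ, true_and] at hρ
    congr 1
    funext y
    by_cases hy : y = x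
    · subst hy; simp
    · rw [Function.update_of_ne hy]; exact (hρ y hy).symm

theorem siteOp_apply (x : V) (A : Matrix (Fin (n + 1)) (Fin (n + 1)) ℂ) (σ τ : V → Fin (n + 1)) :
    siteOp x A σ τ = if ∀ y, y ≠ x → σ y = τ y then A (σ x) (τ x) else 0 := rfl

theorem siteOp_mul_apply (x : V) (A : Matrix (Fin (n + 1)) (Fin (n + 1)) ℂ)
    (B : Matrix (V → Fin (n + 1)) (V → Fin (n + 1)) ℂ) (σ τ : V → Fin (n + 1)) :
    (siteOp x A * B) σ τ = ∑ c, A (σ x) c * B (Function.update σ x c) τ := by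
  rw [Matrix.mul_apply]
  have : ∀ ρ, siteOp x A σ ρ * B ρ τ =
      if ∀ y, y ≠ x → σ y = ρ y then A (σ x) (ρ x) * B ρ τ else 0 := by
    intro ρ; rw [siteOp_apply]; split_ifs <;> simp
  rw [Finset.sum_congr rfl fun ρ _ => this ρ,
    sum_offsite x σ (fun ρ => A (σ x) (ρ x) * B ρ τ)]
  simp

theorem siteOp_mul (x : V) (A B : Matrix (Fin (n + 1)) (Fin (n + 1)) ℂ) :
    siteOp x (A * B) = siteOp x A * siteOp x B := by
  ext σ τ
  rw [siteOp_mul_apply]
  simp only [siteOp_apply, Function.update_self]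
  have h : ∀ c, (∀ y, y ≠ x → Function.update σ x c y = τ y) ↔ (∀ y, y ≠ x → σ y = τ y) := by
    intro c
    refine forall_congr' fun y => forall_congr' fun hy => ?_
    rw [Function.update_of_ne hy]
  simp only [h]
  split_ifs with h1
  · rw [Matrix.mul_apply]
  · simp

theorem siteOp_mul_ne {x y : V} (hxy : x ≠ y) (A B : Matrix (Fin (n + 1)) (Fin (n + 1)) ℂ)
    (σ τ : V → Fin (n + 1)) :
    (siteOp x A * siteOp y B) σ τ =
      if ∀ z, z ≠ x → z ≠ y → σ z = τ z then A (σ x) (τ x) * B (σ y) (τ y) else 0 := by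
  rw [siteOp_mul_apply]
  simp only [siteOp_apply, Function.update_of_ne hxy.symm]
  by_cases h : ∀ z, z ≠ x → z ≠ y → σ z = τ z
  · rw [if_pos h, Finset.sum_eq_single (τ x)]
    · rw [if_pos]
      intro z hz
      by_cases hzx : z = x
      · subst hzx; simp
      · rw [Function.update_of_ne hzx]; exact h z hzx hz
    · intro c _ hc
      rw [if_neg, mul_zero]
      intro hh
      have := hh x hxy
      rw [Function.update_self] at this
      exact hc this
    · intro hh; exact absurd (Finset.mem_univ _) hh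
  · rw [if_neg h]
    refine Finset.sum_eq_zero fun c _ => ?_
    rw [if_neg, mul_zero]
    intro hh
    apply h
    intro z hzx hzy
    have := hh z hzy
    rwa [Function.update_of_ne hzx] at this

theorem siteOp_comm {x y : V} (hxy : x ≠ y) (A B : Matrix (Fin (n + 1)) (Fin (n + 1)) ℂ) :
    siteOp x A * siteOp y B = siteOp y B * siteOp x A := by
  ext σ τ
  rw [siteOp_mul_ne hxy, siteOp_mul_ne hxy.symm]
  have : (∀ z, z ≠ x → z ≠ y → σ z = τ z) ↔ (∀ z, z ≠ y → z ≠ x → σ z = τ z) :=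
    ⟨fun h z h1 h2 => h z h2 h1, fun h z h1 h2 => h z h2 h1⟩
  simp only [this, mul_comm]

theorem siteOp_add (x : V) (A B : Matrix (Fin (n + 1)) (Fin (n + 1)) ℂ) :
    siteOp x (A + B) = siteOp x A + siteOp x B := by
  ext σ τ
  simp only [siteOp_apply, Matrix.add_apply]
  split_ifs <;> simp

theorem siteOp_smul (x : V) (c : ℂ) (A : Matrix (Fin (n + 1)) (Fin (n + 1)) ℂ) :
    siteOp x (c • A) = c • siteOp x A := by
  ext σ τ
  simp only [siteOp_apply, Matrix.smul_apply]
  split_ifs <;> simp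

theorem siteOp_sub (x : V) (A B : Matrix (Fin (n + 1)) (Fin (n + 1)) ℂ) :
    siteOp x (A - B) = siteOp x A - siteOp x B := by
  ext σ τ
  simp only [siteOp_apply, Matrix.sub_apply]
  split_ifs <;> simp

theorem siteOp_one (x : V) : siteOp x (1 : Matrix (Fin (n + 1)) (Fin (n + 1)) ℂ) = 1 := by
  ext σ τ
  rw [siteOp_apply]
  by_cases h : σ = τ
  · subst h; simp
  · rw [Matrix.one_apply_ne h]
    split_ifs with h1
    · rw [Matrix.one_apply_ne]
      intro hx
      apply h
      funext y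
      by_cases hy : y = x
      · subst hy; exact hx
      · exact h1 y hy
    · rfl

theorem siteOp_conjTranspose (x : V) (A : Matrix (Fin (n + 1)) (Fin (n + 1)) ℂ) :
    (siteOp x A)ᴴ = siteOp x Aᴴ := by
  ext σ τ
  rw [Matrix.conjTranspose_apply, siteOp_apply, siteOp_apply, Matrix.conjTranspose_apply]
  have : (∀ y, y ≠ x → τ y = σ y) ↔ (∀ y, y ≠ x → σ y = τ y) :=
    ⟨fun h y hy => (h y hy).symm, fun h y hy => (h y hy).symm⟩
  simp only [this]
  split_ifs <;> simp

theorem siteOp_transpose (x : V) (A : Matrix (Fin (n + 1)) (Fin (n + 1)) ℂ) :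
    (siteOp x A)ᵀ = siteOp x Aᵀ := by
  ext σ τ
  rw [Matrix.transpose_apply, siteOp_apply, siteOp_apply, Matrix.transpose_apply]
  have : (∀ y, y ≠ x → τ y = σ y) ↔ (∀ y, y ≠ x → σ y = τ y) :=
    ⟨fun h y hy => (h y hy).symm, fun h y hy => (h y hy).symm⟩
  simp only [this]

theorem Sz_conjTranspose (n : ℕ) : (Sz n)ᴴ = Sz n := by
  rw [Sz, Matrix.diagonal_conjTranspose]
  congr 1
  funext i
  simp

theorem Sz_transpose (n : ℕ) : (Sz n)ᵀ = Sz n := by
  rw [Sz, Matrix.diagonal_transpose]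

theorem Sp_conjTranspose_eq_transpose (n : ℕ) : (Sp n)ᴴ = (Sp n)ᵀ := by
  ext i j
  rw [Matrix.conjTranspose_apply, Matrix.transpose_apply, Sp, Matrix.of_apply]
  split_ifs
  · exact Complex.conj_ofReal _
  · simp

theorem Sp_apply (n : ℕ) (i j : Fin (n + 1)) : Sp n i j = if (i : ℕ) + 1 = (j : ℕ) then
    ((Real.sqrt ((j : ℕ) * ((n : ℝ) + 1 - (j : ℕ))) : ℝ) : ℂ) else 0 := rfl

theorem Sp_cT_apply (n : ℕ) (i j : Fin (n + 1)) : (Sp n)ᴴ i j = if (j : ℕ) + 1 = (i : ℕ) then
    ((Real.sqrt ((i : ℕ) * ((n : ℝ) + 1 - (i : ℕ))) : ℝ) : ℂ) else 0 := by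
  rw [Sp_conjTranspose_eq_transpose, Matrix.transpose_apply, Sp_apply]

/-- S^- S^+ is diagonal with entries i (n+1-i). -/
theorem Sm_mul_Sp (n : ℕ) : (Sp n)ᴴ * Sp n =
    Matrix.diagonal fun i : Fin (n + 1) => (((i : ℕ) * ((n : ℝ) + 1 - (i : ℕ)) : ℝ) : ℂ) := by
  ext i j
  rw [Matrix.mul_apply, Matrix.diagonal_apply]
  have hnn : ∀ i : Fin (n + 1), (0 : ℝ) ≤ (i : ℕ) * ((n : ℝ) + 1 - (i : ℕ)) := by
    intro i
    have : ((i : ℕ) : ℝ) ≤ n := by exact_mod_cast Nat.lt_succ_iff.1 i.2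
    exact mul_nonneg (by positivity) (by linarith)
  by_cases hij : i = j
  · subst hij
    rw [if_pos rfl]
    rcases Nat.eq_zero_or_pos (i : ℕ) with h0 | hpos
    · rw [Finset.sum_eq_zero]
      · rw [h0]; simp
      · intro k _
        rw [Sp_cT_apply, if_neg (by omega), zero_mul]
    · rw [Finset.sum_eq_single (⟨(i : ℕ) - 1, by omega⟩ : Fin (n + 1))]
      · rw [Sp_cT_apply, Sp_apply, if_pos (by simp; omega),
          ← Complex.ofReal_mul, Real.mul_self_sqrt (hnn i)]
      · intro k _ hk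
        rw [Sp_cT_apply, if_neg, zero_mul]
        intro h
        apply hk
        ext
        simp; omega
      · intro h; exact absurd (Finset.mem_univ _) h
  · rw [if_neg hij]
    refine Finset.sum_eq_zero fun k _ => ?_
    rw [Sp_cT_apply, Sp_apply]
    by_cases h1 : (k : ℕ) + 1 = (i : ℕ)
    · rw [if_neg (fun h2 => hij (Fin.ext (h1.symm.trans h2))), mul_zero]
    · rw [if_neg h1, zero_mul]

/-- S^+ S^- is diagonal with entries (i+1) (n-i). -/
theorem Sp_mul_Sm (n : ℕ) : Sp n * (Sp n)ᴴ =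
    Matrix.diagonal fun i : Fin (n + 1) => ((((i : ℕ) + 1) * ((n : ℝ) - (i : ℕ)) : ℝ) : ℂ) := by
  ext i j
  rw [Matrix.mul_apply, Matrix.diagonal_apply]
  by_cases hij : i = j
  · subst hij
    rw [if_pos rfl]
    rcases Nat.lt_or_ge (i : ℕ) n with hlt | hge
    · rw [Finset.sum_eq_single (⟨(i : ℕ) + 1, by omega⟩ : Fin (n + 1))]
      · rw [Sp_cT_apply, Sp_apply, if_pos (by simp),
          ← Complex.ofReal_mul, Real.mul_self_sqrt]
        · congr 1; push_cast; ring
        · have : ((i : ℕ) : ℝ) + 1 ≤ n := by exact_mod_cast hlt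
          push_cast
          exact mul_nonneg (by positivity) (by linarith)
      · intro k _ hk
        rw [Sp_apply, if_neg, zero_mul]
        intro h
        apply hk
        ext
        simp; omega
      · intro h; exact absurd (Finset.mem_univ _) h
    · have hin : (i : ℕ) = n := by have := i.2; omega
      rw [Finset.sum_eq_zero]
      · rw [hin]; simp
      · intro k _
        have := k.2
        rw [Sp_apply, if_neg (by omega), zero_mul]
  · rw [if_neg hij]
    refine Finset.sum_eq_zero fun k _ => ?_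
    rw [Sp_cT_apply, Sp_apply]
    by_cases h1 : (i : ℕ) + 1 = (k : ℕ)
    · rw [if_neg (fun h2 : (j : ℕ) + 1 = (k : ℕ) => hij (Fin.ext (by omega))), mul_zero]
    · rw [if_neg h1, zero_mul]

theorem Sp_comm_Sm (n : ℕ) : Sp n * (Sp n)ᴴ - (Sp n)ᴴ * Sp n = (2 : ℂ) • Sz n := by
  rw [Sp_mul_Sm, Sm_mul_Sp, Sz]
  ext i j
  rw [Matrix.sub_apply, Matrix.smul_apply, Matrix.diagonal_apply, Matrix.diagonal_apply,
    Matrix.diagonal_apply]
  split_ifs
  · push_cast; simp only [smul_eq_mul]; ring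
  · simp

theorem Sz_comm_Sp (n : ℕ) : Sz n * Sp n - Sp n * Sz n = Sp n := by
  ext i j
  rw [Matrix.sub_apply, Sz, Matrix.diagonal_mul, Matrix.mul_diagonal, Sp_apply]
  split_ifs with h
  · have : ((j : ℕ) : ℂ) = (i : ℕ) + 1 := by exact_mod_cast h.symm
    rw [this]; ring
  · ring

theorem Sz_comm_Sm (n : ℕ) : Sz n * (Sp n)ᴴ - (Sp n)ᴴ * Sz n = -(Sp n)ᴴ := by
  have h := congrArg Matrix.conjTranspose (Sz_comm_Sp n)
  rw [Matrix.conjTranspose_sub, Matrix.conjTranspose_mul, Matrix.conjTranspose_mul,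
    Sz_conjTranspose] at h
  rw [← neg_sub, h]

end

end Vale.Agent.P361
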